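import Crest.Agent.R245.Basic

/-! Row 245: the jets of `ψ₀`, `A` and `λ`. -/

set_option autoImplicit false

open Complex Crest.GeometryTopology
open scoped ContDiff ComplexConjugate Topology

namespace Crest.Agent.R245

namespace AJ

/-- the jet of `nsq` -/
noncomputable def qj (p : E 2) (F : Fr 2) : J :=
  J.mk16 (ip p p) (ip p F.Z) (ip p F.W) (ip p F.c) (ip F.X p) (ip F.X F.Z) (ip F.X F.W) (ip F.X F.c)
    (ip F.Y p) (ip F.Y F.Z) (ip F.Y F.W) (ip F.Y F.c) (ip F.b p) (ip F.b F.Z) (ip F.b F.W)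
    (ip F.b F.c)

theorem jet_nsq (F : Fr 2) (p : E 2) : jet F (cx nsq) p = qj p F := by
  have e : (cx nsq : E 2 → ℂ) = fun x => ∑ i, x i * conj (x i) := funext fun x => cx_nsq x
  have s1 : ∀ i : Fin 2, ContDiffOn ℝ ∞ (fun x : E 2 => x i) Set.univ := fun i =>
    (contDiff_apply ℝ ℂ i).contDiffOn
  have s2 : ∀ i : Fin 2, ContDiffOn ℝ ∞ (fun x : E 2 => conj (x i)) Set.univ := fun i =>
    (conjCLE.contDiff.comp (contDiff_apply ℝ ℂ i)).contDiffOn
  rw [e, jet_sum isOpen_univ (Set.mem_univ p) F _ fun i _ => (s1 i).mul (s2 i)]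
  simp only [jet_mul isOpen_univ (Set.mem_univ p) F (s1 _) (s2 _), jet_coord, jet_conj_coord,
    Fin.sum_univ_two]
  ext <;> simp [qj, ip_two]

theorem jet_nsq_sub (a : E 2) (F : Fr 2) (p : E 2) :
    jet F (cx fun x => nsq (x - a)) p = qj (p - a) F := by
  have h := jet_affine (ContinuousLinearMap.id ℂ (E 2)) (-a) isOpen_univ
    (ofReal_smooth (contDiff_nsq (n := 2)).contDiffOn) (Set.mem_univ _) F (p := p)
  simp only [ContinuousLinearMap.id_apply, ← sub_eq_add_neg] at h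
  exact h.trans (jet_nsq _ _)

theorem jet_hh (F : Fr 2) (p : E 2) : jet F (cx hh) p = J.C 1 - qj p F := by
  have e : cx hh = fun x => (1 : ℂ) - cx nsq x := by
    funext x
    simp [hh, cx]
  rw [e, jet_sub isOpen_univ (Set.mem_univ p) F contDiffOn_const
    (ofReal_smooth contDiff_nsq.contDiffOn), jet_const, jet_nsq]

/-- composition with the logarithm -/
noncomputable def lg (P : ℝ) (j : J) : J :=
  J.comp (Real.log P) (P : ℂ)⁻¹ (-((P : ℂ) ^ 2)⁻¹) (2 * ((P : ℂ) ^ 3)⁻¹) (-6 * ((P : ℂ) ^ 4)⁻¹) j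

theorem jet_loghh {z : E 2} (hz : z ∈ Bl 2) (F : Fr 2) :
    jet F (fun x => (Real.log (hh x) : ℂ)) z = lg (hh z) (J.C 1 - qj z F) := by
  rw [jet_log isOpen_Bl hz F contDiff_hh.contDiffOn fun _ hx => hh_pos hx, jet_hh]
  rfl

theorem loghh_smooth : ContDiffOn ℝ ∞ (fun x => Real.log (hh x)) (Bl 2) :=
  contDiff_hh.contDiffOn.log fun _ hz => (hh_pos hz).ne'

theorem logP_smooth : ContDiffOn ℝ ∞ (fun x => Real.log (hh x + beta x)) (Bl 2) :=
  (contDiff_hh.add contDiff_beta).contDiffOn.log fun _ hz => (hh_add_beta_pos hz).ne'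

theorem jet_psi0 {z : E 2} (hz : z ∈ Bl 2) (F : Fr 2) :
    jet F (cx psi0) z = -jet F (fun x => (Real.log (hh x) : ℂ)) z := by
  rw [← jet_neg isOpen_Bl hz F (ofReal_smooth loghh_smooth)]
  congr 1
  funext x
  simp only [psi0, cx, ofReal_neg]

theorem ip_neg_right (x a : E 2) : ip x (-a) = -ip x a := by
  simp only [ip, Pi.neg_apply, map_neg, mul_neg, Finset.sum_neg_distrib]

theorem ip_bh_left (z X Y V : E 2) :
    ip (bh z X Y) V = -(ip X z / (hh z : ℂ) * ip Y V + ip Y z / (hh z : ℂ) * ip X V) := by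
  rw [bh, ip_neg_left, ip_add_left, ip_smul_left, ip_smul_left]

theorem ip_bh_right (z X Y V : E 2) :
    ip V (bh z X Y) = -(ip z X / (hh z : ℂ) * ip V Y + ip z Y / (hh z : ℂ) * ip V X) := by
  rw [bh, ip_neg_right, ip_add_right, ip_smul_right, ip_smul_right, map_div₀, map_div₀, ip_conj,
    ip_conj, conj_ofReal]

/-! ### norm bounds -/

theorem norm_nil_qj {p : E 2} {F : Fr 2} {a b : ℝ}
    (h1 : ∀ V ∈ [F.X, F.Y, F.b, F.Z, F.W, F.c], ‖ip V p‖ ≤ a)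
    (h2 : ∀ V ∈ [F.X, F.Y, F.b, F.Z, F.W, F.c], Real.sqrt (nsq V) ≤ b) :
    ‖J.nil (qj p F)‖ ≤ 6 * a + 9 * b ^ 2 := by
  have h3 : ∀ V ∈ [F.X, F.Y, F.b, F.Z, F.W, F.c], ‖ip p V‖ ≤ a := fun V hV => by
    rw [← ip_conj, Complex.norm_conj]
    exact h1 V hV
  have h4 : ∀ V ∈ [F.X, F.Y, F.b, F.Z, F.W, F.c], ∀ V' ∈ [F.X, F.Y, F.b, F.Z, F.W, F.c],
      ‖ip V V'‖ ≤ b ^ 2 := fun V hV V' hV' => by
    rw [sq]
    exact (norm_ip_le V V').trans (mul_le_mul (h2 V hV) (h2 V' hV') (Real.sqrt_nonneg _)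
      ((Real.sqrt_nonneg _).trans (h2 V hV)))
  simp only [List.mem_cons, List.not_mem_nil, or_false, forall_eq_or_imp, forall_eq] at h1 h3 h4
  obtain ⟨a1, a2, a3, -, -, -⟩ := h1
  obtain ⟨-, -, -, a4, a5, a6⟩ := h3
  obtain ⟨⟨-, -, -, b1, b2, b3⟩, ⟨-, -, -, b4, b5, b6⟩, ⟨-, -, -, b7, b8, b9⟩, -, -, -⟩ := h4
  rw [J.norm_eq]
  simp [qj, J.nil]
  linarith

theorem norm_nil_lg {P D M : ℝ} (hP : 0 < P) {j : J} (h : ‖J.nil j‖ ≤ D * P) (hM : D ≤ M) :
    ‖J.nil (lg P j)‖ ≤ (1 + M) ^ 3 * D := by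
  have h0 := norm_nonneg (J.nil j)
  have hD : 0 ≤ D := by
    by_contra hc
    have := mul_neg_of_neg_of_pos (not_le.1 hc) hP
    linarith
  have hM0 : 0 ≤ M := hD.trans hM
  refine (J.norm_nil_comp_le _ _ _ _ _ _).trans ?_
  simp only [norm_inv, norm_neg, norm_mul, norm_pow, Complex.norm_real, Real.norm_of_nonneg hP.le,
    Complex.norm_ofNat]
  set t := ‖J.nil j‖ / P with ht
  have ht0 : 0 ≤ t := div_nonneg h0 hP.le
  have htD : t ≤ D := by rw [ht, div_le_iff₀ hP]; exact h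
  have e : ‖J.nil j‖ = t * P := by rw [ht]; field_simp
  rw [e]
  have e2 : P⁻¹ * (t * P) + ((P ^ 2)⁻¹ / 2 * (t * P) ^ 2 + 2 * (P ^ 3)⁻¹ / 6 * (t * P) ^ 3 +
      6 * (P ^ 4)⁻¹ / 24 * (t * P) ^ 4) = t + t ^ 2 / 2 + t ^ 3 / 3 + t ^ 4 / 4 := by
    field_simp
    ring
  rw [e2]
  have htM : t ≤ M := htD.trans hM
  have e3 : t ^ 2 ≤ M * D := by rw [sq]; gcongr
  have e4 : t ^ 3 ≤ M ^ 2 * D := by rw [pow_succ]; gcongr
  have e5 : t ^ 4 ≤ M ^ 3 * D := by rw [pow_succ]; gcongr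
  have a1 : 0 ≤ M * D := mul_nonneg hM0 hD
  have a2 : 0 ≤ M ^ 2 * D := by positivity
  have a3 : 0 ≤ M ^ 3 * D := by positivity
  nlinarith

theorem pow_oo (j : J) (m : ℕ) : (j ^ m).oo = j.oo ^ m := by
  induction m with
  | zero => simp
  | succ m ih =>
    rw [pow_succ, pow_succ, ← ih]
    rfl

theorem norm_nil_pow {j : J} {s e M : ℝ} (hs : ‖j.oo‖ ≤ s) (he : 0 ≤ e) (h : ‖J.nil j‖ ≤ e * s)
    (hM : e ≤ M) (m : ℕ) : ‖J.nil (j ^ m)‖ ≤ m * (1 + M) ^ m * e * s ^ m := by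
  have hs0 : 0 ≤ s := (norm_nonneg _).trans hs
  have hM0 : 0 ≤ M := he.trans hM
  induction m with
  | zero =>
    have : J.nil 1 = 0 := by simpa using J.nil_C 1
    simp [this]
  | succ m ih =>
    rw [pow_succ]
    refine (J.norm_nil_mul_le _ _).trans ?_
    have h1 : ‖(j ^ m).oo‖ ≤ s ^ m := by
      rw [pow_oo, norm_pow]
      exact pow_le_pow_left₀ (norm_nonneg _) hs m
    have h2 : (1 : ℝ) ≤ (1 + M) ^ (m + 1) := one_le_pow₀ (by linarith)
    calc _ ≤ s ^ m * (e * s) + s * (m * (1 + M) ^ m * e * s ^ m) +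
          m * (1 + M) ^ m * e * s ^ m * (M * s) := by
          have h3 : ‖J.nil j‖ ≤ M * s := h.trans (mul_le_mul_of_nonneg_right hM hs0)
          gcongr
      _ = (1 + m * (1 + M) ^ (m + 1)) * (e * s ^ (m + 1)) := by ring
      _ ≤ ((1 + M) ^ (m + 1) + m * (1 + M) ^ (m + 1)) * (e * s ^ (m + 1)) := by gcongr
      _ = _ := by push_cast; ring

/-- the vectors of a subunit frame -/
theorem subunit {z X : E 2} (hz : z ∈ Bl 2) (hX : omq z X ≤ 1) :
    Real.sqrt (nsq X) ≤ Real.sqrt (hh z) ∧ ‖ip X z‖ ≤ hh z := by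
  have h := hh_pos hz
  unfold omq at hX
  have h1 : 0 ≤ nsq X / hh z := div_nonneg (nsq_nonneg X) h.le
  have h2 : 0 ≤ ‖ip X z‖ ^ 2 / hh z ^ 2 := by positivity
  constructor
  · exact Real.sqrt_le_sqrt ((div_le_one h).1 (by linarith))
  · exact le_of_pow_le_pow_left₀ two_ne_zero h.le ((div_le_one (by positivity)).1 (by linarith))

theorem subunit_bh {z X Y : E 2} (hz : z ∈ Bl 2) (hX : omq z X ≤ 1) (hY : omq z Y ≤ 1) :
    Real.sqrt (nsq (bh z X Y)) ≤ 2 * Real.sqrt (hh z) ∧ ‖ip (bh z X Y) z‖ ≤ 2 * hh z := by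
  have h := hh_pos hz
  obtain ⟨a1, a2⟩ := subunit hz hX
  obtain ⟨b1, b2⟩ := subunit hz hY
  have c : ∀ {V : E 2}, ‖ip V z‖ ≤ hh z → ‖ip V z / (hh z : ℂ)‖ ≤ 1 := fun hV => by
    rw [norm_div, Complex.norm_real, Real.norm_of_nonneg h.le]
    exact (div_le_one h).2 hV
  have d : ∀ {c : ℂ} {V : E 2}, ‖c‖ ≤ 1 → Real.sqrt (nsq (c • V)) ≤ Real.sqrt (nsq V) := by
    intro c V hc
    rw [nsq_smul]
    refine Real.sqrt_le_sqrt ?_
    exact mul_le_of_le_one_left (nsq_nonneg V) (pow_le_one₀ (norm_nonneg _) hc)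
  constructor
  · rw [bh, nsq_neg]
    have := sqrt_nsq_add_le ((ip X z / (hh z : ℂ)) • Y) ((ip Y z / (hh z : ℂ)) • X)
    have h1 := d (V := Y) (c a2)
    have h2 := d (V := X) (c b2)
    linarith
  · rw [ip_bh_left, norm_neg]
    refine (norm_add_le _ _).trans ?_
    rw [norm_mul, norm_mul]
    have h1 := mul_le_of_le_one_left (norm_nonneg (ip Y z)) (c a2)
    have h2 := mul_le_of_le_one_left (norm_nonneg (ip X z)) (c b2)
    linarith

/-- the properties of a subunit frame that are used -/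
def Sub (z : E 2) (F : Fr 2) : Prop :=
  ∀ V ∈ [F.X, F.Y, F.b, F.Z, F.W, F.c],
    Real.sqrt (nsq V) ≤ 2 * Real.sqrt (hh z) ∧ ‖ip V z‖ ≤ 2 * hh z

theorem sub_ofr {z X Y Z W : E 2} (hz : z ∈ Bl 2) (hX : omq z X ≤ 1) (hY : omq z Y ≤ 1)
    (hZ : omq z Z ≤ 1) (hW : omq z W ≤ 1) : Sub z (ofr z X Y Z W) := by
  have h := hh_pos hz
  have a : ∀ {V : E 2}, omq z V ≤ 1 →
      Real.sqrt (nsq V) ≤ 2 * Real.sqrt (hh z) ∧ ‖ip V z‖ ≤ 2 * hh z := fun hV => by
    obtain ⟨a1, a2⟩ := subunit hz hV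
    have := Real.sqrt_nonneg (hh z)
    constructor <;> linarith
  simp only [Sub, ofr, List.mem_cons, List.not_mem_nil, or_false, forall_eq_or_imp, forall_eq]
  exact ⟨a hX, a hY, subunit_bh hz hX hY, a hZ, a hW, subunit_bh hz hZ hW⟩

theorem nil_hh {z : E 2} (hz : z ∈ Bl 2) {F : Fr 2} (hF : Sub z F) :
    ‖J.nil (J.C 1 - qj z F)‖ ≤ 48 * hh z := by
  rw [J.nil_sub, J.nil_C, zero_sub, norm_neg]
  refine (norm_nil_qj (fun V hV => (hF V hV).2) fun V hV => (hF V hV).1).trans (le_of_eq ?_)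
  rw [mul_pow, Real.sq_sqrt (hh_pos hz).le]
  ring

theorem sqrt_r_le {z : E 2} (hz : z ∈ Bl 2) : Real.sqrt (nsq (z - q0)) ≤ 2 := by
  have h1 := sqrt_nsq_add_le z (-q0)
  rw [← sub_eq_add_neg, nsq_neg] at h1
  have h2 : nsq q0 = 1 := by simp [nsq_two, q0]
  have h3 : Real.sqrt (nsq z) ≤ 1 := Real.sqrt_le_one.2 (le_of_lt hz)
  rw [h2, Real.sqrt_one] at h1
  linarith

theorem nil_r {z : E 2} (hz : z ∈ Bl 2) {F : Fr 2} (hF : Sub z F) :
    ‖J.nil (qj (z - q0) F)‖ ≤ 60 * Real.sqrt (hh z) := by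
  have hs0 := Real.sqrt_nonneg (hh z)
  have hs1 : Real.sqrt (hh z) ≤ 1 := Real.sqrt_le_one.2 (hh_le_one z)
  refine (norm_nil_qj (a := 2 * Real.sqrt (hh z) * 2) (fun V hV => ?_)
    fun V hV => (hF V hV).1).trans ?_
  · exact (norm_ip_le _ _).trans (mul_le_mul (hF V hV).1 (sqrt_r_le hz) (Real.sqrt_nonneg _)
      (by positivity))
  · nlinarith

/-- the cut-off as a function of the squared distance -/
noncomputable def gb (t : ℝ) : ℝ := Real.smoothTransition (16 - 144 * t)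

theorem gb_smooth : ContDiff ℝ ∞ gb :=
  Real.smoothTransition.contDiff.comp (contDiff_const.sub (contDiff_const.mul contDiff_id))

theorem r_smooth : ContDiff ℝ ∞ fun x : E 2 => nsq (x - q0) :=
  contDiff_nsq.comp (contDiff_id.sub contDiff_const)

theorem exists_nil_b : ∃ C : ℝ, 0 ≤ C ∧ ∀ z ∈ Bl 2, ∀ F, Sub z F →
    ‖J.nil (jet F (fun x => (gb (nsq (x - q0)) : ℂ)) z)‖ ≤ C * Real.sqrt (hh z) := by
  have st : ∀ {g : ℝ → ℝ}, ContDiff ℝ ∞ g → ContDiff ℝ ∞ (deriv g) := fun h =>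
    (contDiff_infty_iff_deriv.1 h).2
  have bd : ∀ {g : ℝ → ℝ}, ContDiff ℝ ∞ g → ∃ c, 0 ≤ c ∧ ∀ t ∈ Set.Icc (0 : ℝ) 4, ‖g t‖ ≤ c := by
    intro g hg
    obtain ⟨c, hc⟩ := (isCompact_Icc (a := (0 : ℝ)) (b := 4)).exists_bound_of_continuousOn
      hg.continuous.continuousOn
    exact ⟨c, (norm_nonneg _).trans (hc 0 (by norm_num)), hc⟩
  obtain ⟨c1, p1, h1⟩ := bd (st gb_smooth)
  obtain ⟨c2, p2, h2⟩ := bd (st (st gb_smooth))
  obtain ⟨c3, p3, h3⟩ := bd (st (st (st gb_smooth)))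
  obtain ⟨c4, p4, h4⟩ := bd (st (st (st (st gb_smooth))))
  refine ⟨(c1 + c2 + c3 + c4) * (1 + 60) ^ 3 * 60, by positivity, fun z hz F hF => ?_⟩
  have hr : nsq (z - q0) ∈ Set.Icc (0 : ℝ) 4 := by
    refine ⟨nsq_nonneg _, ?_⟩
    have := pow_le_pow_left₀ (Real.sqrt_nonneg _) (sqrt_r_le hz) 2
    rw [Real.sq_sqrt (nsq_nonneg _)] at this
    linarith
  have hs1 : Real.sqrt (hh z) ≤ 1 := Real.sqrt_le_one.2 (hh_le_one z)
  rw [jet_comp_smooth isOpen_univ (Set.mem_univ z) F r_smooth.contDiffOn gb_smooth]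
  have e : jet F (fun x => ((nsq (x - q0) : ℝ) : ℂ)) z = qj (z - q0) F := jet_nsq_sub q0 F z
  rw [e, mul_assoc _ 60]
  refine J.norm_nil_comp_le' ?_ ?_ ?_ ?_ (nil_r hz hF) (by linarith) <;> rw [Complex.norm_real]
  · linarith [h1 _ hr]
  · linarith [h2 _ hr]
  · linarith [h3 _ hr]
  · linarith [h4 _ hr]

/-- `δ = e^{-y/2}` -/
noncomputable def dl (z : E 2) : ℝ := Real.sqrt (hh z) / Real.sqrt (hh z + beta z)

theorem dl_pos {z : E 2} (hz : z ∈ Bl 2) : 0 < dl z :=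
  div_pos (Real.sqrt_pos.2 (hh_pos hz)) (Real.sqrt_pos.2 (hh_add_beta_pos hz))

theorem dl_le_one {z : E 2} (hz : z ∈ Bl 2) : dl z ≤ 1 :=
  (div_le_one (Real.sqrt_pos.2 (hh_add_beta_pos hz))).2
    (Real.sqrt_le_sqrt (le_add_of_nonneg_right (beta_nonneg z)))

theorem yy_mul_dl {z : E 2} (hz : z ∈ Bl 2) : yy z * dl z ≤ 2 := by
  have h := hh_pos hz
  have hP := hh_add_beta_pos hz
  have hd := dl_pos hz
  have e : yy z = 2 * Real.log (dl z)⁻¹ := by
    rw [dl, inv_div, Real.log_div (Real.sqrt_pos.2 hP).ne' (Real.sqrt_pos.2 h).ne',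
      Real.log_sqrt hP.le, Real.log_sqrt h.le, yy]
    ring
  have h1 := Real.log_le_sub_one_of_pos (inv_pos.2 hd)
  have h2 : (dl z)⁻¹ * dl z = 1 := inv_mul_cancel₀ hd.ne'
  rw [e]
  nlinarith

theorem exists_nil_u : ∃ C : ℝ, 0 ≤ C ∧ ∀ z ∈ Bl 2, ∀ F, Sub z F →
    ‖J.nil (jet F (fun x => (Real.log (hh x + beta x) : ℂ)) z)‖ ≤ C * dl z := by
  obtain ⟨C, hC, hb⟩ := exists_nil_b
  set K := 48 + 2 * C + C ^ 2 with hK
  have hK0 : 0 ≤ K := by positivity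
  refine ⟨(1 + K) ^ 3 * K, by positivity, fun z hz F hF => ?_⟩
  have h := hh_pos hz
  have hP := hh_add_beta_pos hz
  have sb : ContDiffOn ℝ ∞ (fun x : E 2 => (gb (nsq (x - q0)) : ℂ)) (Bl 2) :=
    ofReal_smooth (gb_smooth.comp r_smooth).contDiffOn
  rw [jet_log isOpen_Bl hz F (contDiff_hh.add contDiff_beta).contDiffOn
    fun _ hx => hh_add_beta_pos hx, mul_assoc]
  have e : (fun x => ((hh x + beta x : ℝ) : ℂ))
      = fun x => cx hh x + (gb (nsq (x - q0)) : ℂ) * (gb (nsq (x - q0)) : ℂ) := by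
    funext x
    simp only [beta, gb, cx, sq, ofReal_add, ofReal_mul]
  refine norm_nil_lg hP ?_ (mul_le_of_le_one_right hK0 (dl_le_one hz))
  rw [e, jet_add isOpen_Bl hz F (ofReal_smooth contDiff_hh.contDiffOn) (sb.mul sb),
    jet_mul isOpen_Bl hz F sb sb, jet_hh, J.nil_add]
  refine (norm_add_le _ _).trans ((add_le_add (nil_hh hz hF) (J.norm_nil_mul_le _ _)).trans ?_)
  have h1 := hb z hz F hF
  rw [jet_oo, Complex.norm_real]
  set N := ‖J.nil (jet F (fun x => (gb (nsq (x - q0)) : ℂ)) z)‖ with hN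
  have hN0 : 0 ≤ N := norm_nonneg _
  set s := Real.sqrt (hh z) with hs
  set q := Real.sqrt (hh z + beta z) with hq
  have hs0 : 0 ≤ s := Real.sqrt_nonneg _
  have hq0 : 0 < q := Real.sqrt_pos.2 hP
  have hsq : s ≤ q := Real.sqrt_le_sqrt (le_add_of_nonneg_right (beta_nonneg z))
  have hbq : ‖gb (nsq (z - q0))‖ ≤ q := by
    refine Real.le_sqrt_of_sq_le ?_
    rw [Real.norm_eq_abs, sq_abs]
    exact le_add_of_nonneg_left h.le
  have e1 : hh z = s * s := (Real.mul_self_sqrt h.le).symm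
  have e2 : K * dl z * (hh z + beta z) = K * (s * q) := by
    rw [← Real.mul_self_sqrt hP.le, ← hq, dl, ← hs, ← hq]
    field_simp
  rw [e2, e1, hK]
  have a1 : ‖gb (nsq (z - q0))‖ * N ≤ q * (C * s) := mul_le_mul hbq h1 hN0 hq0.le
  have a2 : N * N ≤ C * s * (C * q) :=
    mul_le_mul h1 (h1.trans (mul_le_mul_of_nonneg_left hsq hC)) hN0 (by positivity)
  have a3 : s * s ≤ s * q := mul_le_mul_of_nonneg_left hsq hs0
  nlinarith

theorem nil_l {z : E 2} (hz : z ∈ Bl 2) {F : Fr 2} (hF : Sub z F) :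
    ‖J.nil (jet F (fun x => (Real.log (hh x) : ℂ)) z)‖ ≤ (1 + 48) ^ 3 * 48 := by
  rw [jet_loghh hz]
  exact norm_nil_lg (hh_pos hz) (nil_hh hz hF) le_rfl

theorem jet_yy {z : E 2} (hz : z ∈ Bl 2) (F : Fr 2) :
    jet F (fun x => (yy x : ℂ)) z = jet F (fun x => (Real.log (hh x + beta x) : ℂ)) z -
      jet F (fun x => (Real.log (hh x) : ℂ)) z := by
  rw [← jet_sub isOpen_Bl hz F (ofReal_smooth logP_smooth) (ofReal_smooth loghh_smooth)]
  simp only [yy, ofReal_sub]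

/-! ### the derivatives of `sig` -/

noncomputable def sk (η σ : ℝ) (k : ℕ) (y : ℝ) : ℝ :=
  (1 - σ) * (-η) ^ k * k.factorial * ((1 + η * y)⁻¹) ^ (k + 1)

theorem hasDerivAt_v {η y : ℝ} (hy : 0 < 1 + η * y) :
    HasDerivAt (fun y => (1 + η * y)⁻¹) (-η * ((1 + η * y)⁻¹) ^ 2) y := by
  have h : HasDerivAt (fun y => 1 + η * y) η y := by
    simpa using ((hasDerivAt_id y).const_mul η).const_add 1
  refine (h.fun_inv hy.ne').congr_deriv ?_
  rw [inv_pow, div_eq_mul_inv]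

theorem hasDerivAt_sk (η σ : ℝ) (k : ℕ) {y : ℝ} (hy : 0 < 1 + η * y) :
    HasDerivAt (sk η σ k) (sk η σ (k + 1) y) y := by
  refine (((hasDerivAt_v hy).fun_pow (k + 1)).const_mul
    ((1 - σ) * (-η) ^ k * k.factorial)).congr_deriv ?_
  simp only [sk, Nat.add_sub_cancel, Nat.factorial_succ]
  push_cast
  ring

theorem sig_eq (η σ : ℝ) : sig η σ = fun y => σ + sk η σ 0 y := by
  funext y
  simp [sig, sk, div_eq_mul_inv]

theorem hasDerivAt_sig (η σ : ℝ) {y : ℝ} (hy : 0 < 1 + η * y) :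
    HasDerivAt (sig η σ) (sk η σ 1 y) y := by
  rw [sig_eq]
  exact (hasDerivAt_sk η σ 0 hy).const_add σ

theorem hasDerivAt_chi {η : ℝ} (hη : 0 < η) (σ : ℝ) {y : ℝ} (hy : 0 < 1 + η * y) :
    HasDerivAt (chi η σ) (sig η σ y) y := by
  have h : HasDerivAt (fun y => 1 + η * y) η y := by
    simpa using ((hasDerivAt_id y).const_mul η).const_add 1
  refine (((hasDerivAt_id y).const_mul σ).add
    (((h.log hy.ne').const_mul (1 - σ)).div_const η)).congr_deriv ?_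
  unfold sig
  field_simp

theorem lin_smooth (η : ℝ) : ContDiff ℝ ∞ fun y : ℝ => 1 + η * y :=
  contDiff_const.add (contDiff_const.mul contDiff_id)

theorem sk_smooth (η σ : ℝ) (k : ℕ) : ContDiffOn ℝ ∞ (sk η σ k) {y | 0 < 1 + η * y} :=
  contDiffOn_const.mul (((lin_smooth η).contDiffOn.inv fun _ hy => ne_of_gt hy).pow _)

theorem sig_smooth (η σ : ℝ) : ContDiffOn ℝ ∞ (sig η σ) {y | 0 < 1 + η * y} := by
  rw [sig_eq]
  exact contDiffOn_const.add (sk_smooth η σ 0)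

theorem chi_smooth (η σ : ℝ) : ContDiffOn ℝ ∞ (chi η σ) {y | 0 < 1 + η * y} :=
  (contDiffOn_const.mul contDiffOn_id).add ((contDiffOn_const.mul
    ((lin_smooth η).contDiffOn.log fun _ hy => ne_of_gt hy)).div_const _)

theorem v_le_sig {η σ y : ℝ} (hη : 0 < η) (h0 : 0 ≤ σ) (hy : 0 ≤ y) :
    (1 + η * y)⁻¹ ≤ sig η σ y := by
  have h : 1 ≤ 1 + η * y := le_add_of_nonneg_right (by positivity)
  have h1 : (1 + η * y)⁻¹ ≤ 1 := inv_le_one_of_one_le₀ h
  unfold sig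
  rw [div_eq_mul_inv]
  nlinarith

theorem norm_sk_le {η σ y : ℝ} (hη : 0 < η) (hη1 : η ≤ 1) (h0 : 0 ≤ σ) (h1 : σ ≤ 1) (hy : 0 ≤ y)
    {k : ℕ} (hk : k ≤ 3) : ‖(sk η σ (k + 1) y : ℂ)‖ ≤ 24 * η * sig η σ y ^ 2 := by
  have h : 1 ≤ 1 + η * y := le_add_of_nonneg_right (by positivity)
  have hv1 : (1 + η * y)⁻¹ ≤ 1 := inv_le_one_of_one_le₀ h
  have hv0 : 0 < (1 + η * y)⁻¹ := by positivity
  have hvs := v_le_sig hη h0 hy
  rw [Complex.norm_real, sk, norm_mul, norm_mul, norm_mul, norm_pow, norm_pow, norm_neg,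
    Real.norm_of_nonneg hη.le, Real.norm_of_nonneg hv0.le,
    Real.norm_of_nonneg (sub_nonneg.2 h1), Real.norm_of_nonneg (Nat.cast_nonneg _)]
  have a1 : η ^ (k + 1) ≤ η := by
    rw [pow_succ]
    exact mul_le_of_le_one_left hη.le (pow_le_one₀ hη.le hη1)
  have a2 : ((k + 1).factorial : ℝ) ≤ 24 := by
    have : (k + 1).factorial ≤ Nat.factorial 4 := Nat.factorial_le (by omega)
    exact_mod_cast this
  have a3 : (1 + η * y)⁻¹ ^ (k + 1 + 1) ≤ sig η σ y ^ 2 :=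
    (pow_le_pow_of_le_one hv0.le hv1 (by omega)).trans (pow_le_pow_left₀ hv0.le hvs 2)
  calc _ ≤ 1 * η * 24 * sig η σ y ^ 2 := by
        gcongr
        linarith
    _ = _ := by ring

theorem one_sub_sig_le {η σ y : ℝ} (hη : 0 < η) (h0 : 0 ≤ σ) (hy : 0 ≤ y) :
    1 - sig η σ y ≤ η * y * sig η σ y := by
  have h : 0 < 1 + η * y := by positivity
  have h1 := v_le_sig hη h0 hy
  rw [inv_le_iff_one_le_mul₀ h] at h1
  linarith

end AJ

open AJ in
set_option maxHeartbeats 4000000 in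
theorem psiJet : PsiJetStmt := by
  intro z hz X Y Z W
  have h0 : (hh z : ℂ) ≠ 0 := ofReal_ne_zero.2 (hh_pos hz).ne'
  have e1 : dz X (cx psi0) z = (jet (ofr z X Y Z W) (cx psi0) z).xo := rfl
  rw [e1, jet_psi0 hz, jet_loghh hz]
  simp only [qj, ofr, ip_bh_left, ip_bh_right, om, ip_conj, lg]
  generalize (hh z : ℂ) = h at h0 ⊢
  refine ⟨?_, ?_, ?_, ?_, ?_⟩ <;>
  · simp [J.comp, J.nil, pow_succ]
    field_simp
    try ring

open AJ in
theorem aJet : AJetStmt := by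
  obtain ⟨C3, hC3, hu⟩ := exists_nil_u
  set C5 := C3 + (1 + 48) ^ 3 * 48 with hC5
  have hC5' : 0 < C5 := by positivity
  set C6 := 24 * (1 + C5) ^ 3 * C5 with hC6
  have hC6' : 0 < C6 := by positivity
  refine ⟨2 * C3 + (12 * C5 ^ 2 + 4 * C5 ^ 3 + C5 ^ 4) + 16 * (1 + C6) ^ 16 * C6, by positivity,
    fun η σ hη hη1 h0 h1 z hz => ?_⟩
  have hy := yy_nonneg hz
  have hs0 := sig_pos hη.le h0 h1 hy
  have hs1 := sig_le_one hη.le h1 hy
  have hmap : Set.MapsTo yy (Bl 2) {y | 0 < 1 + η * y} := fun x hx => by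
    have := yy_nonneg hx
    show 0 < 1 + η * yy x
    positivity
  have hyj : ∀ F, Sub z F → ‖J.nil (jet F (fun x => (yy x : ℂ)) z)‖ ≤ C5 := by
    intro F hF
    rw [jet_yy hz, J.nil_sub]
    refine (norm_sub_le _ _).trans (add_le_add ((hu z hz F hF).trans ?_) (nil_l hz hF))
    exact mul_le_of_le_one_right hC3 (dl_le_one hz)
  have hk := fun {k : ℕ} (hk : k ≤ 3) => norm_sk_le hη hη1 h0 h1 hy hk
  set s := sig η σ (yy z) with hs
  constructor
  · intro X Y Z W hX hY hZ hW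
    have hF := sub_ofr hz hX hY hZ hW
    set F := ofr z X Y Z W
    have sc : ContDiffOn ℝ ∞ (fun x => (chi η σ (yy x) : ℂ)) (Bl 2) :=
      ofReal_smooth ((chi_smooth η σ).comp yy_smooth hmap)
    have e : cx (Afun η σ)
        = fun x => -(Real.log (hh x + beta x) : ℂ) + (chi η σ (yy x) : ℂ) := by
      funext x
      simp only [Afun, cx, ofReal_add, ofReal_neg]
    have e2 := jet_comp_real isOpen_Bl hz F yy_smooth hmap (chi_smooth η σ) (sig_smooth η σ)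
      (sk_smooth η σ 1) (sk_smooth η σ 2) (sk_smooth η σ 3)
      (fun _ hx => hasDerivAt_chi hη σ hx) (fun _ hx => hasDerivAt_sig η σ hx)
      (fun _ hx => hasDerivAt_sk η σ 1 hx) (fun _ hx => hasDerivAt_sk η σ 2 hx)
    have a1 := J.norm_nil_comp_sub_le (chi η σ (yy z)) s (sk η σ 1 (yy z)) (sk η σ 2 (yy z))
      (sk η σ 3 (yy z)) (jet F (fun x => (yy x : ℂ)) z)
    rw [← e2] at a1
    have a2 := hyj F hF
    have a3 := hu z hz F hF
    simp only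
    rw [e, jet_add isOpen_Bl hz F (ofReal_smooth logP_smooth).neg sc,
      jet_neg isOpen_Bl hz F (ofReal_smooth logP_smooth), jet_psi0 hz, J.nil_sub, J.nil_add,
      J.nil_smul, J.nil_neg, J.nil_neg]
    have e3 : ∀ a b c : J, -a + b - (s : ℂ) • -c
        = (b - (s : ℂ) • (a - c)) - ((1 - s : ℝ) : ℂ) • a := by
      intro a b c
      simp only [ofReal_sub, ofReal_one, sub_smul, one_smul, smul_sub, smul_neg]
      abel
    rw [e3, ← J.nil_sub, ← jet_yy hz]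
    refine (norm_sub_le _ _).trans ?_
    rw [norm_smul, Complex.norm_real, Real.norm_of_nonneg (sub_nonneg.2 hs1)]
    have b1 : (1 - s) * ‖J.nil (jet F (fun x => (Real.log (hh x + beta x) : ℂ)) z)‖
        ≤ 2 * C3 * η * s := by
      calc _ ≤ η * yy z * s * (C3 * dl z) :=
            mul_le_mul (one_sub_sig_le hη h0 hy) a3 (norm_nonneg _) (by positivity)
        _ = C3 * η * s * (yy z * dl z) := by ring
        _ ≤ C3 * η * s * 2 := mul_le_mul_of_nonneg_left (yy_mul_dl hz) (by positivity)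
        _ = _ := by ring
    have b0 : 24 * η * s ^ 2 ≤ 24 * η * s := by
      have : s ^ 2 ≤ s := by nlinarith
      gcongr
    have c1 := (hk (k := 0) (by norm_num)).trans b0
    have c2 := (hk (k := 1) (by norm_num)).trans b0
    have c3 := (hk (k := 2) (by norm_num)).trans b0
    have b2 := a1.trans (show _ ≤ 24 * η * s / 2 * C5 ^ 2 + 24 * η * s / 6 * C5 ^ 3 +
      24 * η * s / 24 * C5 ^ 4 by gcongr)
    have b3 : 0 ≤ 16 * (1 + C6) ^ 16 * C6 * η * s := by positivity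
    nlinarith
  · intro X Y Z W hX hY hZ hW
    have hF := sub_ofr hz hX hY hZ hW
    set F := ofr z X Y Z W
    have e : cx (lamf η σ) = fun x => (sig η σ (yy x) : ℂ) ^ 16 := by
      funext x
      simp only [lamf, cx, ofReal_pow]
    have e2 := jet_comp_real isOpen_Bl hz F yy_smooth hmap (sig_smooth η σ)
      (sk_smooth η σ 1) (sk_smooth η σ 2) (sk_smooth η σ 3) (sk_smooth η σ 4)
      (fun _ hx => hasDerivAt_sig η σ hx) (fun _ hx => hasDerivAt_sk η σ 1 hx)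
      (fun _ hx => hasDerivAt_sk η σ 2 hx) (fun _ hx => hasDerivAt_sk η σ 3 hx)
    have a1 := J.norm_nil_comp_le' (f0 := (s : ℂ)) (hk (k := 0) (by norm_num))
      (hk (k := 1) (by norm_num)) (hk (k := 2) (by norm_num)) (hk (k := 3) (by norm_num))
      (hyj F hF) le_rfl
    rw [← e2] at a1
    simp only
    rw [e, jet_pow isOpen_Bl hz F (ofReal_smooth (sig_yy_smooth hη.le))]
    have a2 := norm_nil_pow (j := jet F (fun x => (sig η σ (yy x) : ℂ)) z) (s := s)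
      (e := C6 * η * s) (M := C6)
      (by rw [jet_oo, Complex.norm_real, Real.norm_of_nonneg hs0.le]) (by positivity)
      (a1.trans (le_of_eq (by rw [hC6]; ring))) (by
        rw [mul_assoc]
        exact mul_le_of_le_one_right hC6'.le (mul_le_one₀ hη1 hs0.le hs1)) 16
    refine a2.trans ?_
    have b3 : 0 ≤ (2 * C3 + (12 * C5 ^ 2 + 4 * C5 ^ 3 + C5 ^ 4)) * η * s ^ 17 := by positivity
    push_cast
    generalize (1 + C6) ^ 16 = T
    have e4 : 16 * T * (C6 * η * s) * s ^ 16 = 16 * T * C6 * η * s ^ 17 := by ring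
    rw [e4, add_mul, add_mul]
    linarith

end Crest.Agent.R245
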