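import Crest.Agent.R245.Diag

/-! Row 245: good jets on the base. -/

set_option autoImplicit false

open Complex
open scoped ContDiff ComplexConjugate

namespace Crest.Agent.R245

namespace BaseJetAux

theorem omq_smul (z X : E 2) (c : ℂ) : omq z (c • X) = ‖c‖ ^ 2 * omq z X := by
  simp only [omq, nsq_smul, ip_smul_left, norm_mul]
  ring

theorem om_self (z X : E 2) : om z X X = (omq z X : ℝ) := by
  simp only [om, omq, ip_self, Complex.mul_conj, Complex.normSq_eq_norm_sq]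
  push_cast
  ring

theorem omq_pos {z : E 2} (hz : z ∈ Bl 2) {X : E 2} (hX : X ≠ 0) : 0 < omq z X := by
  have h1 := hh_pos hz
  obtain ⟨i, hi⟩ := Function.ne_iff.1 hX
  have h2 : 0 < nsq X := lt_of_lt_of_le (pow_pos (norm_pos_iff.2 hi) 2) (sq_le_nsq X i)
  unfold omq
  positivity

theorem bh_smul (z X Y : E 2) (c : ℂ) : bh z (c • X) (c • Y) = c ^ 2 • bh z X Y := by
  ext i
  simp only [bh, ip_smul_left, Pi.neg_apply, Pi.add_apply, Pi.smul_apply, smul_eq_mul]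
  ring

theorem bh_comm (z X Y : E 2) : bh z X Y = bh z Y X := by
  rw [bh, bh, add_comm]

theorem ofr_scale (z X Y Z W : E 2) (r : ℝ) :
    ofr z ((r : ℂ) • X) ((r : ℂ) • Y) ((r : ℂ) • Z) ((r : ℂ) • W) = (ofr z X Y Z W).scale r := by
  simp only [ofr, Fr.scale, bh_smul]

/-- bounds on the components of a jet -/
structure Bd (j : J) (ρ K : ℝ) : Prop where
  xo : ‖j.xo‖ ≤ ρ * K
  oz : ‖j.oz‖ ≤ ρ * K
  dO : ‖j.dO‖ ≤ ρ ^ 2 * K
  oe : ‖j.oe‖ ≤ ρ ^ 2 * K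
  xz : ‖j.xz‖ ≤ ρ ^ 2 * K
  dz : ‖j.dz‖ ≤ ρ ^ 3 * K
  xe : ‖j.xe‖ ≤ ρ ^ 3 * K
  de : ‖j.de‖ ≤ ρ ^ 4 * K

theorem bd_scale {j : J} {ρ K : ℝ} (hρ : 0 ≤ ρ) (h : ‖J.nil j‖ ≤ K) : Bd (J.scale ρ j) ρ K := by
  have e : ∀ (r : ℕ) (a b : ℂ), a = b → ‖b‖ ≤ ‖J.nil j‖ → ‖(ρ : ℂ) ^ r * a‖ ≤ ρ ^ r * K := by
    rintro r a _ rfl h1
    rw [norm_mul, norm_pow, norm_real, Real.norm_of_nonneg hρ]
    exact mul_le_mul_of_nonneg_left (h1.trans h) (pow_nonneg hρ r)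
  refine ⟨?_, ?_, e 2 _ _ ?_ (J.norm_dO_le _), e 2 _ _ ?_ (J.norm_oe_le _),
    e 2 _ _ ?_ (J.norm_xz_le _), e 3 _ _ ?_ (J.norm_dz_le _), e 3 _ _ ?_ (J.norm_xe_le _),
    e 4 _ _ ?_ (J.norm_de_le _)⟩
  · have := e 1 j.xo _ (by simp [J.nil]) (J.norm_xo_le _)
    rwa [pow_one, pow_one] at this
  · have := e 1 j.oz _ (by simp [J.nil]) (J.norm_oz_le _)
    rwa [pow_one, pow_one] at this
  all_goals simp [J.nil]

theorem bd_of_jetLe {z : E 2} {K ρ : ℝ} {j : Fr 2 → J} (h : JetLe z K j)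
    (hj : ∀ (r : ℝ) F, j (F.scale r) = J.scale r (j F)) (hρ : 0 < ρ) {X Y Z W : E 2}
    (hX : omq z X ≤ ρ ^ 2) (hY : omq z Y ≤ ρ ^ 2) (hZ : omq z Z ≤ ρ ^ 2) (hW : omq z W ≤ ρ ^ 2) :
    Bd (j (ofr z X Y Z W)) ρ K := by
  have h1 : ∀ X : E 2, omq z X ≤ ρ ^ 2 → omq z (((ρ⁻¹ : ℝ) : ℂ) • X) ≤ 1 := fun X hX => by
    rw [omq_smul, norm_real, Real.norm_of_nonneg (inv_pos.2 hρ).le, inv_pow,
      inv_mul_le_iff₀ (pow_pos hρ 2), mul_one]
    exact hX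
  have h2 : ∀ X : E 2, (ρ : ℂ) • ((ρ⁻¹ : ℝ) : ℂ) • X = X := fun X => by
    rw [smul_smul, ← ofReal_mul, mul_inv_cancel₀ hρ.ne', ofReal_one, one_smul]
  have h3 := bd_scale hρ.le (h _ _ _ _ (h1 X hX) (h1 Y hY) (h1 Z hZ) (h1 W hW))
  rwa [← hj, ← ofr_scale, h2, h2, h2, h2] at h3

theorem scale_sub_smul (r s : ℂ) (a b : J) :
    J.scale r a - s • J.scale r b = J.scale r (a - s • b) := by
  ext <;> simp [J.scale] <;> ring

theorem norm_kr_le (i j : Fin 2) : ‖(kr i j : ℂ)‖ ≤ 1 := by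
  unfold kr
  split_ifs <;> simp

theorem prod_le {a b u v : ℂ} {δ : ℝ} (hδ : δ ≤ 1) (ha : ‖a‖ ≤ 1) (hb : ‖b‖ ≤ 1) (hu : ‖u‖ ≤ δ)
    (hv : ‖v‖ ≤ δ) : ‖(a - u) * (b - v) - a * b‖ ≤ 3 * δ := by
  have e : (a - u) * (b - v) - a * b = u * v - (a * v + u * b) := by ring
  have h0 : 0 ≤ δ := (norm_nonneg _).trans hu
  have h1 : ‖u * v‖ ≤ δ * 1 := by
    rw [norm_mul]; exact mul_le_mul hu (hv.trans hδ) (norm_nonneg _) h0
  have h2 : ‖a * v‖ ≤ 1 * δ := by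
    rw [norm_mul]; exact mul_le_mul ha hv (norm_nonneg _) zero_le_one
  have h3 : ‖u * b‖ ≤ δ * 1 := by
    rw [norm_mul]; exact mul_le_mul hu hb (norm_nonneg _) h0
  rw [e]
  linarith [norm_sub_le (u * v) (a * v + u * b), norm_add_le (a * v) (u * b)]

theorem levi_lin (f : E 2 → ℂ) (z : E 2) (a : ℂ) (X Y Z : E 2) :
    dz (a • X + Y) (dzb Z f) z = a * dz X (dzb Z f) z + dz Y (dzb Z f) z := by
  rw [dz_add_dir, dz_smul_dir]

/-- the abstract version -/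
theorem main (h1 : PsiJetStmt) {ε δ ς K : ℝ} (hδ : 0 ≤ δ) (hδ1 : δ ≤ 1 / 2) (hδε : 16 * δ ≤ ε)
    (hς : 0 < ς) (hς1 : ς ≤ 1) (hK : 0 ≤ K) {A Ψ lam : E 2 → ℝ} (hA : ContDiffOn ℝ ∞ A (Bl 2))
    (hΨ : ContDiffOn ℝ ∞ Ψ (Bl 2)) {z : E 2} (hz : z ∈ Bl 2)
    (hpos : ∀ X, 0 ≤ (dz X (dzb X (cx Ψ)) z).re) (jΨ : JetLe z K fun F => jet F (cx Ψ) z)
    (jA : JetLe z (δ * ς ^ 2) fun F => jet F (cx A) z - ((ς ^ 2 : ℝ) : ℂ) • jet F (cx psi0) z)
    (jl : JetLe z (δ * ς ^ 34) fun F => jet F (cx lam) z) (hl : lam z = ς ^ 32)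
    (hsm : 4 * ς ^ 2 * K * (1 + 4 * K) ≤ ε ^ 2) : BaseJ ε A (fun x => A x + Ψ x) lam z := by
  have sA : ∀ (r : ℝ) (F : Fr 2),
      jet (F.scale r) (cx A) z - ((ς ^ 2 : ℝ) : ℂ) • jet (F.scale r) (cx psi0) z =
        J.scale r (jet F (cx A) z - ((ς ^ 2 : ℝ) : ℂ) • jet F (cx psi0) z) := fun r F => by
    rw [jet_scale, jet_scale, scale_sub_smul]
  have hφ : ∀ F : Fr 2, jet F (cx fun x => A x + Ψ x) z = jet F (cx A) z + jet F (cx Ψ) z := by
    intro F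
    rw [← jet_add isOpen_Bl hz F (ofReal_smooth hA) (ofReal_smooth hΨ)]
    congr 1
    funext x
    exact ofReal_add _ _
  -- the Levi form of `A` is positive
  have hR : ∀ X, X ≠ 0 → ς ^ 2 / 2 * omq z X ≤ (dz X (dzb X (cx A)) z).re := by
    intro X hX
    have h0 := omq_pos hz hX
    have e := Real.sq_sqrt h0.le
    have h2 := (bd_of_jetLe jA sA (Real.sqrt_pos.2 h0) e.ge e.ge e.ge e.ge).xz
    rw [e] at h2
    have h3 : (jet (ofr z X X X X) (cx A) z -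
        ((ς ^ 2 : ℝ) : ℂ) • jet (ofr z X X X X) (cx psi0) z).xz =
        dz X (dzb X (cx A)) z - ((ς ^ 2 * omq z X : ℝ) : ℂ) := by
      rw [ofReal_mul, ← om_self, ← (h1 z hz X X X X).2.1]
      rfl
    rw [h3] at h2
    have h4 := (abs_le.1 ((abs_re_le_norm _).trans h2)).1
    rw [sub_re, ofReal_re] at h4
    have h5 : omq z X * (δ * ς ^ 2) ≤ omq z X * (1 / 2 * ς ^ 2) := by gcongr
    linarith
  obtain ⟨e, k, hsp, he⟩ := diag (fun X Y => dz X (dzb Y (cx A)) z)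
    (fun X Y => dz X (dzb Y (cx fun x => A x + Ψ x)) z) (levi_lin _ z)
    (fun X Y => dz_dzb_real isOpen_Bl hA hz X Y) (levi_lin _ z)
    (fun X Y => dz_dzb_real isOpen_Bl (hA.add hΨ) hz X Y)
    (fun X hX => lt_of_lt_of_le (mul_pos (by positivity) (omq_pos hz hX)) (hR X hX))
  obtain ⟨r, hr2, hr1, hr⟩ : ∃ r : ℝ, r ^ 2 = 2 ∧ 1 ≤ r ∧ r ≤ 2 :=
    ⟨Real.sqrt 2, Real.sq_sqrt zero_le_two, Real.one_le_sqrt.2 one_le_two,
      Real.sqrt_le_iff.2 ⟨zero_le_two, by norm_num⟩⟩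
  have hρ : 0 < r / ς := by positivity
  have p1 : r / ς ≤ 2 / ς := by gcongr
  have p2 : (r / ς) ^ 2 = 2 / ς ^ 2 := by rw [div_pow, hr2]
  have p3 : (r / ς) ^ 3 ≤ 4 / ς ^ 3 := by
    rw [div_pow]
    gcongr
    nlinarith
  have p4 : (r / ς) ^ 4 = 4 / ς ^ 4 := by
    rw [div_pow, show r ^ 4 = (r ^ 2) ^ 2 by ring, hr2]
    norm_num
  have p34 : (r / ς) ^ 3 ≤ (r / ς) ^ 4 :=
    pow_le_pow_right₀ ((one_le_div hς).2 (hς1.trans hr1)) (by norm_num)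
  have p24 : (r / ς) ^ 2 ≤ (r / ς) ^ 4 :=
    pow_le_pow_right₀ ((one_le_div hς).2 (hς1.trans hr1)) (by norm_num)
  have hq : ∀ i, omq z (e i) ≤ (r / ς) ^ 2 := by
    intro i
    have h0 : e i ≠ 0 := fun h => by
      have := (he i i).1
      rw [h] at this
      simp at this
    have h2 := hR _ h0
    rw [(he i i).1, kr_self, ofReal_re] at h2
    rw [p2, le_div_iff₀ (by positivity)]
    linarith
  have bA := fun i m j l => bd_of_jetLe jA sA hρ (hq i) (hq m) (hq j) (hq l)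
  have bΨ := fun i m j l =>
    bd_of_jetLe jΨ (fun r F => jet_scale r F _ z) hρ (hq i) (hq m) (hq j) (hq l)
  have bl := fun i m j l =>
    bd_of_jetLe jl (fun r F => jet_scale r F _ z) hρ (hq i) (hq m) (hq j) (hq l)
  have hε : 0 ≤ ε := by linarith
  have q1 : r / ς * (δ * ς ^ 34) ≤ ε * ς ^ 33 := by
    calc _ ≤ 2 / ς * (δ * ς ^ 34) := by gcongr
      _ = 2 * δ * ς ^ 33 := by field_simp
      _ ≤ _ := by gcongr; linarith
  have q2 : (r / ς) ^ 2 * (δ * ς ^ 34) ≤ ε * ς ^ 32 := by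
    calc _ = 2 * δ * ς ^ 32 := by rw [p2]; field_simp
      _ ≤ _ := by gcongr; linarith
  have q3 : (r / ς) ^ 3 * (δ * ς ^ 34) ≤ ε * ς ^ 31 := by
    calc _ ≤ 4 / ς ^ 3 * (δ * ς ^ 34) := by gcongr
      _ = 4 * δ * ς ^ 31 := by field_simp
      _ ≤ _ := by gcongr; linarith
  have q4 : (r / ς) ^ 4 * (δ * ς ^ 34) ≤ ε * ς ^ 30 := by
    calc _ = 4 * δ * ς ^ 30 := by rw [p4]; field_simp
      _ ≤ _ := by gcongr; linarith
  have q5 : (r / ς) ^ 3 * (δ * ς ^ 2) ≤ ε / ς := by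
    calc _ ≤ 4 / ς ^ 3 * (δ * ς ^ 2) := by gcongr
      _ = 4 * δ / ς := by field_simp
      _ ≤ _ := by gcongr; linarith
  have q6 : (r / ς) ^ 3 * K ≤ (r / ς) ^ 4 * K := by gcongr
  have hk : ∀ i, k i = 1 + (dz (e i) (dzb (e i) (cx Ψ)) z).re := by
    intro i
    have h2 : dz (e i) (dzb (e i) (cx fun x => A x + Ψ x)) z =
        dz (e i) (dzb (e i) (cx A)) z + dz (e i) (dzb (e i) (cx Ψ)) z :=
      congrArg J.xz (hφ (ofr z (e i) (e i) (e i) (e i)))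
    rw [(he i i).1, (he i i).2, kr_self, one_mul] at h2
    simpa using congrArg re h2
  have hu : ∀ i j, ∃ u : ℂ, ‖u‖ ≤ 2 * δ ∧ ((ς ^ 2 : ℝ) : ℂ) * om z (e i) (e j) = kr i j - u := by
    intro i j
    refine ⟨_, (bA i i j j).xz.trans (le_of_eq ?_), ?_⟩
    · rw [p2]
      field_simp
    · rw [← (he i j).1, ← (h1 z hz (e i) (e i) (e j) (e j)).2.1]
      exact (sub_sub_cancel _ _).symm
  refine ⟨ς, (r / ς) ^ 4 * K, k, e, fun i m => bh z (e i) (e m), hsp, fun i m => bh_comm _ _ _,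
    fun i => ?_,
    { ς_pos := hς
      ς_le := hς1
      K3_nonneg := by positivity
      small := ?_
      k_ge := fun i => by rw [hk]; linarith [hpos (e i)]
      k_le := fun i => ?_
      a_xz := fun i j => (he i j).1
      a_dz := fun i m j => ?_
      a_xe := fun i j l => ?_
      a_de := fun i m j l => ?_
      ph_xz := fun i j => (he i j).2
      ph_dz := fun i m j => ?_
      ph_xe := fun i j l => ?_
      ph_de := fun i m j l => ?_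
      lm_o := congrArg ofReal hl
      lm_x := fun i => (bl i i i i).xo.trans q1
      lm_z := fun i => (bl i i i i).oz.trans q1
      lm_d := fun i m => (bl i m i i).dO.trans q2
      lm_e := fun i m => (bl i i i m).oe.trans q2
      lm_xz := fun i j => (bl i i j j).xz.trans q2
      lm_dz := fun i m j => (bl i m j j).dz.trans q3
      lm_xe := fun i j l => (bl i i j l).xe.trans q3
      lm_de := fun i m j l => (bl i m j l).de.trans q4 }⟩
  · have h0 := hh_pos hz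
    rw [(h1 z hz (e i) 0 0 0).1, norm_div, norm_real, Real.norm_of_nonneg h0.le]
    refine le_trans ((pow_le_pow_iff_left₀ (by positivity) hρ.le two_ne_zero).1 ?_) p1
    refine le_trans ?_ (hq i)
    rw [div_pow, omq]
    exact le_add_of_nonneg_left (div_nonneg (nsq_nonneg _) h0.le)
  · refine le_trans ?_ hsm
    have e1 : ς ^ 10 * ((r / ς) ^ 4 * K) * (1 + (r / ς) ^ 4 * K) =
        4 * ς ^ 2 * K * (ς ^ 4 + 4 * K) := by
      rw [p4]
      field_simp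
    rw [e1]
    have : ς ^ 4 ≤ 1 := pow_le_one₀ hς.le hς1
    gcongr
  · rw [hk]
    have h2 : (r / ς) ^ 2 * K ≤ (r / ς) ^ 4 * K := by gcongr
    exact add_le_add le_rfl ((re_le_norm _).trans ((bΨ i i i i).xz.trans h2))
  · have h2 := (bA i m j j).dz.trans q5
    rwa [show ∀ a b : J, (a - ((ς ^ 2 : ℝ) : ℂ) • b).dz = a.dz - ((ς ^ 2 : ℝ) : ℂ) * b.dz from
      fun _ _ => rfl, (h1 z hz _ _ _ _).2.2.1, mul_zero, sub_zero] at h2
  · have h2 := (bA i i j l).xe.trans q5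
    rwa [show ∀ a b : J, (a - ((ς ^ 2 : ℝ) : ℂ) • b).xe = a.xe - ((ς ^ 2 : ℝ) : ℂ) * b.xe from
      fun _ _ => rfl, (h1 z hz _ _ _ _).2.2.2.1, mul_zero, sub_zero] at h2
  · have h2 := (bA i m j l).de
    rw [show ∀ a b : J, (a - ((ς ^ 2 : ℝ) : ℂ) • b).de = a.de - ((ς ^ 2 : ℝ) : ℂ) * b.de from
      fun _ _ => rfl, (h1 z hz _ _ _ _).2.2.2.2] at h2
    obtain ⟨u1, b1, e1⟩ := hu i j
    obtain ⟨u2, b2, e2⟩ := hu m l
    obtain ⟨u3, b3, e3⟩ := hu i l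
    obtain ⟨u4, b4, e4⟩ := hu m j
    have c1 := prod_le (by linarith) (norm_kr_le i j) (norm_kr_le m l) b1 b2
    have c2 := prod_le (by linarith) (norm_kr_le i l) (norm_kr_le m j) b3 b4
    rw [← e1, ← e2] at c1
    rw [← e3, ← e4] at c2
    change ‖(jet (ofr z (e i) (e m) (e j) (e l)) (cx A) z).de - _‖ ≤ _
    generalize (jet (ofr z (e i) (e m) (e j) (e l)) (cx A) z).de = a at h2 ⊢
    have hs : ((ς ^ 2 : ℝ) : ℂ) ≠ 0 := by exact_mod_cast (pow_pos hς 2).ne'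
    have e5 : a - (((kr i j * kr m l + kr i l * kr m j) / ς ^ 2 : ℝ) : ℂ) =
        (a - ((ς ^ 2 : ℝ) : ℂ) * (om z (e i) (e j) * om z (e m) (e l) +
          om z (e i) (e l) * om z (e m) (e j))) +
        ((((ς ^ 2 : ℝ) : ℂ) * om z (e i) (e j) * (((ς ^ 2 : ℝ) : ℂ) * om z (e m) (e l)) -
            kr i j * kr m l) +
          (((ς ^ 2 : ℝ) : ℂ) * om z (e i) (e l) * (((ς ^ 2 : ℝ) : ℂ) * om z (e m) (e j)) -
            kr i l * kr m j)) / ((ς ^ 2 : ℝ) : ℂ) := by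
      rw [ofReal_div, ofReal_add, ofReal_mul, ofReal_mul]
      field_simp
      ring
    rw [e5]
    refine (norm_add_le _ _).trans ?_
    rw [norm_div, norm_real, Real.norm_of_nonneg (sq_nonneg ς)]
    have c3 := (norm_add_le _ _).trans (add_le_add c1 c2)
    calc _ ≤ (r / ς) ^ 4 * (δ * ς ^ 2) + (3 * (2 * δ) + 3 * (2 * δ)) / ς ^ 2 := by gcongr
      _ = 16 * δ / ς ^ 2 := by rw [p4]; field_simp; ring
      _ ≤ _ := by gcongr
  · have h2 : (arr e (fun i m => bh z (e i) (e m)) (cx fun x => A x + Ψ x) z).dz i m j =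
        (arr e (fun i m => bh z (e i) (e m)) (cx A) z).dz i m j +
          (jet (ofr z (e i) (e m) (e j) (e j)) (cx Ψ) z).dz :=
      congrArg J.dz (hφ (ofr z (e i) (e m) (e j) (e j)))
    rw [h2, add_sub_cancel_left]
    exact (bΨ i m j j).dz.trans q6
  · have h2 : (arr e (fun i m => bh z (e i) (e m)) (cx fun x => A x + Ψ x) z).xe i j l =
        (arr e (fun i m => bh z (e i) (e m)) (cx A) z).xe i j l +
          (jet (ofr z (e i) (e i) (e j) (e l)) (cx Ψ) z).xe :=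
      congrArg J.xe (hφ (ofr z (e i) (e i) (e j) (e l)))
    rw [h2, add_sub_cancel_left]
    exact (bΨ i i j l).xe.trans q6
  · have h2 : (arr e (fun i m => bh z (e i) (e m)) (cx fun x => A x + Ψ x) z).de i m j l =
        (arr e (fun i m => bh z (e i) (e m)) (cx A) z).de i m j l +
          (jet (ofr z (e i) (e m) (e j) (e l)) (cx Ψ) z).de :=
      congrArg J.de (hφ (ofr z (e i) (e m) (e j) (e l)))
    rw [h2, add_sub_cancel_left]
    exact (bΨ i m j l).de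

end BaseJetAux

theorem baseJet (h1 : PsiJetStmt) (h2 : AJetStmt) : BaseJetStmt := by
  intro ε hε
  obtain ⟨C, hC, h2⟩ := h2
  refine ⟨min 1 (min (1 / (2 * C)) (ε / (16 * C))), by positivity, min_le_left _ _, ?_⟩
  have a1 := min_le_left 1 (min (1 / (2 * C)) (ε / (16 * C)))
  have a2 := (min_le_right 1 _).trans (min_le_left (1 / (2 * C)) (ε / (16 * C)))
  have a3 := (min_le_right 1 _).trans (min_le_right (1 / (2 * C)) (ε / (16 * C)))
  have a0 : 0 < min 1 (min (1 / (2 * C)) (ε / (16 * C))) := by positivity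
  generalize min 1 (min (1 / (2 * C)) (ε / (16 * C))) = η at *
  rw [le_div_iff₀ (by positivity)] at a2 a3
  intro σ h0 hσ Ψ hΨ z hz K hK hpos jΨ hsm
  have s0 := sig_pos a0.le h0 hσ (yy_nonneg hz)
  have s1 := sig_le_one a0.le hσ (yy_nonneg hz)
  obtain ⟨jA, jl⟩ := h2 η σ a0 a1 h0 hσ z hz
  have e := Real.sq_sqrt s0.le
  have e' : ∀ n : ℕ, Real.sqrt (sig η σ (yy z)) ^ (2 * n) = sig η σ (yy z) ^ n := fun n => by
    rw [pow_mul, e]
  refine BaseJetAux.main h1 (δ := C * η) (ς := Real.sqrt (sig η σ (yy z))) (by positivity)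
    (by linarith) (by linarith) (Real.sqrt_pos.2 s0) (Real.sqrt_le_one.2 s1) hK (Afun_smooth a0.le)
    hΨ hz hpos jΨ ?_ ?_ (e' 16).symm ?_
  · rwa [e]
  · rwa [← e' 17] at jl
  · rwa [e]

end Crest.Agent.R245
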