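import Crest.Agent.R245.Defs

/-! Row 245: elementary facts on the definitions. -/

set_option autoImplicit false

open Complex Crest.GeometryTopology
open scoped ContDiff ComplexConjugate Topology

namespace Crest.Agent.R245

variable {n : ℕ}

theorem nsq_nonneg (z : E n) : 0 ≤ nsq z := Finset.sum_nonneg fun _ _ => sq_nonneg _

theorem nsq_two (z : E 2) : nsq z = ‖z 0‖ ^ 2 + ‖z 1‖ ^ 2 := Fin.sum_univ_two _
theorem nsq_three (z : E 3) : nsq z = ‖z 0‖ ^ 2 + ‖z 1‖ ^ 2 + ‖z 2‖ ^ 2 := Fin.sum_univ_three _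
theorem ip_two (z a : E 2) : ip z a = z 0 * conj (a 0) + z 1 * conj (a 1) := Fin.sum_univ_two _

theorem sq_le_nsq (z : E n) (i : Fin n) : ‖z i‖ ^ 2 ≤ nsq z :=
  Finset.single_le_sum (f := fun i => ‖z i‖ ^ 2) (fun _ _ => sq_nonneg _) (Finset.mem_univ i)

theorem ip_self (z : E n) : ip z z = (nsq z : ℝ) := by
  simp only [ip, nsq, ofReal_sum, Complex.mul_conj, Complex.normSq_eq_norm_sq]

theorem ip_conj (z a : E n) : conj (ip z a) = ip a z := by
  simp only [ip, map_sum, map_mul, conj_conj, mul_comm]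

theorem ip_add_left (x y a : E n) : ip (x + y) a = ip x a + ip y a := by
  simp only [ip, Pi.add_apply, add_mul, Finset.sum_add_distrib]
theorem ip_sub_left (x y a : E n) : ip (x - y) a = ip x a - ip y a := by
  simp only [ip, Pi.sub_apply, sub_mul, Finset.sum_sub_distrib]
theorem ip_neg_left (x a : E n) : ip (-x) a = -ip x a := by
  simp only [ip, Pi.neg_apply, neg_mul, Finset.sum_neg_distrib]
theorem ip_smul_left (c : ℂ) (x a : E n) : ip (c • x) a = c * ip x a := by
  simp only [ip, Pi.smul_apply, smul_eq_mul, Finset.mul_sum, mul_assoc]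
theorem ip_add_right (x a b : E n) : ip x (a + b) = ip x a + ip x b := by
  simp only [ip, Pi.add_apply, map_add, mul_add, Finset.sum_add_distrib]
theorem ip_sub_right (x a b : E n) : ip x (a - b) = ip x a - ip x b := by
  simp only [ip, Pi.sub_apply, map_sub, mul_sub, Finset.sum_sub_distrib]
theorem ip_smul_right (c : ℂ) (x a : E n) : ip x (c • a) = conj c * ip x a := by
  simp only [ip, Pi.smul_apply, smul_eq_mul, map_mul, Finset.mul_sum]
  exact Finset.sum_congr rfl fun _ _ => by ring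

theorem nsq_add (x y : E n) : nsq (x + y) = nsq x + 2 * (ip x y).re + nsq y := by
  have h := ip_self (x + y)
  rw [ip_add_left, ip_add_right, ip_add_right, ip_self, ip_self, ← ip_conj x y] at h
  have := congrArg Complex.re h
  simp only [add_re, ofReal_re, conj_re] at this
  linarith

theorem nsq_sub (x y : E n) : nsq (x - y) = nsq x - 2 * (ip x y).re + nsq y := by
  have h := ip_self (x - y)
  rw [ip_sub_left, ip_sub_right, ip_sub_right, ip_self, ip_self, ← ip_conj x y] at h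
  have := congrArg Complex.re h
  simp only [sub_re, ofReal_re, conj_re] at this
  linarith

theorem nsq_smul (c : ℂ) (x : E n) : nsq (c • x) = ‖c‖ ^ 2 * nsq x := by
  simp only [nsq, Pi.smul_apply, smul_eq_mul, norm_mul, mul_pow, Finset.mul_sum]

theorem nsq_neg (x : E n) : nsq (-x) = nsq x := by simp [nsq]

theorem nsq_sub_comm (x y : E n) : nsq (x - y) = nsq (y - x) := by rw [← nsq_neg, neg_sub]

/-- the Euclidean norm, to use the triangle and Cauchy–Schwarz inequalities -/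
theorem sqrt_nsq (z : E n) : Real.sqrt (nsq z) = ‖(WithLp.toLp 2 z : EuclideanSpace ℂ (Fin n))‖ := by
  rw [EuclideanSpace.norm_eq]; rfl

theorem sqrt_nsq_add_le (x y : E n) :
    Real.sqrt (nsq (x + y)) ≤ Real.sqrt (nsq x) + Real.sqrt (nsq y) := by
  simp only [sqrt_nsq, WithLp.toLp_add]; exact norm_add_le _ _

theorem norm_ip_le (x y : E n) : ‖ip x y‖ ≤ Real.sqrt (nsq x) * Real.sqrt (nsq y) := by
  have h := norm_inner_le_norm (𝕜 := ℂ) (WithLp.toLp 2 y : EuclideanSpace ℂ (Fin n))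
    (WithLp.toLp 2 x)
  rw [sqrt_nsq, sqrt_nsq, mul_comm]
  refine le_trans (le_of_eq ?_) h
  congr 1

theorem norm_ip_sq_le (x y : E n) : ‖ip x y‖ ^ 2 ≤ nsq x * nsq y := by
  have h := pow_le_pow_left₀ (norm_nonneg _) (norm_ip_le x y) 2
  rwa [mul_pow, Real.sq_sqrt (nsq_nonneg _), Real.sq_sqrt (nsq_nonneg _)] at h

/-- `ip · a` as a continuous linear functional -/
noncomputable def ipL (a : E n) : E n →L[ℂ] ℂ :=
  ∑ i, conj (a i) • (ContinuousLinearMap.proj i : E n →L[ℂ] ℂ)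

@[simp] theorem ipL_apply (a z : E n) : ipL a z = ip z a := by
  simp [ipL, ip, mul_comm]

theorem contDiff_nsq : ContDiff ℝ ∞ (nsq : E n → ℝ) :=
  ContDiff.sum fun i _ => (contDiff_norm_sq ℂ).comp (contDiff_apply ℝ ℂ i)

theorem continuous_nsq : Continuous (nsq : E n → ℝ) := contDiff_nsq.continuous

theorem isOpen_Bl : IsOpen (Bl n) := isOpen_lt continuous_nsq continuous_const

theorem contDiff_hh : ContDiff ℝ ∞ hh := contDiff_const.sub contDiff_nsq

theorem hh_pos {z : E 2} (hz : z ∈ Bl 2) : 0 < hh z := sub_pos.2 hz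

theorem mem_Bl_of_hh {z : E 2} (hz : 0 < hh z) : z ∈ Bl 2 := sub_pos.1 hz

theorem hh_le_one (z : E 2) : hh z ≤ 1 := sub_le_self _ (nsq_nonneg z)

theorem psi0_smooth : ContDiffOn ℝ ∞ psi0 (Bl 2) :=
  (contDiff_hh.contDiffOn.log fun _ hz => (hh_pos hz).ne').neg

theorem cx_nsq (z : E n) : ((nsq z : ℝ) : ℂ) = ∑ i, z i * conj (z i) := (ip_self z).symm

theorem isOpen_Vcap : IsOpen Vcap :=
  isOpen_Bl.inter (isOpen_lt (continuous_nsq.comp (continuous_id.sub continuous_const))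
    continuous_const)

/-! ### arrays -/

theorem Arr.toJ_add (u v : Arr n) (i k j l : Fin n) :
    (u.add v).toJ i k j l = u.toJ i k j l + v.toJ i k j l := by
  ext <;> simp [Arr.toJ, Arr.add]

theorem Arr.toJ_mul (u v : Arr n) (i k j l : Fin n) :
    (u.mul v).toJ i k j l = u.toJ i k j l * v.toJ i k j l := by
  ext <;> simp [Arr.toJ, Arr.mul] <;> ring

theorem Arr.ext_toJ {u v : Arr n} (i0 : Fin n) (h : ∀ i k j l, u.toJ i k j l = v.toJ i k j l) :
    u = v := by
  ext
  · exact congrArg J.oo (h i0 i0 i0 i0)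
  · exact congrArg J.xo (h _ i0 i0 i0)
  · exact congrArg J.oz (h i0 i0 _ i0)
  · exact congrArg J.dO (h _ _ i0 i0)
  · exact congrArg J.oe (h i0 i0 _ _)
  · exact congrArg J.xz (h _ i0 _ i0)
  · exact congrArg J.dz (h _ _ _ i0)
  · exact congrArg J.xe (h _ i0 _ _)
  · exact congrArg J.de (h _ _ _ _)

@[simp] theorem kr_self (i : Fin n) : kr i i = 1 := if_pos rfl
theorem kr_of_ne {i j : Fin n} (h : i ≠ j) : kr i j = 0 := if_neg h
theorem kr_comm (i j : Fin n) : kr i j = kr j i := by simp only [kr, eq_comm]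
@[simp] theorem kr_succ (i j : Fin n) : kr i.succ j.succ = kr i j := by simp [kr]
@[simp] theorem kr_zero_succ (j : Fin n) : kr 0 j.succ = 0 := if_neg (Fin.succ_ne_zero j).symm
@[simp] theorem kr_succ_zero (j : Fin n) : kr j.succ 0 = 0 := if_neg (Fin.succ_ne_zero j)

/-! ### the modified Bergman potential -/

theorem beta_nonneg (z : E 2) : 0 ≤ beta z := sq_nonneg _

theorem beta_le_one (z : E 2) : beta z ≤ 1 :=
  pow_le_one₀ (Real.smoothTransition.nonneg _) (Real.smoothTransition.le_one _)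

theorem beta_eq_zero {z : E 2} (h : 1 / 9 ≤ nsq (z - q0)) : beta z = 0 := by
  rw [beta, Real.smoothTransition.zero_of_nonpos (by linarith)]; simp

theorem beta_eq_one {z : E 2} (h : nsq (z - q0) ≤ 1 / 16) : beta z = 1 := by
  rw [beta, Real.smoothTransition.one_of_one_le (by linarith)]; simp

theorem contDiff_beta : ContDiff ℝ ∞ beta :=
  (Real.smoothTransition.contDiff.comp (contDiff_const.sub (contDiff_const.mul
    (contDiff_nsq.comp (contDiff_id.sub contDiff_const))))).pow 2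

theorem hh_add_beta_pos {z : E 2} (hz : z ∈ Bl 2) : 0 < hh z + beta z :=
  add_pos_of_pos_of_nonneg (hh_pos hz) (beta_nonneg z)

theorem yy_nonneg {z : E 2} (hz : z ∈ Bl 2) : 0 ≤ yy z :=
  sub_nonneg.2 (Real.log_le_log (hh_pos hz) (le_add_of_nonneg_right (beta_nonneg z)))

theorem yy_smooth : ContDiffOn ℝ ∞ yy (Bl 2) :=
  ((contDiff_hh.add contDiff_beta).contDiffOn.log fun _ hz => (hh_add_beta_pos hz).ne').sub
    (contDiff_hh.contDiffOn.log fun _ hz => (hh_pos hz).ne')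

theorem sig_pos {η σ y : ℝ} (hη : 0 ≤ η) (h0 : 0 ≤ σ) (h1 : σ ≤ 1) (hy : 0 ≤ y) :
    0 < sig η σ y := by
  have h : 0 < 1 + η * y := by positivity
  rcases h0.eq_or_lt with rfl | h0
  · simp [sig, h]
  · exact add_pos_of_pos_of_nonneg h0 (div_nonneg (by linarith) h.le)

theorem sig_le_one {η σ y : ℝ} (hη : 0 ≤ η) (h1 : σ ≤ 1) (hy : 0 ≤ y) : sig η σ y ≤ 1 := by
  have h : 1 ≤ 1 + η * y := le_add_of_nonneg_right (by positivity)
  have := div_le_self (by linarith : 0 ≤ 1 - σ) h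
  unfold sig; linarith

theorem le_sig {η σ y : ℝ} (hη : 0 ≤ η) (h1 : σ ≤ 1) (hy : 0 ≤ y) : σ ≤ sig η σ y :=
  le_add_of_nonneg_right (div_nonneg (by linarith) (by positivity))

theorem sig_anti {η σ y y' : ℝ} (hη : 0 ≤ η) (h1 : σ ≤ 1) (hy : 0 ≤ y) (h : y ≤ y') :
    sig η σ y' ≤ sig η σ y := by
  unfold sig
  gcongr

theorem Afun_smooth {η σ : ℝ} (hη : 0 ≤ η) : ContDiffOn ℝ ∞ (Afun η σ) (Bl 2) := by
  refine ((contDiff_hh.add contDiff_beta).contDiffOn.log
    fun _ hz => (hh_add_beta_pos hz).ne').neg.add ?_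
  refine (contDiffOn_const.mul yy_smooth).add ((contDiffOn_const.mul
    ((contDiffOn_const.add (contDiffOn_const.mul yy_smooth)).log fun z hz => ?_)).div_const _)
  have := yy_nonneg hz
  positivity

theorem sig_yy_smooth {η σ : ℝ} (hη : 0 ≤ η) :
    ContDiffOn ℝ ∞ (fun z => sig η σ (yy z)) (Bl 2) := by
  refine contDiffOn_const.add (contDiffOn_const.div
    (contDiffOn_const.add (contDiffOn_const.mul yy_smooth)) fun z hz => ?_)
  have := yy_nonneg hz
  positivity

theorem lamf_smooth {η σ : ℝ} (hη : 0 ≤ η) : ContDiffOn ℝ ∞ (lamf η σ) (Bl 2) :=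
  (sig_yy_smooth hη).pow 16

/-! ### the Hartogs domain -/

theorem pr_zero_rot (i : Fin 3) (x : E 3) : pr 0 (rot i x) = pr i x := by
  ext j; fin_cases j <;> simp [add_comm]

theorem contDiff_pr (i : Fin 3) : ContDiff ℝ ∞ (pr i : E 3 → E 2) :=
  ((pr i).restrictScalars ℝ).contDiff

theorem contDiff_rot (i : Fin 3) : ContDiff ℝ ∞ (rot i : E 3 → E 3) :=
  ((rot i).restrictScalars ℝ).contDiff

theorem comp_pr_smooth {f : E 2 → ℝ} (hf : ContDiffOn ℝ ∞ f (Bl 2)) (i : Fin 3) :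
    ContDiffOn ℝ ∞ (fun x => f (pr i x)) (pr i ⁻¹' Bl 2) :=
  hf.comp (contDiff_pr i).contDiffOn fun _ hx => hx

theorem sfun_smooth' (D : Base) : ContDiffOn ℝ ∞ (sfun D) (pr 0 ⁻¹' Bl 2) :=
  ((contDiff_norm_sq ℂ).comp (contDiff_apply ℝ ℂ (0 : Fin 3))).contDiffOn.mul
    (comp_pr_smooth D.smφ 0).exp

theorem sfun_nonneg (D : Base) (x : E 3) : 0 ≤ sfun D x := by unfold sfun; positivity

theorem isOpen_U0 (D : Base) : IsOpen (U0 D) :=
  (sfun_smooth' D).continuousOn.isOpen_inter_preimage (isOpen_Bl.preimage (pr 0).continuous)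
    isOpen_Iio

theorem U0_subset (D : Base) : U0 D ⊆ pr 0 ⁻¹' Bl 2 := fun _ hx => hx.1

theorem sfun_smooth (D : Base) : ContDiffOn ℝ ∞ (sfun D) (U0 D) :=
  (sfun_smooth' D).mono (U0_subset D)

theorem Lfun_smooth (D : Base) : ContDiffOn ℝ ∞ (fun x => -Real.log (1 - sfun D x)) (U0 D) :=
  ((contDiffOn_const.sub (sfun_smooth D)).log fun _ hx => (sub_pos.2 hx.2).ne').neg

theorem Phi0_smooth (D : Base) : ContDiffOn ℝ ∞ (Phi0 D) (U0 D) :=
  ((comp_pr_smooth D.smA 0).mono (U0_subset D)).add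
    (((comp_pr_smooth D.smlam 0).mono (U0_subset D)).mul (Lfun_smooth D))

theorem rho0_arg_ge (D : Base) {x : E 3} (hx : x ∈ U0 D) :
    1 / D.lam (pr 0 x) ≤ 1 / D.lam (pr 0 x) - Real.log (hh (pr 0 x) * (1 - sfun D x)) := by
  have h1 := hh_pos hx.1
  have h2 := hh_le_one (pr 0 x)
  have h3 := sfun_nonneg D x
  have h4 := hx.2
  have : Real.log (hh (pr 0 x) * (1 - sfun D x)) ≤ 0 :=
    Real.log_nonpos (mul_nonneg h1.le (by linarith)) (by nlinarith)
  linarith

theorem rho0_smooth (D : Base) : ContDiffOn ℝ ∞ (rho0 D) (U0 D) := by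
  refine ContDiffOn.log ((contDiffOn_const.div ((comp_pr_smooth D.smlam 0).mono (U0_subset D))
    fun x hx => (D.lam_pos _ hx.1).ne').sub (ContDiffOn.log
      (((comp_pr_smooth contDiff_hh.contDiffOn 0).mono (U0_subset D)).mul
        (contDiffOn_const.sub (sfun_smooth D))) fun x hx => ?_)) fun x hx => ?_
  · exact (mul_pos (hh_pos hx.1) (sub_pos.2 hx.2)).ne'
  · exact ((one_div_pos.2 (D.lam_pos _ hx.1)).trans_le (rho0_arg_ge D hx)).ne'

end Crest.Agent.R245
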