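import Crest.Agent.R245.Basic

/-! Row 245: the three caps are disjoint; `Theta` and `ThetaInv` are inverse to each other -/

set_option autoImplicit false

open Complex Crest.GeometryTopology
open scoped ContDiff ComplexConjugate Topology

namespace Crest.Agent.R245

namespace TopA

/-- the base point `pr i x` lies in the closed cap -/
def Cap (i : Fin 3) (x : E 3) : Prop := nsq (pr i x - q0) ≤ 1 / 9

theorem nsq_pr_sub (i : Fin 3) (x : E 3) :
    nsq (pr i x - q0) = ‖x (i + 1) - 1‖ ^ 2 + ‖x (i + 2)‖ ^ 2 := by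
  rw [nsq_two]
  simp [q0]

theorem nsq_pr (i : Fin 3) (x : E 3) : nsq (pr i x) = ‖x (i + 1)‖ ^ 2 + ‖x (i + 2)‖ ^ 2 := by
  rw [nsq_two]
  simp

theorem nsq_eq_add_pr (i : Fin 3) (x : E 3) : nsq x = ‖x i‖ ^ 2 + nsq (pr i x) := by
  rw [nsq_pr, nsq_three]
  fin_cases i <;> simp <;> ring

theorem nsq_pr_le (i : Fin 3) (x : E 3) : nsq (pr i x) ≤ nsq x := by
  rw [nsq_eq_add_pr i x]
  exact le_add_of_nonneg_left (sq_nonneg _)

theorem pr_mem_Bl (i : Fin 3) {x : E 3} (hx : x ∈ Bl 3) : pr i x ∈ Bl 2 :=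
  lt_of_le_of_lt (nsq_pr_le i x) hx

theorem Cap.bounds {i : Fin 3} {x : E 3} (h : Cap i x) :
    2 / 3 ≤ ‖x (i + 1)‖ ∧ ‖x (i + 2)‖ ≤ 1 / 3 := by
  rw [Cap, nsq_pr_sub] at h
  have h1 : ‖x (i + 1) - 1‖ ≤ 1 / 3 := by
    nlinarith [norm_nonneg (x (i + 1) - 1), sq_nonneg ‖x (i + 2)‖]
  have h2 : ‖x (i + 2)‖ ≤ 1 / 3 := by
    nlinarith [norm_nonneg (x (i + 2)), sq_nonneg ‖x (i + 1) - 1‖]
  have h3 := norm_sub_le (x (i + 1)) (x (i + 1) - 1)
  rw [sub_sub_cancel, norm_one] at h3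
  exact ⟨by linarith, h2⟩

theorem Cap.unique {i j : Fin 3} {x : E 3} (hi : Cap i x) (hj : Cap j x) : i = j := by
  obtain ⟨a, b⟩ := hi.bounds
  obtain ⟨c, d⟩ := hj.bounds
  fin_cases i <;> fin_cases j <;> first | rfl | (exfalso; simp at a b c d; linarith)

theorem pr_congr {i : Fin 3} {x y : E 3} (h : ∀ j, j ≠ i → y j = x j) : pr i y = pr i x := by
  rw [pr_apply, pr_apply, h _ (by fin_cases i <;> decide), h _ (by fin_cases i <;> decide)]

/-- coordinatewise rescaling by a function of the other two coordinates -/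
noncomputable def sc (u : E 2 → ℝ) (x : E 3) : E 3 := fun i => x i * (Real.exp (u (pr i x)) : ℝ)

section sc
variable {u : E 2 → ℝ} (hu : ∀ z, 1 / 9 < nsq (z - q0) → u z = 0)
include hu

theorem sc_apply_of_not {j : Fin 3} {x : E 3} (h : ¬ Cap j x) : sc u x j = x j := by
  simp [sc, hu _ (not_le.1 h)]

theorem pr_sc_of_cap {i : Fin 3} {x : E 3} (h : Cap i x) : pr i (sc u x) = pr i x :=
  pr_congr fun _ hj => sc_apply_of_not hu fun h' => hj (h'.unique h)

theorem cap_sc_iff (j : Fin 3) (x : E 3) : Cap j (sc u x) ↔ Cap j x := by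
  have key : ∀ i, Cap i x → Cap i (sc u x) := fun i h => by
    unfold Cap
    rwa [pr_sc_of_cap hu h]
  refine ⟨fun h => ?_, key j⟩
  by_cases h0 : ∃ i, Cap i x
  · obtain ⟨i, hi⟩ := h0
    rwa [h.unique (key i hi)]
  · have : sc u x = x := funext fun i => sc_apply_of_not hu fun h' => h0 ⟨i, h'⟩
    rwa [this] at h

/-- a function of the base that is constant off the cap does not see the rescaling -/
theorem comp_pr_sc {α : Type*} {f : E 2 → α} {a : α} (hf : ∀ z, 1 / 9 < nsq (z - q0) → f z = a)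
    (j : Fin 3) (x : E 3) : f (pr j (sc u x)) = f (pr j x) := by
  by_cases h : Cap j x
  · rw [pr_sc_of_cap hu h]
  · rw [hf _ (not_le.1 h), hf _ (not_le.1 fun h' => h ((cap_sc_iff hu j x).1 h'))]

theorem sc_neg_sc (x : E 3) : sc (fun z => -u z) (sc u x) = x := by
  funext i
  rw [sc, comp_pr_sc hu hu, sc, mul_assoc, ← ofReal_mul, ← Real.exp_add, add_neg_cancel]
  simp

end sc

theorem efun_eq_zero (D : Base) {z : E 2} (h : 1 / 9 ≤ nsq (z - q0)) : efun D z = 0 := by
  unfold efun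
  split_ifs with hz
  · rw [(D.out z hz h).2.1, psi0]; ring
  · rfl

theorem afun_eq_zero (D : Base) {z : E 2} (h : 1 / 9 ≤ nsq (z - q0)) : afun D z = 0 := by
  unfold afun
  split_ifs with hz
  · rw [(D.out z hz h).1, (D.out z hz h).2.2, psi0]; ring
  · rfl

theorem lfun_eq_one (D : Base) {z : E 2} (h : 1 / 9 ≤ nsq (z - q0)) : lfun D z = 1 := by
  unfold lfun
  split_ifs with hz
  · exact (D.out z hz h).2.2
  · rfl

theorem lfun_pos (D : Base) (z : E 2) : 0 < lfun D z := by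
  unfold lfun
  split_ifs with hz
  · exact D.lam_pos z hz
  · exact one_pos

theorem lfun_le (D : Base) (z : E 2) : lfun D z ≤ 1 := by
  unfold lfun
  split_ifs with hz
  · exact D.lam_le z hz
  · exact le_rfl

theorem lamG_pos (D : Base) (x : E 3) : 0 < lamG D x := Finset.prod_pos fun _ _ => lfun_pos D _

theorem lamG_le (D : Base) (x : E 3) : lamG D x ≤ 1 :=
  Finset.prod_le_one (fun _ _ => (lfun_pos D _).le) fun _ _ => lfun_le D _

theorem Theta_eq_sc (D : Base) : Theta D = sc (efun D) := rfl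

theorem ThetaInv_eq_sc (D : Base) : ThetaInv D = sc fun z => -efun D z := rfl

theorem Theta_apply_of_not (D : Base) {j : Fin 3} {x : E 3} (h : ¬ Cap j x) :
    Theta D x j = x j :=
  sc_apply_of_not (fun _ h => efun_eq_zero D h.le) h

theorem pr_Theta_of_cap (D : Base) {i : Fin 3} {x : E 3} (h : Cap i x) :
    pr i (Theta D x) = pr i x :=
  pr_sc_of_cap (fun _ h => efun_eq_zero D h.le) h

theorem cap_Theta_iff (D : Base) (j : Fin 3) (x : E 3) : Cap j (Theta D x) ↔ Cap j x :=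
  cap_sc_iff (fun _ h => efun_eq_zero D h.le) j x

theorem ThetaInv_Theta (D : Base) (x : E 3) : ThetaInv D (Theta D x) = x :=
  sc_neg_sc (fun _ h => efun_eq_zero D h.le) x

theorem Theta_ThetaInv (D : Base) (y : E 3) : Theta D (ThetaInv D y) = y := by
  have := sc_neg_sc (u := fun z => -efun D z) (fun _ h => by rw [efun_eq_zero D h.le, neg_zero]) y
  simp only [neg_neg] at this
  exact this

/-- the open set on which `efun`, `afun`, `lfun` are smooth -/
def Wc : Set (E 2) := Bl 2 ∪ {z | 1 / 9 < nsq (z - q0)}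

theorem isOpen_out : IsOpen {z : E 2 | 1 / 9 < nsq (z - q0)} :=
  isOpen_lt continuous_const (continuous_nsq.comp (continuous_id.sub continuous_const))

theorem isOpen_Wc : IsOpen Wc := isOpen_Bl.union isOpen_out

theorem efun_smooth (D : Base) : ContDiffOn ℝ ∞ (efun D) Wc := by
  intro z hz
  refine ContDiffAt.contDiffWithinAt ?_
  rcases hz with hz | hz
  · have h1 : ContDiffOn ℝ ∞ (fun z => (D.φ z + Real.log (hh z)) / 2) (Bl 2) :=
      (D.smφ.add (contDiff_hh.contDiffOn.log fun _ hz => (hh_pos hz).ne')).div_const 2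
    refine (h1.contDiffAt (isOpen_Bl.mem_nhds hz)).congr_of_eventuallyEq ?_
    filter_upwards [isOpen_Bl.mem_nhds hz] with w hw
    exact if_pos hw
  · refine (contDiffAt_const (c := (0 : ℝ))).congr_of_eventuallyEq ?_
    filter_upwards [isOpen_out.mem_nhds hz] with w hw
    exact efun_eq_zero D (le_of_lt hw)

theorem pr_mem_Bl_of_cap (D : Base) {x : E 3} (hx : x ∈ Omega D) {j : Fin 3} (h : Cap j x) :
    pr j x ∈ Bl 2 := by
  rw [← pr_Theta_of_cap D h]
  exact pr_mem_Bl j hx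

theorem pr_mem_Wc (D : Base) {x : E 3} (hx : x ∈ Omega D) (j : Fin 3) : pr j x ∈ Wc := by
  by_cases h : Cap j x
  · exact Or.inl (pr_mem_Bl_of_cap D hx h)
  · exact Or.inr (not_le.1 h)

theorem sc_smooth {u : E 2 → ℝ} (hu : ContDiffOn ℝ ∞ u Wc) :
    ContDiffOn ℝ ∞ (sc u) {x | ∀ j, pr j x ∈ Wc} := by
  refine contDiffOn_pi.2 fun i => (contDiff_apply ℝ ℂ i).contDiffOn.mul ?_
  have h : ContDiffOn ℝ ∞ (fun x => u (pr i x)) {x | ∀ j, pr j x ∈ Wc} :=
    hu.comp (contDiff_pr i).contDiffOn fun _ hx => hx i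
  exact ofRealCLM.contDiff.comp_contDiffOn h.exp

theorem isOpen_prWc : IsOpen {x : E 3 | ∀ j, pr j x ∈ Wc} := by
  rw [Set.ofPred_forall]
  exact isOpen_iInter_of_finite fun j => isOpen_Wc.preimage (pr j).continuous

theorem isOpen_Omega (D : Base) : IsOpen (Omega D) := by
  have h : Omega D = {x : E 3 | ∀ j, pr j x ∈ Wc} ∩ Theta D ⁻¹' Bl 3 :=
    Set.ext fun x => ⟨fun hx => ⟨pr_mem_Wc D hx, hx⟩, fun hx => hx.2⟩
  rw [h]
  exact (sc_smooth (efun_smooth D)).continuousOn.isOpen_inter_preimage isOpen_prWc isOpen_Bl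

theorem Theta_smooth (D : Base) : ContDiffOn ℝ ∞ (Theta D) (Omega D) :=
  (sc_smooth (efun_smooth D)).mono fun _ hx => pr_mem_Wc D hx

theorem ThetaInv_smooth (D : Base) : ContDiffOn ℝ ∞ (ThetaInv D) (Bl 3) :=
  (sc_smooth (efun_smooth D).neg).mono fun _ hx j => Or.inl (pr_mem_Bl j hx)

end TopA

end Crest.Agent.R245
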