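import Crest.Agent.R245.Basic

/-! Row 245: a proper Lipschitz function gives completeness. -/

set_option autoImplicit false

open Complex Crest.GeometryTopology Set MeasureTheory
open scoped ContDiff ComplexConjugate Topology

namespace Crest.Agent.R245

namespace Complete

variable {n : ℕ} {U : Set (E n)} (g : HermitianMetricOn n U)

theorem riem_eq (p X : E n) :
    g.riem p X X = (∑ i, ∑ j, g.h i j p * X i * conj (X j)).re := rfl

theorem continuousOn_riem :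
    ContinuousOn (fun z : E n × E n => g.riem z.1 z.2 z.2) (U ×ˢ univ) := by
  simp only [riem_eq]
  refine Complex.continuous_re.comp_continuousOn ?_
  refine continuousOn_finsetSum _ fun i _ => continuousOn_finsetSum _ fun j _ => ?_
  refine ContinuousOn.mul (ContinuousOn.mul ?_ (by fun_prop)) (by fun_prop)
  exact (g.smooth i j).continuousOn.comp continuousOn_fst fun z hz => hz.1

theorem riem_smul (p X : E n) (c : ℝ) : g.riem p (c • X) (c • X) = c ^ 2 * g.riem p X X := by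
  rw [riem_eq, riem_eq, ← Complex.re_ofReal_mul, Finset.mul_sum]
  congr 1
  refine Finset.sum_congr rfl fun i _ => ?_
  rw [Finset.mul_sum]
  refine Finset.sum_congr rfl fun j _ => ?_
  simp only [Pi.smul_apply, Complex.real_smul, map_mul, Complex.conj_ofReal]
  push_cast
  ring

/-- on a compact set the metric dominates the norm -/
theorem exists_norm_le {K : Set (E n)} (hK : IsCompact K) (hKU : K ⊆ U) :
    ∃ B : ℝ, 0 < B ∧ ∀ p ∈ K, ∀ X, ‖X‖ ≤ B * Real.sqrt (g.riem p X X) := by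
  obtain ⟨a, ha, h⟩ := (hK.prod (isCompact_sphere (0 : E n) 1)).exists_forall_le'
    ((continuousOn_riem g).mono fun z hz => ⟨hKU hz.1, mem_univ _⟩) (a := 0)
    fun z hz => g.posDef z.1 (hKU hz.1) z.2 fun h0 => by simpa [h0] using hz.2
  have hs := Real.sqrt_pos.2 ha
  refine ⟨(Real.sqrt a)⁻¹, by positivity, fun p hp X => ?_⟩
  rcases eq_or_ne X 0 with rfl | hX
  · rw [norm_zero]
    positivity
  · have hn := norm_pos_iff.2 hX
    have h1 := h (p, ‖X‖⁻¹ • X) ⟨hp, by simp [norm_smul, hn.ne']⟩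
    simp only [riem_smul] at h1
    rw [le_inv_mul_iff₀ hs, ← Real.sqrt_sq hn.le, ← Real.sqrt_mul ha.le]
    refine Real.sqrt_le_sqrt ?_
    rwa [inv_pow, le_inv_mul_iff₀ (by positivity), mul_comm] at h1

variable {γ : ℝ → E n}

theorem speed_integrable (hγ : ContDiff ℝ 1 γ) (hU : ∀ t ∈ Icc (0 : ℝ) 1, γ t ∈ U) :
    IntervalIntegrable (fun t => Real.sqrt (g.riem (γ t) (deriv γ t) (deriv γ t))) volume 0 1 := by
  refine ContinuousOn.intervalIntegrable_of_Icc zero_le_one ?_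
  have h1 : Continuous fun t => (γ t, deriv γ t) :=
    hγ.continuous.prodMk (hγ.continuous_deriv le_rfl)
  exact ((continuousOn_riem g).comp h1.continuousOn fun t ht => ⟨hU t ht, mem_univ _⟩).sqrt

theorem length_nonneg (γ : ℝ → E n) : 0 ≤ g.length γ :=
  intervalIntegral.integral_nonneg zero_le_one fun _ _ => Real.sqrt_nonneg _

/-- a function whose derivative along the curve is dominated by the speed -/
theorem norm_sub_le {F : Type} [NormedAddCommGroup F] [NormedSpace ℝ F] (hγ : ContDiff ℝ 1 γ)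
    (hU : ∀ t ∈ Icc (0 : ℝ) 1, γ t ∈ U) {φ : ℝ → F} {B : ℝ} (hB : 0 ≤ B)
    (hφ : ∀ t ∈ Icc (0 : ℝ) 1, DifferentiableAt ℝ φ t)
    (hb : ∀ t ∈ Icc (0 : ℝ) 1,
      ‖deriv φ t‖ ≤ B * Real.sqrt (g.riem (γ t) (deriv γ t) (deriv γ t)))
    {s : ℝ} (hs : s ∈ Icc (0 : ℝ) 1) : ‖φ s - φ 0‖ ≤ B * g.length γ := by
  have hi := (speed_integrable g hγ hU).const_mul B
  have h1 := norm_sub_le_integral_of_norm_deriv_le_of_le (f := φ) hs.1
    (fun t ht => (hφ t ⟨ht.1, ht.2.trans hs.2⟩).continuousAt.continuousWithinAt)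
    (fun t ht => (hφ t ⟨ht.1.le, ht.2.le.trans hs.2⟩).differentiableWithinAt)
    (Filter.Eventually.of_forall fun t ht => hb t ⟨ht.1.le, ht.2.le.trans hs.2⟩)
    (hi.mono_set (by
      rw [uIcc_of_le hs.1, uIcc_of_le zero_le_one]
      exact Icc_subset_Icc_right hs.2))
  refine h1.trans ((intervalIntegral.integral_mono_interval le_rfl hs.1 hs.2
    (Filter.Eventually.of_forall fun t => mul_nonneg hB (Real.sqrt_nonneg _)) hi).trans_eq ?_)
  exact intervalIntegral.integral_const_mul _ _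

end Complete

open Complete in
theorem complete : CompleteStmt := by
  intro n U hU g ρ C hρ hC hK hconn u hu hcau
  have hcurve : ∀ p ∈ U, ∀ q ∈ U, ∀ ε, g.dist p q < ε → ∃ γ : ℝ → E n, ContDiff ℝ 1 γ ∧ γ 0 = p ∧
      γ 1 = q ∧ (∀ t ∈ Icc (0 : ℝ) 1, γ t ∈ U) ∧ g.length γ < ε := by
    intro p hp q hq ε hε
    obtain ⟨γ₀, h1, h2, h3, h4⟩ := hconn p hp q hq
    have hne : {ℓ : ℝ | ∃ γ : ℝ → E n, ContDiff ℝ 1 γ ∧ γ 0 = p ∧ γ 1 = q ∧
        (∀ t ∈ Icc (0 : ℝ) 1, γ t ∈ U) ∧ g.length γ = ℓ}.Nonempty :=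
      ⟨g.length γ₀, γ₀, h1, h2, h3, h4, rfl⟩
    obtain ⟨_, ⟨γ, a1, a2, a3, a4, rfl⟩, a5⟩ := exists_lt_of_csInf_lt hne hε
    exact ⟨γ, a1, a2, a3, a4, a5⟩
  have hlip : ∀ γ : ℝ → E n, ContDiff ℝ 1 γ → (∀ t ∈ Icc (0 : ℝ) 1, γ t ∈ U) → g.length γ < 1 →
      ∀ s ∈ Icc (0 : ℝ) 1, ρ (γ s) ≤ ρ (γ 0) + |C| := by
    intro γ hγ hγU hl s hs
    have hd : ∀ t ∈ Icc (0 : ℝ) 1, HasDerivAt (fun t => ρ (γ t))
        (fderiv ℝ ρ (γ t) (deriv γ t)) t := fun t ht =>
      ((hρ.contDiffAt (hU.mem_nhds (hγU t ht))).differentiableAt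
        (by simp)).hasFDerivAt.comp_hasDerivAt t (hγ.differentiable one_ne_zero t).hasDerivAt
    have h1 := norm_sub_le g hγ hγU (φ := fun t => ρ (γ t)) (abs_nonneg C)
      (fun t ht => (hd t ht).differentiableAt) (fun t ht => by
        rw [(hd t ht).deriv]
        exact (hC _ (hγU t ht) _).trans
          (mul_le_mul_of_nonneg_right (le_abs_self C) (Real.sqrt_nonneg _))) hs
    have h2 := mul_le_mul_of_nonneg_left hl.le (abs_nonneg C)
    have h3 := le_abs_self (ρ (γ s) - ρ (γ 0))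
    rw [Real.norm_eq_abs] at h1
    linarith
  obtain ⟨N, hN⟩ := hcau 1 one_pos
  obtain ⟨K, hKc, hKU, hKρ⟩ := hK (ρ (u N) + |C| + |C|)
  have hum : ∀ m, N ≤ m → ρ (u m) ≤ ρ (u N) + |C| := by
    intro m hm
    obtain ⟨γ, a1, a2, a3, a4, a5⟩ := hcurve _ (hu N) _ (hu m) 1 (hN N m le_rfl hm)
    have := hlip γ a1 a4 a5 1 ⟨zero_le_one, le_rfl⟩
    rwa [a2, a3] at this
  obtain ⟨B, hB, hBK⟩ := exists_norm_le g hKc hKU
  have hcs : CauchySeq u := by
    rw [Metric.cauchySeq_iff]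
    intro ε hε
    obtain ⟨N', hN'⟩ := hcau (min 1 (ε / B)) (lt_min one_pos (div_pos hε hB))
    refine ⟨max N N', fun m hm k hk => ?_⟩
    obtain ⟨γ, a1, a2, a3, a4, a5⟩ := hcurve _ (hu k) _ (hu m) _
      (hN' k m (le_of_max_le_right hk) (le_of_max_le_right hm))
    have hγK : ∀ t ∈ Icc (0 : ℝ) 1, γ t ∈ K := fun t ht => hKρ _ (a4 t ht) (by
      have b1 := hlip γ a1 a4 (a5.trans_le (min_le_left _ _)) t ht
      have b2 := hum k (le_of_max_le_left hk)
      rw [a2] at b1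
      linarith)
    have h1 := norm_sub_le g a1 a4 (φ := γ) hB.le
      (fun t _ => a1.differentiable one_ne_zero t) (fun t ht => hBK _ (hγK t ht) _)
      ⟨zero_le_one, le_rfl⟩
    rw [a2, a3] at h1
    have h2 := (lt_div_iff₀' hB).1 (a5.trans_le (min_le_right _ _))
    rw [dist_eq_norm]
    exact h1.trans_lt h2
  obtain ⟨q, hq⟩ := cauchySeq_tendsto_of_complete hcs
  refine ⟨q, hKU (hKc.isClosed.mem_of_tendsto hq ?_), hq⟩
  filter_upwards [Filter.eventually_ge_atTop N] with m hm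
  exact hKρ _ (hu m) ((hum m hm).trans (le_add_of_nonneg_right (abs_nonneg C)))

end Crest.Agent.R245
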