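import Crest.Agent.R245.Basic

/-! Row 245: bounded holomorphic functions on a domain containing the Hartogs discs. -/

set_option autoImplicit false

open Complex Metric Set Filter
open scoped Topology

namespace Crest.Agent.R245

namespace ConstAux

/-! ### the identity theorem -/

theorem lineHol_of_diff {n : ℕ} {f : E n → ℂ} {U : Set (E n)} (hf : DifferentiableOn ℂ f U) :
    LineHol f U := fun z v =>
  hf.comp (by fun_prop : Differentiable ℂ fun ζ : ℂ => z + ζ • v).differentiableOn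
    fun _ h => h

theorem lineHol_mono {n : ℕ} {f : E n → ℂ} {U V : Set (E n)} (hf : LineHol f U) (h : V ⊆ U) :
    LineHol f V := fun z v => (hf z v).mono fun _ hζ => h hζ

theorem identity {n : ℕ} {a : E n → ℂ} {V W : Set (E n)} (ha : LineHol a V) (hV : IsOpen V)
    (hc : Convex ℝ V) (hW : IsOpen W) (hne : W.Nonempty) (hWV : W ⊆ V) (h0 : ∀ z ∈ W, a z = 0) :
    ∀ z ∈ V, a z = 0 := by
  intro z hz
  obtain ⟨w, hw⟩ := hne
  have hl : Continuous fun ζ : ℂ => w + ζ • (z - w) := by fun_prop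
  have hS : IsOpen {ζ : ℂ | w + ζ • (z - w) ∈ V} := hV.preimage hl
  have hSc : Convex ℝ {ζ : ℂ | w + ζ • (z - w) ∈ V} := by
    intro s hs t ht α β hα hβ hαβ
    have h1 := hc hs ht hα hβ hαβ
    have h2 : α • (w + s • (z - w)) + β • (w + t • (z - w)) = w + (α • s + β • t) • (z - w) := by
      rw [smul_add, smul_add, add_add_add_comm, ← add_smul, hαβ, one_smul, add_smul,
        smul_assoc, smul_assoc]
    rw [h2] at h1
    exact h1
  have h1 := ((ha w (z - w)).analyticOnNhd hS).eqOn_zero_of_preconnected_of_eventuallyEq_zero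
    hSc.isPreconnected (z₀ := 0) (by simpa using hWV hw) (by
      have h2 : ∀ᶠ ζ in 𝓝 (0 : ℂ), w + ζ • (z - w) ∈ W :=
        hl.continuousAt.eventually_mem (hW.mem_nhds (by simpa using hw))
      filter_upwards [h2] with ζ hζ using h0 _ hζ)
  have h2 := h1 (x := 1) (by simpa using hz)
  simpa using h2

theorem identity_conn {n : ℕ} {f : E n → ℂ} {U : Set (E n)} (hf : DifferentiableOn ℂ f U)
    (hU : IsOpen U) (hc : IsPreconnected U) {p : E n} (hp : p ∈ U) {c : ℂ}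
    (h0 : ∀ᶠ x in 𝓝 p, f x = c) : ∀ x ∈ U, f x = c := by
  have h1 : U ⊆ interior {x | f x = c} := by
    refine hc.subset_of_closure_inter_subset isOpen_interior
      ⟨p, hp, mem_interior_iff_mem_nhds.2 h0⟩ ?_
    rintro x ⟨hx, hxU⟩
    obtain ⟨r, hr, hb⟩ := Metric.isOpen_iff.1 hU x hxU
    have h2 := identity (a := fun y => f y - c) (V := ball x r)
      (W := ball x r ∩ interior {x | f x = c})
      (lineHol_of_diff ((hf.mono hb).sub_const c)) isOpen_ball (convex_ball x r)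
      (isOpen_ball.inter isOpen_interior)
      (mem_closure_iff.1 hx _ isOpen_ball (mem_ball_self hr)) inter_subset_left
      (fun z hz => sub_eq_zero.2 (interior_subset (s := {x | f x = c}) hz.2))
    rw [mem_interior_iff_mem_nhds]
    filter_upwards [ball_mem_nhds x hr] with y hy using sub_eq_zero.1 (h2 y hy)
  exact fun x hx => interior_subset (s := {x | f x = c}) (h1 hx)

/-! ### Taylor coefficients through iterated difference quotients -/

/-- iterated difference quotients at `0` -/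
noncomputable def ds : ℕ → (ℂ → ℂ) → ℂ → ℂ
  | 0, h => h
  | k + 1, h => dslope (ds k h) 0

theorem ds_eq (k : ℕ) (h : ℂ → ℂ) (w : ℂ) : ds k h w = ds k h 0 + w * ds (k + 1) h w := by
  have h1 := sub_smul_dslope (ds k h) 0 w
  rw [sub_zero, smul_eq_mul] at h1
  change _ = _ + w * dslope (ds k h) 0 w
  rw [h1, add_sub_cancel]

theorem ds_diff {h : ℂ → ℂ} {r : ℝ} (hr : 0 < r) (hd : DifferentiableOn ℂ h (ball 0 r)) (k : ℕ) :
    DifferentiableOn ℂ (ds k h) (ball 0 r) := by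
  induction k with
  | zero => exact hd
  | succ k ih => exact (differentiableOn_dslope (ball_mem_nhds 0 hr)).2 ih

theorem ds_bound {h : ℂ → ℂ} {r M : ℝ} (hr : 0 < r) (hd : DifferentiableOn ℂ h (ball 0 r))
    (hM : ∀ w ∈ ball (0 : ℂ) r, ‖h w‖ ≤ M) (k : ℕ) :
    ∀ w ∈ ball (0 : ℂ) r, ‖ds k h w‖ ≤ M * (2 / r) ^ k := by
  induction k with
  | zero => simpa [ds] using hM
  | succ k ih =>
    intro w hw
    have h1 := norm_dslope_le_div_of_mapsTo_ball (R₂ := 2 * (M * (2 / r) ^ k)) (ds_diff hr hd k)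
      (fun z hz => by
        rw [mem_closedBall_iff_norm]
        linarith [norm_sub_le (ds k h z) (ds k h 0), ih z hz, ih 0 (mem_ball_self hr)]) hw
    refine h1.trans (le_of_eq ?_)
    rw [pow_succ]
    ring

theorem ds_param {H : ℂ → ℂ → ℂ} {T : Set ℂ} {r M : ℝ} (hr : 0 < r) (hT : IsOpen T)
    (hd : ∀ ζ ∈ T, DifferentiableOn ℂ (H ζ) (ball 0 r))
    (hM : ∀ ζ ∈ T, ∀ w ∈ ball (0 : ℂ) r, ‖H ζ w‖ ≤ M)
    (hd' : ∀ w ∈ ball (0 : ℂ) r, DifferentiableOn ℂ (fun ζ => H ζ w) T) (k : ℕ) :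
    ∀ w ∈ ball (0 : ℂ) r, DifferentiableOn ℂ (fun ζ => ds k (H ζ) w) T := by
  induction k with
  | zero => exact hd'
  | succ k ih =>
    have h1 : ∀ w ∈ ball (0 : ℂ) r, w ≠ 0 →
        DifferentiableOn ℂ (fun ζ => ds (k + 1) (H ζ) w) T := by
      intro w hw hw0
      refine (((ih w hw).sub (ih 0 (mem_ball_self hr))).const_mul w⁻¹).congr fun ζ _ => ?_
      rw [Pi.sub_apply, ds_eq k (H ζ) w, add_sub_cancel_left, ← mul_assoc, inv_mul_cancel₀ hw0,
        one_mul]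
    intro w hw
    by_cases hw0 : w ≠ 0
    · exact h1 w hw hw0
    obtain rfl : w = 0 := not_not.1 hw0
    have hb : ∀ᶠ w in 𝓝[≠] (0 : ℂ), w ∈ ball (0 : ℂ) r :=
      mem_nhdsWithin_of_mem_nhds (ball_mem_nhds 0 hr)
    have h2 : TendstoUniformlyOn (fun w ζ => ds (k + 1) (H ζ) w) (fun ζ => ds (k + 1) (H ζ) 0)
        (𝓝[≠] (0 : ℂ)) T := by
      rw [Metric.tendstoUniformlyOn_iff]
      intro ε hε
      have h3 : Tendsto (fun w : ℂ => ‖w‖ * (M * (2 / r) ^ (k + 1 + 1))) (𝓝[≠] 0) (𝓝 0) := by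
        refine tendsto_nhdsWithin_of_tendsto_nhds ?_
        have h4 : Continuous fun w : ℂ => ‖w‖ * (M * (2 / r) ^ (k + 1 + 1)) := by fun_prop
        simpa using h4.tendsto 0
      filter_upwards [hb, h3.eventually_lt_const hε] with w hw h4 ζ hζ
      rw [dist_comm, dist_eq_norm, ds_eq (k + 1) (H ζ) w, add_sub_cancel_left, norm_mul]
      exact lt_of_le_of_lt (mul_le_mul_of_nonneg_left
        (ds_bound hr (hd ζ hζ) (hM ζ hζ) _ w hw) (norm_nonneg _)) h4
    refine h2.tendstoLocallyUniformlyOn.differentiableOn ?_ hT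
    filter_upwards [hb, self_mem_nhdsWithin] with w hw hw0 using h1 w hw hw0

theorem ds_const {h : ℂ → ℂ} {r M : ℝ} (hr : 0 < r) (hd : DifferentiableOn ℂ h (ball 0 r))
    (hM : ∀ w ∈ ball (0 : ℂ) r, ‖h w‖ ≤ M) (h0 : ∀ k, 1 ≤ k → ds k h 0 = 0) {w : ℂ}
    (hw : ‖w‖ < r / 2) : h w = h 0 := by
  have hw' : w ∈ ball (0 : ℂ) r := by
    rw [mem_ball_zero_iff]
    linarith
  have h1 : ∀ k, ds 1 h w = w ^ k * ds (k + 1) h w := by
    intro k
    induction k with
    | zero => simp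
    | succ k ih => rw [ih, ds_eq (k + 1) h w, h0 _ (by omega), zero_add, pow_succ, mul_assoc]
  have h2 : ∀ k, ‖ds 1 h w‖ ≤ M * (2 / r) * (‖w‖ * (2 / r)) ^ k := by
    intro k
    rw [h1 k, norm_mul, norm_pow]
    refine (mul_le_mul_of_nonneg_left (ds_bound hr hd hM _ w hw') (by positivity)).trans
      (le_of_eq ?_)
    rw [mul_pow, pow_succ]
    ring
  have h3 : Tendsto (fun k : ℕ => M * (2 / r) * (‖w‖ * (2 / r)) ^ k) atTop (𝓝 0) := by
    have h4 : ‖w‖ * (2 / r) < 1 := by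
      rw [← mul_div_assoc, div_lt_one hr]
      linarith
    simpa using (tendsto_pow_atTop_nhds_zero_of_lt_one (by positivity) h4).const_mul (M * (2 / r))
  have h4 : ds 1 h w = 0 := norm_le_zero_iff.1 (ge_of_tendsto' h3 h2)
  have h5 := ds_eq 0 h w
  rw [zero_add, h4, mul_zero, add_zero] at h5
  exact h5

/-! ### the Hartogs discs -/

/-- the point with `i`-th coordinate `w` over `z` -/
noncomputable def ins (i : Fin 3) (w : ℂ) (z : E 2) : E 3 :=
  w • Pi.single i 1 + z 0 • Pi.single (i + 1) 1 + z 1 • Pi.single (i + 2) 1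

theorem ins_self (i : Fin 3) (w : ℂ) (z : E 2) : ins i w z i = w := by
  fin_cases i <;> simp [ins]

theorem ins_one (i : Fin 3) (w : ℂ) (z : E 2) : ins i w z (i + 1) = z 0 := by
  fin_cases i <;> simp [ins]

theorem ins_two (i : Fin 3) (w : ℂ) (z : E 2) : ins i w z (i + 2) = z 1 := by
  fin_cases i <;> simp [ins]

theorem pr_ins (i : Fin 3) (w : ℂ) (z : E 2) : pr i (ins i w z) = z := by
  ext j
  fin_cases j
  · exact ins_one i w z
  · exact ins_two i w z

theorem ins_pr (i : Fin 3) (x : E 3) : ins i (x i) (pr i x) = x := by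
  ext j
  fin_cases i <;> fin_cases j <;> simp [ins]

/-- the region over which small discs lie in the domain -/
def V2 : Set (E 2) := {z | z ∈ Bl 2 ∧ ‖z 1‖ < 1 / 2}

theorem isOpen_V2 : IsOpen V2 := isOpen_Bl.inter
  (isOpen_lt (by fun_prop : Continuous fun z : E 2 => ‖z 1‖) continuous_const)

theorem convex_Bl (n : ℕ) : Convex ℝ (Bl n) := by
  intro x hx y hy α β hα hβ hαβ
  have h1 := sqrt_nsq_add_le ((α : ℂ) • x) ((β : ℂ) • y)
  rw [nsq_smul, nsq_smul, Real.sqrt_mul (sq_nonneg _), Real.sqrt_mul (sq_nonneg _),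
    Real.sqrt_sq (norm_nonneg _), Real.sqrt_sq (norm_nonneg _), norm_real, norm_real,
    Real.norm_of_nonneg hα, Real.norm_of_nonneg hβ] at h1
  have h2 : Real.sqrt (nsq x) < 1 := (Real.sqrt_lt' one_pos).2 (by rw [one_pow]; exact hx)
  have h3 : Real.sqrt (nsq y) < 1 := (Real.sqrt_lt' one_pos).2 (by rw [one_pow]; exact hy)
  have h4 : α * Real.sqrt (nsq x) + β * Real.sqrt (nsq y) < 1 :=
    convex_Iio (𝕜 := ℝ) (1 : ℝ) h2 h3 hα hβ hαβ
  have h5 := (Real.sqrt_lt' one_pos).1 (h1.trans_lt h4)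
  rw [one_pow] at h5
  exact h5

theorem convex_V2 : Convex ℝ V2 := by
  intro x hx y hy α β hα hβ hαβ
  refine ⟨convex_Bl 2 hx.1 hy.1 hα hβ hαβ, ?_⟩
  have h1 := convex_ball (0 : ℂ) (1 / 2) (mem_ball_zero_iff.2 hx.2) (mem_ball_zero_iff.2 hy.2)
    hα hβ hαβ
  exact mem_ball_zero_iff.1 h1

theorem Vcap_subset : Vcap ⊆ V2 := by
  intro z hz
  refine ⟨hz.1, ?_⟩
  have h1 := (sq_le_nsq (z - q0) 1).trans_lt hz.2
  have h2 : (z - q0) 1 = z 1 := by simp [q0]
  rw [h2] at h1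
  nlinarith [norm_nonneg (z 1)]

theorem zero_mem_V2 : (0 : E 2) ∈ V2 := by
  refine ⟨?_, by simp⟩
  simp [Bl, nsq]

theorem sq_mul_exp_lt {w : ℂ} {t t' : ℝ} (ht : t ≤ t') (hw : ‖w‖ < Real.exp (-t' / 2)) :
    ‖w‖ ^ 2 * Real.exp t < 1 := by
  have h1 : ‖w‖ ^ 2 < Real.exp (-t' / 2) ^ 2 := by gcongr
  have h2 : Real.exp (-t' / 2) ^ 2 * Real.exp t' = 1 := by
    rw [← Real.exp_nat_mul, ← Real.exp_add, Real.exp_eq_one_iff]
    push_cast
    ring
  calc ‖w‖ ^ 2 * Real.exp t ≤ ‖w‖ ^ 2 * Real.exp t' := by gcongr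
    _ < Real.exp (-t' / 2) ^ 2 * Real.exp t' := by gcongr
    _ = 1 := h2

variable {φ : E 2 → ℝ} {U : Set (E 3)} {f : E 3 → ℂ} {M : ℝ}

theorem mem_cap (hU : MemU φ U) (i : Fin 3) {z : E 2} (hz : z ∈ Vcap) {w : ℂ}
    (hw : w ∈ ball (0 : ℂ) (Real.exp (-φ z / 2))) : ins i w z ∈ U := by
  refine hU i _ ?_ (Or.inl ?_) ?_
  · rw [pr_ins]
    exact hz.1
  · rw [pr_ins]
    exact hz.2
  · rw [pr_ins, ins_self]
    exact sq_mul_exp_lt le_rfl (mem_ball_zero_iff.1 hw)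

theorem mem_V2 (hU : MemU φ U) (i : Fin 3) {z : E 2} (hz : z ∈ V2) {t : ℝ} (ht : φ z ≤ t) {w : ℂ}
    (hw : w ∈ ball (0 : ℂ) (min (1 / 2) (Real.exp (-t / 2)))) : ins i w z ∈ U := by
  rw [mem_ball_zero_iff, lt_min_iff] at hw
  refine hU i _ ?_ (Or.inr ⟨?_, ?_⟩) ?_
  · rw [pr_ins]
    exact hz.1
  · rw [ins_self]
    exact hw.1
  · rw [ins_two]
    exact hz.2
  · rw [pr_ins, ins_self]
    exact sq_mul_exp_lt ht hw.2

theorem diff_fibre (hf : DifferentiableOn ℂ f U) (i : Fin 3) (z : E 2) {S : Set ℂ}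
    (h : ∀ w ∈ S, ins i w z ∈ U) : DifferentiableOn ℂ (fun w => f (ins i w z)) S :=
  hf.comp (by unfold ins; fun_prop : Differentiable ℂ fun w => ins i w z).differentiableOn h

/-- the Taylor coefficients along the fibres -/
noncomputable def coef (f : E 3 → ℂ) (i : Fin 3) (k : ℕ) (z : E 2) : ℂ :=
  ds k (fun w => f (ins i w z)) 0

theorem coef_lineHol (hφ : ContinuousOn φ (Bl 2)) (hU : MemU φ U) (hf : DifferentiableOn ℂ f U)
    (hM : ∀ x ∈ U, ‖f x‖ ≤ M) (i : Fin 3) (k : ℕ) : LineHol (coef f i k) V2 := by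
  intro z v ζ0 hζ0
  have hl : Continuous fun ζ : ℂ => z + ζ • v := by fun_prop
  have h1 : ContinuousAt (fun ζ : ℂ => φ (z + ζ • v)) ζ0 :=
    ContinuousAt.comp (f := fun ζ : ℂ => z + ζ • v)
      (hφ.continuousAt (isOpen_Bl.mem_nhds hζ0.1)) hl.continuousAt
  have h2 : ∀ᶠ ζ in 𝓝 ζ0, z + ζ • v ∈ V2 ∧ φ (z + ζ • v) < φ (z + ζ0 • v) + 1 :=
    (hl.continuousAt.eventually_mem (isOpen_V2.mem_nhds hζ0)).and
      (h1.eventually_lt_const (lt_add_one _))
  obtain ⟨T, hT, hTo, hT0⟩ := _root_.eventually_nhds_iff.1 h2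
  have hmem : ∀ ζ ∈ T, ∀ w ∈ ball (0 : ℂ) (min (1 / 2) (Real.exp (-(φ (z + ζ0 • v) + 1) / 2))),
      ins i w (z + ζ • v) ∈ U := fun ζ hζ w hw => mem_V2 hU i (hT ζ hζ).1 (hT ζ hζ).2.le hw
  have hr : 0 < min (1 / 2) (Real.exp (-(φ (z + ζ0 • v) + 1) / 2)) :=
    lt_min (by norm_num) (Real.exp_pos _)
  have h3 := ds_param (H := fun ζ w => f (ins i w (z + ζ • v))) (M := M) hr hTo
    (fun ζ hζ => diff_fibre hf i _ (hmem ζ hζ)) (fun ζ hζ w hw => hM _ (hmem ζ hζ w hw))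
    (fun w hw => hf.comp (by unfold ins; fun_prop :
      Differentiable ℂ fun ζ : ℂ => ins i w (z + ζ • v)).differentiableOn
      fun ζ hζ => hmem ζ hζ w hw) k 0 (mem_ball_self hr)
  exact (h3.differentiableAt (hTo.mem_nhds hT0)).differentiableWithinAt

theorem coef_zero (hφ : ContinuousOn φ (Bl 2)) (hU : MemU φ U) (hf : DifferentiableOn ℂ f U)
    (hM : ∀ x ∈ U, ‖f x‖ ≤ M) (i : Fin 3) {k : ℕ} (hk : Kill φ k) :
    ∀ z ∈ V2, coef f i k z = 0 := by
  have h1 := coef_lineHol hφ hU hf hM i k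
  obtain ⟨W, hW, hne, hWV, h0⟩ := hk (coef f i k) (M * 2 ^ k) (lineHol_mono h1 Vcap_subset) (by
    intro z hz
    have h2 := ds_bound (Real.exp_pos _) (diff_fibre hf i z fun w hw => mem_cap hU i hz hw)
      (fun w hw => hM _ (mem_cap hU i hz hw)) k 0 (mem_ball_self (Real.exp_pos _))
    refine h2.trans (le_of_eq ?_)
    rw [div_eq_mul_inv, ← Real.exp_neg, mul_pow, ← Real.exp_nat_mul, mul_assoc]
    congr 3
    ring)
  exact identity h1 isOpen_V2 convex_V2 hW hne (hWV.trans Vcap_subset) h0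

theorem zero_mem (hU : MemU φ U) : (0 : E 3) ∈ U := by
  refine hU 0 0 ?_ (Or.inr ⟨by simp, by simp⟩) (by simp)
  rw [map_zero]
  exact zero_mem_V2.1

theorem step (hφ : ContinuousOn φ (Bl 2)) (hU : MemU φ U) (hf : DifferentiableOn ℂ f U)
    (hM : ∀ x ∈ U, ‖f x‖ ≤ M) (hk : ∀ k, 1 ≤ k → Kill φ k) (i : Fin 3) :
    ∀ᶠ x in 𝓝 (0 : E 3), f x = f (ins i 0 (pr i x)) := by
  have hr : 0 < min (1 / 2) (Real.exp (-(φ 0 + 1) / 2)) := lt_min (by norm_num) (Real.exp_pos _)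
  have hp : Tendsto (pr i) (𝓝 (0 : E 3)) (𝓝 0) := by
    simpa using (pr i).continuous.tendsto 0
  have h1 : ∀ᶠ z in 𝓝 (0 : E 2), z ∈ V2 ∧ φ z < φ 0 + 1 :=
    (isOpen_V2.eventually_mem zero_mem_V2).and
      ((hφ.continuousAt (isOpen_Bl.mem_nhds zero_mem_V2.1)).eventually_lt_const (lt_add_one _))
  have h2 : ∀ᶠ x in 𝓝 (0 : E 3), ‖x i‖ < min (1 / 2) (Real.exp (-(φ 0 + 1) / 2)) / 2 := by
    have h3 : Continuous fun x : E 3 => ‖x i‖ := by fun_prop
    exact h3.continuousAt.eventually_lt_const (by simpa using hr)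
  filter_upwards [hp.eventually h1, h2] with x hx hx'
  have hmem := fun w hw => mem_V2 hU i hx.1 hx.2.le (w := w) hw
  have h3 := ds_const hr (diff_fibre hf i _ hmem) (fun w hw => hM _ (hmem w hw))
    (fun k hk' => coef_zero hφ hU hf hM i (hk k hk') _ hx.1) hx'
  rw [ins_pr] at h3
  exact h3

end ConstAux

open ConstAux

theorem const : ConstStmt := by
  intro φ U hφ hU hc hm hk f hf hb
  obtain ⟨M, hM⟩ := hb.exists_norm_le
  have hM' : ∀ x ∈ U, ‖f x‖ ≤ M := fun x hx => hM _ (mem_image_of_mem f hx)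
  have ht : ∀ i, Tendsto (fun x => ins i 0 (pr i x)) (𝓝 (0 : E 3)) (𝓝 0) := by
    intro i
    have h1 : Continuous fun x => ins i 0 (pr i x) := by
      unfold ins
      fun_prop
    simpa [ins] using h1.tendsto 0
  have h0 : ∀ᶠ x in 𝓝 (0 : E 3), f x = f 0 := by
    filter_upwards [step hφ hm hf hM' hk 0, (ht 0).eventually (step hφ hm hf hM' hk 1),
      ((ht 1).comp (ht 0)).eventually (step hφ hm hf hM' hk 2)] with x h1 h2 h3
    rw [h1, h2]
    refine h3.trans ?_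
    congr 1
    ext j
    fin_cases j <;> simp [ins]
  have h1 := identity_conn hf hU hc (zero_mem hm) h0
  intro p hp q hq
  rw [h1 p hp, h1 q hq]

theorem det : DetStmt := by
  intro φ U hφ hU hm hk F hF hb
  obtain ⟨M, hM⟩ := hb.exists_norm_le
  refine ⟨0, zero_mem hm, ?_⟩
  have hd : HasFDerivAt F (fderiv ℂ F 0) 0 :=
    (hF.differentiableAt (hU.mem_nhds (zero_mem hm))).hasFDerivAt
  have h1 : fderiv ℂ F 0 (Pi.single 0 1) = 0 := by
    ext m
    have h2 := coef_zero (f := fun x => F x m) (M := M) hφ hm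
      (differentiableOn_pi.1 hF m)
      (fun x hx => (norm_le_pi_norm (F x) m).trans (hM _ (mem_image_of_mem F hx))) 0 hk 0
      zero_mem_V2
    have h3 : HasDerivAt (fun w : ℂ => ins 0 w 0) (Pi.single 0 1) 0 := by
      have h4 := (hasDerivAt_id (0 : ℂ)).smul_const (Pi.single 0 1 : E 3)
      simpa [ins] using h4
    have h4 : HasDerivAt (fun w : ℂ => F (ins 0 w 0)) (fderiv ℂ F 0 (Pi.single 0 1)) 0 :=
      HasFDerivAt.comp_hasDerivAt_of_eq (0 : ℂ) hd h3 (by simp [ins])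
    have h5 := (hasDerivAt_pi.1 h4 m).deriv
    rw [← h5, ← dslope_same]
    exact h2
  refine LinearMap.det_eq_zero_iff_ker_ne_bot.2 ((Submodule.ne_bot_iff _).2 ⟨Pi.single 0 1, h1, ?_⟩)
  simp

end Crest.Agent.R245
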