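import Crest.Agent.R245.Basic

/-! Row 245: the curvature of a Kähler metric from its potential, in a frame. -/

set_option autoImplicit false

open Complex Crest.GeometryTopology
open scoped ContDiff ComplexConjugate Topology

namespace Crest.Agent.R245

namespace Curv

variable {n : ℕ} {U : Set (E n)} {Φ : E n → ℝ} {g : HermitianMetricOn n U} {p : E n}

/-! ### the Hermitian form -/

theorem herm_add_left (p X Y Z : E n) : g.herm p (X + Y) Z = g.herm p X Z + g.herm p Y Z := by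
  simp only [HermitianMetricOn.herm, Pi.add_apply, mul_add, add_mul, Finset.sum_add_distrib]

theorem herm_sub_left (p X Y Z : E n) : g.herm p (X - Y) Z = g.herm p X Z - g.herm p Y Z := by
  simp only [HermitianMetricOn.herm, Pi.sub_apply, mul_sub, sub_mul, Finset.sum_sub_distrib]

theorem herm_add_right (p X Y Z : E n) : g.herm p X (Y + Z) = g.herm p X Y + g.herm p X Z := by
  simp only [HermitianMetricOn.herm, Pi.add_apply, map_add, mul_add, Finset.sum_add_distrib]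

theorem herm_smul_left (p : E n) (a : ℂ) (X Z : E n) : g.herm p (a • X) Z = a * g.herm p X Z := by
  simp only [HermitianMetricOn.herm, Pi.smul_apply, smul_eq_mul, Finset.mul_sum]
  exact Finset.sum_congr rfl fun _ _ => Finset.sum_congr rfl fun _ _ => by ring

theorem herm_smul_right (p : E n) (a : ℂ) (X Z : E n) :
    g.herm p X (a • Z) = conj a * g.herm p X Z := by
  simp only [HermitianMetricOn.herm, Pi.smul_apply, smul_eq_mul, map_mul, Finset.mul_sum]
  exact Finset.sum_congr rfl fun _ _ => Finset.sum_congr rfl fun _ _ => by ring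

theorem herm_sum_left {ι : Type} (s : Finset ι) (x : ι → ℂ) (X : ι → E n) (p Z : E n) :
    g.herm p (∑ i ∈ s, x i • X i) Z = ∑ i ∈ s, x i * g.herm p (X i) Z := by
  classical
  induction s using Finset.induction_on with
  | empty => simp [HermitianMetricOn.herm]
  | insert a s ha ih => simp only [Finset.sum_insert ha, herm_add_left, herm_smul_left, ih]

theorem herm_sum_right {ι : Type} (s : Finset ι) (x : ι → ℂ) (X : ι → E n) (p Z : E n) :
    g.herm p Z (∑ i ∈ s, x i • X i) = ∑ i ∈ s, conj (x i) * g.herm p Z (X i) := by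
  classical
  induction s using Finset.induction_on with
  | empty => simp [HermitianMetricOn.herm]
  | insert a s ha ih => simp only [Finset.sum_insert ha, herm_add_right, herm_smul_right, ih]

theorem herm_conj (hp : p ∈ U) (X Y : E n) : conj (g.herm p X Y) = g.herm p Y X := by
  simp only [HermitianMetricOn.herm, map_sum, map_mul, conj_conj]
  rw [Finset.sum_comm]
  refine Finset.sum_congr rfl fun i _ => Finset.sum_congr rfl fun j _ => ?_
  rw [g.hermitian p hp i j]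
  ring

theorem eq_zero_of_herm (hp : p ∈ U) {V : E n} (h : g.herm p V V = 0) : V = 0 := by
  by_contra hV
  have := g.posDef p hp V hV
  rw [show ∑ i, ∑ j, g.h i j p * V i * conj (V j) = g.herm p V V from rfl, h] at this
  simp at this

theorem eq_sum_std (Y : E n) : Y = ∑ i, Y i • stdVec i := by
  ext j
  simp [stdVec, Finset.sum_apply, Pi.single_apply]

theorem herm_std_right (p V : E n) (i : Fin n) :
    g.herm p V (stdVec i) = (Matrix.of fun i j => g.h j i p).mulVec V i := by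
  simp [HermitianMetricOn.herm, stdVec, Pi.single_apply, apply_ite, Matrix.mulVec, dotProduct]

theorem det_ne_zero (hp : p ∈ U) : (Matrix.of fun i j => g.h j i p).det ≠ 0 := by
  intro h
  obtain ⟨V, hV, h0⟩ := Matrix.exists_mulVec_eq_zero_iff.2 h
  refine hV (eq_zero_of_herm (g := g) hp ?_)
  conv_lhs => rw [show g.herm p V V = g.herm p V (∑ i, V i • stdVec i) by rw [← eq_sum_std]]
  simp only [herm_sum_right, herm_std_right, h0, Pi.zero_apply, mul_zero, Finset.sum_const_zero]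

/-! ### derivatives of the potential -/

theorem dz_congr_on (hU : IsOpen U) {u v : E n → ℂ} (h : ∀ q ∈ U, u q = v q) (X : E n) :
    ∀ q ∈ U, dz X u q = dz X v q := fun _ hq =>
  (dz_congr_ev (Filter.eventuallyEq_of_mem (hU.mem_nhds hq) h) X).eq_of_nhds

theorem dzb_congr_on (hU : IsOpen U) {u v : E n → ℂ} (h : ∀ q ∈ U, u q = v q) (X : E n) :
    ∀ q ∈ U, dzb X u q = dzb X v q := fun _ hq =>
  (dzb_congr_ev (Filter.eventuallyEq_of_mem (hU.mem_nhds hq) h) X).eq_of_nhds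

/-- third derivatives -/
noncomputable def T3 (Φ : E n → ℝ) (X Y Z : E n) : E n → ℂ := dz X (dz Y (dzb Z (cx Φ)))

/-- fourth derivatives -/
noncomputable def T4 (Φ : E n → ℝ) (X Y Z W : E n) : E n → ℂ :=
  dz X (dz Y (dzb Z (dzb W (cx Φ))))

section
variable (hU : IsOpen U) (hΦ : ContDiffOn ℝ ∞ Φ U)
include hU hΦ

theorem sm1 (Z : E n) : ContDiffOn ℝ ∞ (dzb Z (cx Φ)) U := dzb_smooth hU (ofReal_smooth hΦ) Z

theorem sm2 (Y Z : E n) : ContDiffOn ℝ ∞ (dz Y (dzb Z (cx Φ))) U := dz_smooth hU (sm1 hU hΦ Z) Y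

theorem sm3 (X Y Z : E n) : ContDiffOn ℝ ∞ (T3 Φ X Y Z) U := dz_smooth hU (sm2 hU hΦ Y Z) X

theorem T3_comm (hp : p ∈ U) (X Y Z : E n) : T3 Φ X Y Z p = T3 Φ Y X Z p :=
  dz_dz_comm hU (sm1 hU hΦ Z) hp X Y

theorem T3_eq (hp : p ∈ U) (X Y Z : E n) : T3 Φ X Y Z p = dzb Z (dz X (dz Y (cx Φ))) p := by
  have hf := ofReal_smooth hΦ
  rw [T3, dz_congr_on hU (fun q hq => dz_dzb_comm hU hf hq Y Z) X p hp,
    dz_dzb_comm hU (dz_smooth hU hf Y) hp]

omit hU hΦ in
theorem T3_sum1 {ι : Type} (s : Finset ι) (x : ι → ℂ) (X : ι → E n) (Y Z : E n) :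
    T3 Φ (∑ i ∈ s, x i • X i) Y Z p = ∑ i ∈ s, x i * T3 Φ (X i) Y Z p := by
  simp only [T3, dz_sum_dir]

theorem T3_sum2 (hp : p ∈ U) {ι : Type} (s : Finset ι) (x : ι → ℂ) (X : ι → E n) (Y Z : E n) :
    T3 Φ Y (∑ i ∈ s, x i • X i) Z p = ∑ i ∈ s, x i * T3 Φ Y (X i) Z p := by
  simp only [T3_comm hU hΦ hp Y, T3_sum1]

theorem T3_sum3 (hp : p ∈ U) {ι : Type} (s : Finset ι) (x : ι → ℂ) (X : ι → E n) (Y Z : E n) :
    T3 Φ Y Z (∑ i ∈ s, x i • X i) p = ∑ i ∈ s, conj (x i) * T3 Φ Y Z (X i) p := by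
  simp only [T3_eq hU hΦ hp, dzb_sum_dir]

theorem T3_smul3 (hp : p ∈ U) (a : ℂ) (X Y Z : E n) :
    T3 Φ Y Z (a • X) p = conj a * T3 Φ Y Z X p := by
  simp only [T3_eq hU hΦ hp, dzb_smul_dir]

theorem dzb_H (hp : p ∈ U) (X Y Z : E n) :
    dzb X (dz Y (dzb Z (cx Φ))) p = conj (T3 Φ X Z Y p) := by
  rw [dzb_congr_on hU (fun q hq => dz_dzb_real hU hΦ hq Y Z) X p hp, dzb_conj]
  rfl

theorem fderiv_H (hp : p ∈ U) (X Y Z : E n) :
    fderiv ℝ (dz Y (dzb Z (cx Φ))) p X = T3 Φ X Y Z p + conj (T3 Φ X Z Y p) := by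
  rw [fderiv_eq_dz_add_dzb, dzb_H hU hΦ hp]
  rfl

theorem dz_dzb_dzb (hp : p ∈ U) (B C D : E n) :
    dz B (dzb C (dzb D (cx Φ))) p = conj (T3 Φ C D B p) := by
  rw [dz_dzb_comm hU (sm1 hU hΦ D) hp, dzb_H hU hΦ hp]

theorem dzb_T3 (hp : p ∈ U) (X Y Z W : E n) : dzb X (T3 Φ Y Z W) p = T4 Φ Y Z X W p := by
  rw [T3, T4, ← dz_dzb_comm hU (sm2 hU hΦ Z W) hp,
    dz_congr_on hU (fun q hq => (dz_dzb_comm hU (sm1 hU hΦ W) hq Z X).symm) Y p hp]

theorem T4_comm12 (hp : p ∈ U) (A B C D : E n) : T4 Φ A B C D p = T4 Φ B A C D p :=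
  dz_dz_comm hU (dzb_smooth hU (sm1 hU hΦ D) C) hp A B

theorem T4_conj (hp : p ∈ U) (A B C D : E n) : conj (T4 Φ A B C D p) = T4 Φ C D A B p := by
  rw [T4, dz_congr_on hU (fun q hq => dz_dzb_dzb hU hΦ hq B C D) A p hp, dz_conj, conj_conj,
    dzb_T3 hU hΦ hp]

omit hU hΦ in
theorem T4_sum1 {ι : Type} (s : Finset ι) (x : ι → ℂ) (X : ι → E n) (B C D : E n) :
    T4 Φ (∑ i ∈ s, x i • X i) B C D p = ∑ i ∈ s, x i * T4 Φ (X i) B C D p := by
  simp only [T4, dz_sum_dir]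

theorem fderiv_T3 (hp : p ∈ U) (X Y Z W : E n) :
    fderiv ℝ (T3 Φ Y Z W) p X = dz X (T3 Φ Y Z W) p + T4 Φ Y Z X W p := by
  rw [fderiv_eq_dz_add_dzb, dzb_T3 hU hΦ hp]

theorem dz_T3_comm (hp : p ∈ U) (X Y Z W : E n) : dz X (T3 Φ Y Z W) p = dz Y (T3 Φ X Z W) p :=
  dz_dz_comm hU (sm2 hU hΦ Z W) hp X Y

/-! ### the metric -/

variable (hg : IsPot g Φ)
include hg

theorem herm_eq (hp : p ∈ U) (Y Z : E n) : g.herm p Y Z = dz Y (dzb Z (cx Φ)) p := by
  have hf := ofReal_smooth hΦ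
  conv_rhs => rw [eq_sum_std Y, dz_sum_dir]
  refine Finset.sum_congr rfl fun i _ => ?_
  rw [dz_dzb_comm hU hf hp]
  conv_rhs => rw [eq_sum_std Z, dzb_sum_dir]
  simp only [Finset.mul_sum]
  refine Finset.sum_congr rfl fun j _ => ?_
  rw [hg i j p hp, dz_dzb_comm hU hf hp]
  ring

theorem dRiem_eq (hp : p ∈ U) (X Y Z : E n) :
    g.dRiem p X Y Z = (T3 Φ X Y Z p).re + (T3 Φ X Z Y p).re := by
  have e : (fun q => g.riem q Y Z) =ᶠ[𝓝 p] reCLM ∘ dz Y (dzb Z (cx Φ)) := by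
    filter_upwards [hU.mem_nhds hp] with q hq
    simp only [HermitianMetricOn.riem, herm_eq hU hΦ hg hq, Function.comp, reCLM_apply]
  rw [HermitianMetricOn.dRiem, e.fderiv_eq,
    (reCLM.hasFDerivAt.comp p (diffAt hU (sm2 hU hΦ Y Z) hp).hasFDerivAt).fderiv]
  simp only [ContinuousLinearMap.comp_apply, fderiv_H hU hΦ hp, reCLM_apply, add_re, conj_re]

theorem christoffel_eq (hp : p ∈ U) (X Y : E n) : g.christoffel p X Y =
    (Matrix.of fun i j => g.h j i p)⁻¹.mulVec fun i => T3 Φ X Y (stdVec i) p := by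
  have k : ∀ Z, (g.dRiem p X Y Z + g.dRiem p Y X Z - g.dRiem p Z X Y) / 2 = (T3 Φ X Y Z p).re := by
    intro Z
    simp only [dRiem_eq hU hΦ hg hp]
    rw [T3_comm hU hΦ hp Y X, T3_comm hU hΦ hp Z X, T3_comm hU hΦ hp Z Y]
    ring
  simp only [HermitianMetricOn.christoffel, HermitianMetricOn.raise, k, T3_smul3 hU hΦ hp]
  congr 1
  funext i
  apply Complex.ext <;> simp

theorem herm_christoffel (hp : p ∈ U) (X Y Z : E n) :
    g.herm p (g.christoffel p X Y) Z = T3 Φ X Y Z p := by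
  conv_lhs => rw [eq_sum_std Z, herm_sum_right]
  conv_rhs => rw [eq_sum_std Z, T3_sum3 hU hΦ hp]
  refine Finset.sum_congr rfl fun i _ => ?_
  rw [herm_std_right, christoffel_eq hU hΦ hg hp, Matrix.mulVec_mulVec,
    Matrix.mul_nonsing_inv _ (det_ne_zero hp).isUnit, Matrix.one_mulVec]

omit hU hΦ hg in
theorem det_smooth {A : E n → Matrix (Fin n) (Fin n) ℂ}
    (hA : ∀ i j, ContDiffOn ℝ ∞ (fun q => A q i j) U) : ContDiffOn ℝ ∞ (fun q => (A q).det) U := by
  simp only [Matrix.det_apply']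
  exact ContDiffOn.sum fun σ _ => contDiffOn_const.mul (contDiffOn_prod fun i _ => hA _ _)

theorem christoffel_smooth (X Y : E n) (i : Fin n) :
    ContDiffOn ℝ ∞ (fun q => g.christoffel q X Y i) U := by
  have h1 : ContDiffOn ℝ ∞ (fun q => (Matrix.of fun i j => g.h j i q).det) U :=
    det_smooth fun i j => g.smooth j i
  have h2 : ContDiffOn ℝ ∞ (fun q => ((Matrix.of fun i j => g.h j i q).updateCol i
      fun k => T3 Φ X Y (stdVec k) q).det) U := by
    refine det_smooth fun k j => ?_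
    simp only [Matrix.updateCol_apply]
    split_ifs
    · exact sm3 hU hΦ _ _ _
    · exact g.smooth j k
  refine (h2.mul (h1.inv fun q hq => det_ne_zero hq)).congr fun q hq => ?_
  rw [Pi.inv_apply, eq_mul_inv_iff_mul_eq₀ (det_ne_zero hq), christoffel_eq hU hΦ hg hq, ← Matrix.cramer_apply,
    ← Matrix.det_smul_inv_mulVec_eq_cramer _ _ (det_ne_zero hq).isUnit, Pi.smul_apply,
    smul_eq_mul, mul_comm]

theorem herm_fderiv (hp : p ∈ U) (X Y Z W : E n) :
    g.herm p (fderiv ℝ (fun q => g.christoffel q Y Z) p X) W + T3 Φ X (g.christoffel p Y Z) W p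
      + g.herm p (g.christoffel p Y Z) (g.christoffel p X W)
      = dz X (T3 Φ Y Z W) p + T4 Φ Y Z X W p := by
  have dΓ : ∀ i, DifferentiableAt ℝ (fun q => g.christoffel q Y Z i) p := fun i =>
    diffAt hU (christoffel_smooth hU hΦ hg Y Z i) hp
  have du : ∀ i, DifferentiableAt ℝ (dz (stdVec i) (dzb W (cx Φ))) p := fun i =>
    diffAt hU (sm2 hU hΦ _ W) hp
  have e : T3 Φ Y Z W =ᶠ[𝓝 p]
      fun q => ∑ i, g.christoffel q Y Z i * dz (stdVec i) (dzb W (cx Φ)) q := by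
    filter_upwards [hU.mem_nhds hp] with q hq
    rw [← herm_christoffel hU hΦ hg hq, eq_sum_std (g.christoffel q Y Z), herm_sum_left]
    simp only [herm_eq hU hΦ hg hq, ← eq_sum_std]
  rw [← fderiv_T3 hU hΦ hp, e.fderiv_eq, fderiv_fun_sum fun i _ => (dΓ i).fun_mul (du i),
    ← herm_conj hp (g.christoffel p X W), herm_christoffel hU hΦ hg hp]
  conv_lhs => rw [eq_sum_std (fderiv ℝ (fun q => g.christoffel q Y Z) p X), herm_sum_left,
    eq_sum_std (g.christoffel p Y Z), T3_sum2 hU hΦ hp, T3_sum3 hU hΦ hp]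
  rw [map_sum, ← Finset.sum_add_distrib, ← Finset.sum_add_distrib, sum_apply]
  refine Finset.sum_congr rfl fun i _ => ?_
  rw [fderiv_fun_mul (dΓ i) (du i), fderiv_apply (differentiableAt_pi.2 dΓ) i,
    herm_eq hU hΦ hg hp]
  simp only [add_apply, smul_apply, smul_eq_mul,
    fderiv_H hU hΦ hp, ContinuousLinearMap.comp_apply, ContinuousLinearMap.proj_apply, map_mul,
    conj_conj]
  ring

end

/-- minus the curvature tensor -/
noncomputable def NN (g : HermitianMetricOn n U) (Φ : E n → ℝ) (p A B C D : E n) : ℂ :=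
  T4 Φ A B C D p - g.herm p (g.christoffel p A B) (g.christoffel p C D)

section
variable (hU : IsOpen U) (hΦ : ContDiffOn ℝ ∞ Φ U) (hg : IsPot g Φ) (hp : p ∈ U)
include hU hΦ hg hp

theorem herm_curvature (X Y Z W : E n) :
    g.herm p (g.curvature p X Y Z) W = NN g Φ p Y Z X W - NN g Φ p X Z Y W := by
  have h1 := herm_fderiv hU hΦ hg hp X Y Z W
  have h2 := herm_fderiv hU hΦ hg hp Y X Z W
  have h3 := dz_T3_comm hU hΦ hp X Y Z W
  rw [HermitianMetricOn.curvature, herm_sub_left, herm_add_left, herm_sub_left,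
    herm_christoffel hU hΦ hg hp X, herm_christoffel hU hΦ hg hp Y, NN, NN]
  linear_combination h1 - h2 + h3

theorem NN_comm12 (A B C D : E n) : NN g Φ p A B C D = NN g Φ p B A C D := by
  simp only [NN, herm_christoffel hU hΦ hg hp]
  rw [T4_comm12 hU hΦ hp, T3_comm hU hΦ hp]

omit hg in
theorem NN_conj (A B C D : E n) : conj (NN g Φ p A B C D) = NN g Φ p C D A B := by
  rw [NN, NN, map_sub, T4_conj hU hΦ hp, herm_conj hp]

theorem NN_comm34 (A B C D : E n) : NN g Φ p A B C D = NN g Φ p A B D C := by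
  rw [← NN_conj hU hΦ hp, NN_comm12 hU hΦ hg hp, NN_conj hU hΦ hp]

theorem NN_sum1 (x : Fin n → ℂ) (X : Fin n → E n) (B C D : E n) :
    NN g Φ p (∑ i, x i • X i) B C D = ∑ i, x i * NN g Φ p (X i) B C D := by
  simp only [NN, herm_christoffel hU hΦ hg hp, T4_sum1, T3_sum1, mul_sub, Finset.sum_sub_distrib]

theorem NN_sum2 (x : Fin n → ℂ) (X : Fin n → E n) (B C D : E n) :
    NN g Φ p B (∑ i, x i • X i) C D = ∑ i, x i * NN g Φ p B (X i) C D := by
  simp only [NN_comm12 hU hΦ hg hp B, NN_sum1 hU hΦ hg hp]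

theorem NN_sum3 (x : Fin n → ℂ) (X : Fin n → E n) (B C D : E n) :
    NN g Φ p B C (∑ i, x i • X i) D = ∑ i, conj (x i) * NN g Φ p B C (X i) D := by
  rw [← NN_conj hU hΦ hp, NN_sum1 hU hΦ hg hp]
  simp only [map_sum, map_mul, NN_conj hU hΦ hp]

theorem NN_sum4 (x : Fin n → ℂ) (X : Fin n → E n) (B C D : E n) :
    NN g Φ p B C D (∑ i, x i • X i) = ∑ i, conj (x i) * NN g Φ p B C D (X i) := by
  simp only [NN_comm34 hU hΦ hg hp B C D, NN_sum3 hU hΦ hg hp]

theorem NN_sum (X : Fin n → E n) (a b c d : Fin n → ℂ) :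
    NN g Φ p (∑ i, a i • X i) (∑ i, b i • X i) (∑ i, c i • X i) (∑ i, d i • X i) =
      ∑ i, ∑ k, ∑ j, ∑ l, NN g Φ p (X i) (X k) (X j) (X l)
        * (a i * b k * conj (c j) * conj (d l)) := by
  rw [NN_sum1 hU hΦ hg hp]
  refine Finset.sum_congr rfl fun i _ => ?_
  rw [NN_sum2 hU hΦ hg hp, Finset.mul_sum]
  refine Finset.sum_congr rfl fun k _ => ?_
  rw [NN_sum3 hU hΦ hg hp, Finset.mul_sum, Finset.mul_sum]
  refine Finset.sum_congr rfl fun j _ => ?_
  rw [NN_sum4 hU hΦ hg hp, Finset.mul_sum, Finset.mul_sum, Finset.mul_sum]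
  exact Finset.sum_congr rfl fun l _ => by ring

theorem arr_xz (X : Fin n → E n) (b : Fin n → Fin n → E n) (i j : Fin n) :
    (arr X b (cx Φ) p).xz i j = g.herm p (X i) (X j) := (herm_eq hU hΦ hg hp _ _).symm

theorem chr_eq {X : Fin n → E n} {b : Fin n → Fin n → E n} {c : Fin n → Fin n → Fin n → ℂ}
    (hX : Spans X) (hc : IsChr (arr X b (cx Φ) p) c) (i k : Fin n) :
    ∑ m, c i k m • X m = g.christoffel p (X i) (X k) + b i k := by
  rw [← sub_eq_zero]
  refine eq_zero_of_herm (g := g) hp ?_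
  generalize hV : ∑ m, c i k m • X m - (g.christoffel p (X i) (X k) + b i k) = V
  obtain ⟨v, hv⟩ := hX V
  conv_lhs => rw [show g.herm p V V = g.herm p V (∑ j, v j • X j) by rw [← hv]]
  rw [herm_sum_right]
  refine Finset.sum_eq_zero fun j _ => mul_eq_zero_of_right _ ?_
  have h := hc i k j
  simp only [arr_xz hU hΦ hg hp] at h
  rw [← hV, herm_sub_left, herm_add_left, herm_sum_left, h, herm_christoffel hU hΦ hg hp,
    herm_eq hU hΦ hg hp, sub_eq_zero]
  rfl

omit hg in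
theorem arr_de (X : Fin n → E n) (b : Fin n → Fin n → E n) (i k j l : Fin n) :
    (arr X b (cx Φ) p).de i k j l = T4 Φ (X i) (X k) (X j) (X l) p + T3 Φ (X i) (X k) (b j l) p
      + (conj (T3 Φ (X j) (X l) (b i k) p) + dz (b i k) (dzb (b j l) (cx Φ)) p) := by
  have s1 := dzb_smooth hU (sm1 hU hΦ (X l)) (X j)
  have s2 := sm1 hU hΦ (b j l)
  have h : ∀ V, ∀ q ∈ U, dz V (op2b (X j) (X l) (b j l) (cx Φ)) q =
      dz V (dzb (X j) (dzb (X l) (cx Φ))) q + dz V (dzb (b j l) (cx Φ)) q := fun V q hq =>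
    dz_add (diffAt hU s1 hq) (diffAt hU s2 hq) V
  change dz (X i) (dz (X k) _) p + dz (b i k) _ p = _
  rw [h _ p hp, dz_congr_on hU (h (X k)) (X i) p hp,
    dz_add (diffAt hU (dz_smooth hU s1 _) hp) (diffAt hU (dz_smooth hU s2 _) hp),
    dz_dzb_dzb hU hΦ hp]
  rfl

theorem Nten_eq {X : Fin n → E n} {b : Fin n → Fin n → E n} {c : Fin n → Fin n → Fin n → ℂ}
    (hX : Spans X) (hc : IsChr (arr X b (cx Φ) p) c) (i k j l : Fin n) :
    Nten (arr X b (cx Φ) p) c i k j l = NN g Φ p (X i) (X k) (X j) (X l) := by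
  have e : ∑ m, ∑ r, c i k m * conj (c j l r) * (arr X b (cx Φ) p).xz m r =
      g.herm p (∑ m, c i k m • X m) (∑ r, c j l r • X r) := by
    rw [herm_sum_left]
    refine Finset.sum_congr rfl fun m _ => ?_
    rw [herm_sum_right, Finset.mul_sum]
    exact Finset.sum_congr rfl fun r _ => by rw [arr_xz hU hΦ hg hp]; ring
  rw [Nten, e, chr_eq hU hΦ hg hp hX hc, chr_eq hU hΦ hg hp hX hc, arr_de hU hΦ hp, NN,
    herm_add_left, herm_add_right, herm_add_right, herm_christoffel hU hΦ hg hp _ _ (b j l),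
    ← herm_conj hp _ (b i k), herm_christoffel hU hΦ hg hp _ _ (b i k),
    ← herm_eq hU hΦ hg hp (b i k)]
  ring

end

end Curv

open Curv in
/-- the metric in a frame -/
theorem herm_frame {n : ℕ} {U : Set (E n)} (hU : IsOpen U) {Φ : E n → ℝ}
    (hΦ : ContDiffOn ℝ ∞ Φ U) {g : HermitianMetricOn n U} (hg : IsPot g Φ) {p : E n} (hp : p ∈ U)
    (X : Fin n → E n) (b : Fin n → Fin n → E n) (x y : Fin n → ℂ) :
    g.herm p (∑ i, x i • X i) (∑ i, y i • X i) =
      ∑ i, ∑ j, (arr X b (cx Φ) p).xz i j * x i * conj (y j) := by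
  rw [herm_sum_left]
  refine Finset.sum_congr rfl fun i _ => ?_
  rw [herm_sum_right, Finset.mul_sum]
  exact Finset.sum_congr rfl fun j _ => by rw [arr_xz hU hΦ hg hp]; ring

open Curv in
theorem curv : CurvStmt := by
  intro n U hU Φ hΦ g hg p hp X b c hX _ hc x y
  have e : 2 * ∑ i, ∑ k, ∑ j, ∑ l, Nten (arr X b (cx Φ) p) c i k j l * Hm x y i j * Hm x y k l =
      -(1 / 2) * (NN g Φ p (∑ i, x i • X i) (∑ i, x i • X i) (∑ i, y i • X i) (∑ i, y i • X i)
        - NN g Φ p (∑ i, x i • X i) (∑ i, y i • X i) (∑ i, y i • X i) (∑ i, x i • X i)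
        - NN g Φ p (∑ i, y i • X i) (∑ i, x i • X i) (∑ i, x i • X i) (∑ i, y i • X i)
        + NN g Φ p (∑ i, y i • X i) (∑ i, y i • X i) (∑ i, x i • X i) (∑ i, x i • X i)) := by
    simp only [NN_sum hU hΦ hg hp, ← Finset.sum_sub_distrib, ← Finset.sum_add_distrib,
      Finset.mul_sum, Nten_eq hU hΦ hg hp hX hc]
    refine Finset.sum_congr rfl fun i _ => Finset.sum_congr rfl fun k _ =>
      Finset.sum_congr rfl fun j _ => Finset.sum_congr rfl fun l _ => ?_
    simp only [Hm]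
    field_simp
    rw [I_sq]
    ring
  rw [HermitianMetricOn.riem, herm_curvature hU hΦ hg hp, Qf, e]
  generalize ∑ i, x i • X i = A
  generalize ∑ i, y i • X i = B
  rw [NN_comm12 hU hΦ hg hp B A A B, NN_comm34 hU hΦ hg hp A B A B,
    ← NN_conj hU hΦ hp B B A A]
  simp
  ring

end Crest.Agent.R245
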