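import Crest.Agent.R245.Jet2
import Crest.Prelude.Def_KahlerDomain

/-! Row 245: all definitions, and the statements (`…Stmt`) of the pieces of the proof. -/

set_option autoImplicit false

open Complex Crest.GeometryTopology
open scoped ContDiff ComplexConjugate Topology

namespace Crest.Agent.R245

/-! ### Euclidean notions -/

/-- square of the Euclidean norm -/
noncomputable def nsq {n : ℕ} (z : E n) : ℝ := ∑ i, ‖z i‖ ^ 2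
/-- Hermitian product -/
noncomputable def ip {n : ℕ} (z a : E n) : ℂ := ∑ i, z i * conj (a i)
/-- the Euclidean unit ball -/
def Bl (n : ℕ) : Set (E n) := {z | nsq z < 1}
/-- `h = 1 - |z|²` -/
noncomputable def hh (z : E 2) : ℝ := 1 - nsq z
/-- the boundary point `(1,0)` -/
def q0 : E 2 := ![1, 0]
/-- a real function seen as a complex one -/
abbrev cx {n : ℕ} (u : E n → ℝ) : E n → ℂ := fun x => (u x : ℂ)
/-- Kronecker symbol -/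
def kr {n : ℕ} (i j : Fin n) : ℝ := if i = j then 1 else 0
/-- the vectors `X i` span -/
def Spans {n : ℕ} (X : Fin n → E n) : Prop := ∀ V : E n, ∃ v : Fin n → ℂ, V = ∑ i, v i • X i

/-! ### arrays of jets with respect to a frame -/

/-- components: `x i = ∂_i`, `z j = ∂_j̄`, `d i k = D_{ik}`, `e j l = D̄_{jl}` and products -/
@[ext] structure Arr (n : ℕ) where
  o : ℂ
  x : Fin n → ℂ
  z : Fin n → ℂ
  d : Fin n → Fin n → ℂ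
  e : Fin n → Fin n → ℂ
  xz : Fin n → Fin n → ℂ
  dz : Fin n → Fin n → Fin n → ℂ
  xe : Fin n → Fin n → Fin n → ℂ
  de : Fin n → Fin n → Fin n → Fin n → ℂ

/-- the jet with indices `(i k; j l)` -/
def Arr.toJ {n : ℕ} (a : Arr n) (i k j l : Fin n) : J :=
  J.mk16 a.o (a.z j) (a.z l) (a.e j l) (a.x i) (a.xz i j) (a.xz i l) (a.xe i j l)
    (a.x k) (a.xz k j) (a.xz k l) (a.xe k j l) (a.d i k) (a.dz i k j) (a.dz i k l) (a.de i k j l)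

/-- the array of `f` at `p` for the vectors `X i` and the second order corrections `b i k` -/
noncomputable def arr {n m : ℕ} (X : Fin n → E m) (b : Fin n → Fin n → E m) (f : E m → ℂ)
    (p : E m) : Arr n where
  o := f p
  x i := dz (X i) f p
  z j := dzb (X j) f p
  d i k := op2 (X i) (X k) (b i k) f p
  e j l := op2b (X j) (X l) (b j l) f p
  xz i j := dz (X i) (dzb (X j) f) p
  dz i k j := op2 (X i) (X k) (b i k) (dzb (X j) f) p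
  xe i j l := dz (X i) (op2b (X j) (X l) (b j l) f) p
  de i k j l := op2 (X i) (X k) (b i k) (op2b (X j) (X l) (b j l) f) p

/-- the frame with indices `(i k; j l)` -/
def frm {n m : ℕ} (X : Fin n → E m) (b : Fin n → Fin n → E m) (i k j l : Fin n) : Fr m :=
  ⟨X i, X k, b i k, X j, X l, b j l⟩

theorem jet_frm {n m : ℕ} (X : Fin n → E m) (b : Fin n → Fin n → E m) (f : E m → ℂ) (p : E m)
    (i k j l : Fin n) : jet (frm X b i k j l) f p = (arr X b f p).toJ i k j l := rfl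

/-- sum of arrays -/
def Arr.add {n : ℕ} (u v : Arr n) : Arr n where
  o := u.o + v.o
  x i := u.x i + v.x i
  z j := u.z j + v.z j
  d i k := u.d i k + v.d i k
  e j l := u.e j l + v.e j l
  xz i j := u.xz i j + v.xz i j
  dz i k j := u.dz i k j + v.dz i k j
  xe i j l := u.xe i j l + v.xe i j l
  de i k j l := u.de i k j l + v.de i k j l

/-- product of arrays (Leibniz rule) -/
def Arr.mul {n : ℕ} (u v : Arr n) : Arr n where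
  o := u.o * v.o
  x i := u.o * v.x i + u.x i * v.o
  z j := u.o * v.z j + u.z j * v.o
  d i k := u.o * v.d i k + u.x i * v.x k + u.x k * v.x i + u.d i k * v.o
  e j l := u.o * v.e j l + u.z j * v.z l + u.z l * v.z j + u.e j l * v.o
  xz i j := u.o * v.xz i j + u.x i * v.z j + u.z j * v.x i + u.xz i j * v.o
  dz i k j := u.o * v.dz i k j + u.x i * v.xz k j + u.x k * v.xz i j + u.z j * v.d i k +
    u.xz i j * v.x k + u.xz k j * v.x i + u.d i k * v.z j + u.dz i k j * v.o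
  xe i j l := u.o * v.xe i j l + u.z j * v.xz i l + u.z l * v.xz i j + u.x i * v.e j l +
    u.xz i j * v.z l + u.xz i l * v.z j + u.e j l * v.x i + u.xe i j l * v.o
  de i k j l := u.o * v.de i k j l + u.x i * v.xe k j l + u.x k * v.xe i j l +
    u.z j * v.dz i k l + u.z l * v.dz i k j + u.d i k * v.e j l + u.e j l * v.d i k +
    u.xz i j * v.xz k l + u.xz i l * v.xz k j + u.xz k j * v.xz i l + u.xz k l * v.xz i j +
    u.dz i k j * v.z l + u.dz i k l * v.z j + u.xe i j l * v.x k + u.xe k j l * v.x i +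
    u.de i k j l * v.o

/-- extension by zero in the index `0` -/
def pad1 (f : Fin 2 → ℂ) : Fin 3 → ℂ := Fin.cons 0 f
def pad2 (f : Fin 2 → Fin 2 → ℂ) : Fin 3 → Fin 3 → ℂ := Fin.cons (fun _ => 0) fun i => pad1 (f i)
def pad3 (f : Fin 2 → Fin 2 → Fin 2 → ℂ) : Fin 3 → Fin 3 → Fin 3 → ℂ :=
  Fin.cons (fun _ _ => 0) fun i => pad2 (f i)
def pad4 (f : Fin 2 → Fin 2 → Fin 2 → Fin 2 → ℂ) : Fin 3 → Fin 3 → Fin 3 → Fin 3 → ℂ :=
  Fin.cons (fun _ _ _ => 0) fun i => pad3 (f i)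

@[simp] theorem pad1_zero (f) : pad1 f 0 = 0 := rfl
@[simp] theorem pad1_succ (f) (i : Fin 2) : pad1 f i.succ = f i := rfl
@[simp] theorem pad2_zero (f) (j : Fin 3) : pad2 f 0 j = 0 := rfl
@[simp] theorem pad2_succ (f) (i : Fin 2) : pad2 f i.succ = pad1 (f i) := rfl
@[simp] theorem pad3_zero (f) (j k : Fin 3) : pad3 f 0 j k = 0 := rfl
@[simp] theorem pad3_succ (f) (i : Fin 2) : pad3 f i.succ = pad2 (f i) := rfl
@[simp] theorem pad4_zero (f) (j k l : Fin 3) : pad4 f 0 j k l = 0 := rfl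
@[simp] theorem pad4_succ (f) (i : Fin 2) : pad4 f i.succ = pad3 (f i) := rfl

/-- the array of a function of the base, in the frame with the vertical vector `X 0` -/
def Arr.pad (a : Arr 2) : Arr 3 :=
  ⟨a.o, pad1 a.x, pad1 a.z, pad2 a.d, pad2 a.e, pad2 a.xz, pad3 a.dz, pad3 a.xe, pad4 a.de⟩

/-! ### curvature in a frame -/

section frame
variable {n : ℕ}

/-- the real part of the Hermitian form with matrix `g` -/
noncomputable def hf (g : Fin n → Fin n → ℂ) (x y : Fin n → ℂ) : ℝ :=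
  (∑ i, ∑ j, g i j * x i * conj (y j)).re

/-- Gram determinant -/
noncomputable def areaf (g : Fin n → Fin n → ℂ) (x y : Fin n → ℂ) : ℝ :=
  hf g x x * hf g y y - hf g x y ^ 2

/-- the Hermitian matrix of the real plane spanned by `x, y` -/
noncomputable def Hm (x y : Fin n → ℂ) (i j : Fin n) : ℂ :=
  (x i * conj (y j) - y i * conj (x j)) / (2 * I)

/-- minus the curvature tensor: `N_{ik;jl} = B_{ik;jl} - g(c_{ik}, c_{jl})` -/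
noncomputable def Nten (T : Arr n) (c : Fin n → Fin n → Fin n → ℂ) (i k j l : Fin n) : ℂ :=
  T.de i k j l - ∑ m, ∑ r, c i k m * conj (c j l r) * T.xz m r

/-- minus the numerator of the sectional curvature -/
noncomputable def Qf (N : Fin n → Fin n → Fin n → Fin n → ℂ) (x y : Fin n → ℂ) : ℝ :=
  (2 * ∑ i, ∑ k, ∑ j, ∑ l, N i k j l * Hm x y i j * Hm x y k l).re

/-- `c` solves the Christoffel equations -/
def IsChr (T : Arr n) (c : Fin n → Fin n → Fin n → ℂ) : Prop :=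
  ∀ i k j, ∑ m, c i k m * T.xz m j = T.dz i k j

end frame

/-- `g` is the metric with potential `Φ` -/
def IsPot {n : ℕ} {U : Set (E n)} (g : HermitianMetricOn n U) (Φ : E n → ℝ) : Prop :=
  ∀ i j, ∀ p ∈ U, g.h i j p = dz (stdVec i) (dzb (stdVec j) (cx Φ)) p

/-- **Curv**: the curvature of a metric with potential, in a frame -/
def CurvStmt : Prop :=
  ∀ (n : ℕ) (U : Set (E n)), IsOpen U → ∀ (Φ : E n → ℝ), ContDiffOn ℝ ∞ Φ U →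
    ∀ g : HermitianMetricOn n U, IsPot g Φ → ∀ p ∈ U,
    ∀ (X : Fin n → E n) (b : Fin n → Fin n → E n) (c : Fin n → Fin n → Fin n → ℂ),
      Spans X → (∀ i k, b i k = b k i) → IsChr (arr X b (cx Φ) p) c → ∀ x y : Fin n → ℂ,
        g.riem p (g.curvature p (∑ i, x i • X i) (∑ i, y i • X i) (∑ i, y i • X i))
          (∑ i, x i • X i) = -Qf (Nten (arr X b (cx Φ) p) c) x y

/-- **Complete**: a proper Lipschitz function gives completeness -/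
def CompleteStmt : Prop :=
  ∀ (n : ℕ) (U : Set (E n)), IsOpen U → ∀ (g : HermitianMetricOn n U) (ρ : E n → ℝ) (C : ℝ),
    ContDiffOn ℝ ∞ ρ U → (∀ p ∈ U, ∀ X, |fderiv ℝ ρ p X| ≤ C * Real.sqrt (g.riem p X X)) →
    (∀ c : ℝ, ∃ K, IsCompact K ∧ K ⊆ U ∧ ∀ x ∈ U, ρ x ≤ c → x ∈ K) →
    (∀ p ∈ U, ∀ q ∈ U, ∃ γ : ℝ → E n, ContDiff ℝ 1 γ ∧ γ 0 = p ∧ γ 1 = q ∧
      ∀ t ∈ Set.Icc (0 : ℝ) 1, γ t ∈ U) → g.IsComplete

/-- the conclusion of the numerical estimate for the array `T` of the potential -/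
def GoodArr (c0 C0 lam : ℝ) (T : Arr 3) : Prop :=
  (∀ x, (∑ i, ‖x i‖ ^ 2) / 2 ≤ hf T.xz x x) ∧ T.xz 0 0 = 1 ∧
    ∃ c, IsChr T c ∧ 1 ≤ lam * (Nten T c 0 0 0 0).re ∧
      ∀ x y, c0 * areaf T.xz x y ≤ Qf (Nten T c) x y ∧
        lam * Qf (Nten T c) x y ≤ C0 * areaf T.xz x y

/-- the local condition at `p` on the potential `Φ` and the exhaustion `ρ` -/
def LocAt (c0 C0 : ℝ) (Φ ρ : E 3 → ℝ) (lam : ℝ) (p : E 3) : Prop :=
  ∃ (X : Fin 3 → E 3) (b : Fin 3 → Fin 3 → E 3), Spans X ∧ (∀ i k, b i k = b k i) ∧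
    (∀ i, ‖dz (X i) (cx ρ) p‖ ≤ 10) ∧ GoodArr c0 C0 lam (arr X b (cx Φ) p)

/-- **Metric**: from the local condition to the metric -/
def MetricStmt : Prop :=
  ∀ (c0 C0 : ℝ), 0 < c0 → c0 ≤ 1 → ∀ (U : Set (E 3)), IsOpen U → ∀ (Φ ρ lam : E 3 → ℝ),
    ContDiffOn ℝ ∞ Φ U → ContDiffOn ℝ ∞ ρ U → (∀ p ∈ U, 0 < lam p ∧ LocAt c0 C0 Φ ρ (lam p) p) →
    ∃ g : HermitianMetricOn 3 U, g.IsKahler ∧
      (∃ C, ∀ p ∈ U, ∀ X, |fderiv ℝ ρ p X| ≤ C * Real.sqrt (g.riem p X X)) ∧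
      (∀ p ∈ U, ∀ X Y, g.riem p X X * g.riem p Y Y - g.riem p X Y ^ 2 ≠ 0 →
        -(C0 / c0 / lam p) ≤ g.sectional p X Y ∧ g.sectional p X Y ≤ -1) ∧
      (∀ p ∈ U, ∃ X Y, g.riem p X X * g.riem p Y Y - g.riem p X Y ^ 2 ≠ 0 ∧
        g.sectional p X Y ≤ -(1 / lam p))

/-! ### the numerical estimate -/

/-- the array of `L = -log (1 - |w|² e^φ)` in the adapted frame: `w` is the gauged fibre
coordinate, `s = |w|²`, `t = 1 - s`, `ν` the gauged vertical components, `ph` the array of `φ` -/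
noncomputable def Larr (w : ℂ) (s t L0 : ℝ) (ν : Fin 3 → ℝ) (ph : Arr 3) : Arr 3 where
  o := L0
  x i := conj w * ν i / t
  z j := w * ν j / t
  d i k := -(conj w ^ 2 * ν i * ν k / t ^ 2)
  e j l := -(w ^ 2 * ν j * ν l / t ^ 2)
  xz i j := ν i * ν j / t ^ 2 + s / t * ph.xz i j
  dz i k j := s / t * ph.dz i k j + conj w / t ^ 2 * (ν i * ph.xz k j + ν k * ph.xz i j)
  xe i j l := s / t * ph.xe i j l + w / t ^ 2 * (ν j * ph.xz i l + ν l * ph.xz i j)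
  de i k j l := s / t * ph.de i k j l +
    s / t ^ 2 * (ph.xz i j * ph.xz k l + ph.xz i l * ph.xz k j) +
    w / t ^ 2 * (ν j * ph.dz i k l + ν l * ph.dz i k j) +
    conj w / t ^ 2 * (ν i * ph.xe k j l + ν k * ph.xe i j l) +
    (1 + s) / t ^ 3 * (ν i * ν j * ph.xz k l + ν i * ν l * ph.xz k j + ν k * ν j * ph.xz i l +
      ν k * ν l * ph.xz i j) + 2 / t ^ 4 * ν i * ν k * ν j * ν l

/-- the array of the potential `A + λ L` -/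
noncomputable def Tot (ς : ℝ) (w : ℂ) (a ph lm : Arr 2) : Arr 3 :=
  a.pad.add (lm.pad.mul (Larr w (‖w‖ ^ 2) (1 - ‖w‖ ^ 2) (-Real.log (1 - ‖w‖ ^ 2))
    (Fin.cons ((1 - ‖w‖ ^ 2) / ς ^ 16) 0) ph.pad))

/-- the hypotheses on the arrays `a, ph, lm` of `A, φ, λ` on the base (`σ = ς²`, `λ = ς³²`) -/
structure NumHyp (ε ς K3 : ℝ) (k : Fin 2 → ℝ) (a ph lm : Arr 2) : Prop where
  ς_pos : 0 < ς
  ς_le : ς ≤ 1
  K3_nonneg : 0 ≤ K3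
  small : ς ^ 10 * K3 * (1 + K3) ≤ ε ^ 2
  k_ge : ∀ i, 1 ≤ k i
  k_le : ∀ i, k i ≤ 1 + K3
  a_xz : ∀ i j, a.xz i j = kr i j
  a_dz : ∀ i m j, ‖a.dz i m j‖ ≤ ε / ς
  a_xe : ∀ i j l, ‖a.xe i j l‖ ≤ ε / ς
  a_de : ∀ i m j l, ‖a.de i m j l - ((kr i j * kr m l + kr i l * kr m j) / ς ^ 2 : ℝ)‖ ≤ ε / ς ^ 2
  ph_xz : ∀ i j, ph.xz i j = (kr i j * k i : ℝ)
  ph_dz : ∀ i m j, ‖ph.dz i m j - a.dz i m j‖ ≤ K3
  ph_xe : ∀ i j l, ‖ph.xe i j l - a.xe i j l‖ ≤ K3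
  ph_de : ∀ i m j l, ‖ph.de i m j l - a.de i m j l‖ ≤ K3
  lm_o : lm.o = (ς ^ 32 : ℝ)
  lm_x : ∀ i, ‖lm.x i‖ ≤ ε * ς ^ 33
  lm_z : ∀ i, ‖lm.z i‖ ≤ ε * ς ^ 33
  lm_d : ∀ i m, ‖lm.d i m‖ ≤ ε * ς ^ 32
  lm_e : ∀ i m, ‖lm.e i m‖ ≤ ε * ς ^ 32
  lm_xz : ∀ i j, ‖lm.xz i j‖ ≤ ε * ς ^ 32
  lm_dz : ∀ i m j, ‖lm.dz i m j‖ ≤ ε * ς ^ 31
  lm_xe : ∀ i j l, ‖lm.xe i j l‖ ≤ ε * ς ^ 31
  lm_de : ∀ i m j l, ‖lm.de i m j l‖ ≤ ε * ς ^ 30

/-- `υ = λ s / t` -/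
noncomputable def ups (ς s : ℝ) : ℝ := ς ^ 32 * s / (1 - s)
/-- `κ̃ = λ k / t` -/
noncomputable def kt (ς s k : ℝ) : ℝ := ς ^ 32 * k / (1 - s)
/-- `G = 1 + υ k` -/
noncomputable def GG (ς s k : ℝ) : ℝ := 1 + ups ς s * k
/-- `τ = μ (1 + υ) + Λ υ` -/
noncomputable def tauh (ς s : ℝ) : ℝ := ς ^ 30 * (1 + ups ς s) + ς ^ 20 * ups ς s

/-- the diagonal model of the metric -/
noncomputable def Gd (ς s : ℝ) (k : Fin 2 → ℝ) : Fin 3 → ℝ := Fin.cons 1 fun i => GG ς s (k i)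

/-- `λ` times the main part of the curvature -/
noncomputable def mN (ς s : ℝ) (k : Fin 2 → ℝ) : Fin 3 → Fin 3 → ℝ :=
  Fin.cons (Fin.cons 1 fun j => kt ς s (k j) * (s + 1 / GG ς s (k j))) fun i =>
    Fin.cons (kt ς s (k i) * (s + 1 / GG ς s (k i))) fun j =>
      s * kt ς s (k i) * kt ς s (k j) + ς ^ 30 * (1 + ups ς s)

/-- the weights of the errors -/
noncomputable def tau (ς s : ℝ) (k : Fin 2 → ℝ) : Fin 3 → Fin 3 → ℝ :=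
  Fin.cons (Fin.cons (ς ^ 32) fun j => ς ^ 32 + ups ς s * k j) fun i =>
    Fin.cons (ς ^ 32 + ups ς s * k i) fun _ => tauh ς s

/-- **MainIneq**: positivity of the main part -/
def MainIneqStmt : Prop :=
  ∃ c1 : ℝ, 0 < c1 ∧ ∀ ς s k1 k2 c I1 I2 n1 n2 n12 : ℝ, 0 < ς → ς ≤ 1 → 0 ≤ s → s < 1 →
    1 ≤ k1 → 1 ≤ k2 → ς ^ 34 * k1 ^ 2 ≤ 101 / 100 → ς ^ 34 * k2 ^ 2 ≤ 101 / 100 →
    0 ≤ n1 → 0 ≤ n2 → 0 ≤ n12 → I1 * I2 ≤ n12 →
    c1 * (ς ^ 32 * c ^ 2 + (ς ^ 32 + ups ς s * k1) * n1 + (ς ^ 32 + ups ς s * k2) * n2 +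
        (tauh ς s + ς ^ 32 * GG ς s k1 ^ 2) * I1 ^ 2 +
        (tauh ς s + ς ^ 32 * GG ς s k2 ^ 2) * I2 ^ 2 +
        (tauh ς s + ς ^ 32 * GG ς s k1 * GG ς s k2) * n12) ≤
      c ^ 2 + kt ς s k1 * (s + 1 / GG ς s k1) * (n1 + c * I1) +
        kt ς s k2 * (s + 1 / GG ς s k2) * (n2 + c * I2) +
        s * kt ς s k1 ^ 2 * I1 ^ 2 + s * kt ς s k2 ^ 2 * I2 ^ 2 +
        s * kt ς s k1 * kt ς s k2 * (n12 + I1 * I2) +
        ς ^ 30 * (1 + ups ς s) * (I1 ^ 2 + I2 ^ 2 + n12 + I1 * I2)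

/-- **Err**: the error terms -/
def ErrStmt : Prop :=
  ∃ C : ℝ, 0 < C ∧ ∀ (ε ς K3 : ℝ) (k : Fin 2 → ℝ) (a ph lm : Arr 2) (w : ℂ), 0 ≤ ε → ε ≤ 1 / 100 →
    NumHyp ε ς K3 k a ph lm → ‖w‖ < 1 →
    (∀ i j, (Tot ς w a ph lm).xz i j = conj ((Tot ς w a ph lm).xz j i)) →
    (Tot ς w a ph lm).xz 0 0 = 1 ∧
    (∀ x, (∑ i, Gd ς (‖w‖ ^ 2) k i * ‖x i‖ ^ 2) / 2 ≤ hf (Tot ς w a ph lm).xz x x ∧
      hf (Tot ς w a ph lm).xz x x ≤ 2 * ∑ i, Gd ς (‖w‖ ^ 2) k i * ‖x i‖ ^ 2) ∧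
    ∀ c, IsChr (Tot ς w a ph lm) c → ∀ i m j l,
      ‖(ς ^ 32 : ℝ) * Nten (Tot ς w a ph lm) c i m j l -
          (mN ς (‖w‖ ^ 2) k i m * (kr i j * kr m l + kr i l * kr m j) : ℝ)‖ ≤
        C * ε * Real.sqrt (tau ς (‖w‖ ^ 2) k i j) * Real.sqrt (tau ς (‖w‖ ^ 2) k m l)

/-- **Num**: the numerical estimate -/
def NumStmt : Prop :=
  ∃ ε0 c0 C0 : ℝ, 0 < ε0 ∧ ε0 ≤ 1 ∧ 0 < c0 ∧ c0 ≤ 1 ∧ 1 ≤ C0 ∧
    ∀ (ς K3 : ℝ) (k : Fin 2 → ℝ) (a ph lm : Arr 2) (w : ℂ),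
    NumHyp ε0 ς K3 k a ph lm → ‖w‖ < 1 →
    (∀ i j, (Tot ς w a ph lm).xz i j = conj ((Tot ς w a ph lm).xz j i)) →
    GoodArr c0 C0 (ς ^ 32) (Tot ς w a ph lm)

/-! ### the base -/

/-- `ψ₀ = -log h` -/
noncomputable def psi0 (z : E 2) : ℝ := -Real.log (hh z)

/-- data on the base ball -/
structure Base where
  A : E 2 → ℝ
  φ : E 2 → ℝ
  lam : E 2 → ℝ
  smA : ContDiffOn ℝ ∞ A (Bl 2)
  smφ : ContDiffOn ℝ ∞ φ (Bl 2)
  smlam : ContDiffOn ℝ ∞ lam (Bl 2)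
  out : ∀ z ∈ Bl 2, 1 / 9 ≤ nsq (z - q0) → A z = psi0 z ∧ φ z = psi0 z ∧ lam z = 1
  lam_pos : ∀ z ∈ Bl 2, 0 < lam z
  lam_le : ∀ z ∈ Bl 2, lam z ≤ 1

/-- the jets of the base data at `z` are good -/
def BaseJ (ε : ℝ) (A φ lam : E 2 → ℝ) (z : E 2) : Prop :=
  ∃ (ς K3 : ℝ) (k : Fin 2 → ℝ) (e : Fin 2 → E 2) (b : Fin 2 → Fin 2 → E 2), Spans e ∧
    (∀ i m, b i m = b m i) ∧ (∀ i, ‖dz (e i) (cx psi0) z‖ ≤ 2 / ς) ∧
    NumHyp ε ς K3 k (arr e b (cx A) z) (arr e b (cx φ) z) (arr e b (cx lam) z)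

/-- forget the coordinate `i` -/
noncomputable def pr (i : Fin 3) : E 3 →L[ℂ] E 2 :=
  ContinuousLinearMap.pi ![ContinuousLinearMap.proj (i + 1), ContinuousLinearMap.proj (i + 2)]

theorem pr_apply (i : Fin 3) (x : E 3) : pr i x = ![x (i + 1), x (i + 2)] := by
  ext j; fin_cases j <;> rfl

@[simp] theorem pr_zero (i : Fin 3) (x : E 3) : pr i x 0 = x (i + 1) := rfl
@[simp] theorem pr_one (i : Fin 3) (x : E 3) : pr i x 1 = x (i + 2) := rfl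

/-- cyclic rotation of the coordinates -/
noncomputable def rot (i : Fin 3) : E 3 →L[ℂ] E 3 :=
  ContinuousLinearMap.pi fun j => ContinuousLinearMap.proj (j + i)

@[simp] theorem rot_apply (i : Fin 3) (x : E 3) (j : Fin 3) : rot i x j = x (j + i) := rfl

/-- `s = |w|² e^φ` -/
noncomputable def sfun (D : Base) (x : E 3) : ℝ := ‖x 0‖ ^ 2 * Real.exp (D.φ (pr 0 x))
/-- the Hartogs domain -/
def U0 (D : Base) : Set (E 3) := {x | pr 0 x ∈ Bl 2 ∧ sfun D x < 1}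
/-- its potential -/
noncomputable def Phi0 (D : Base) (x : E 3) : ℝ :=
  D.A (pr 0 x) + D.lam (pr 0 x) * -Real.log (1 - sfun D x)
/-- its exhaustion -/
noncomputable def rho0 (D : Base) (x : E 3) : ℝ :=
  Real.log (1 / D.lam (pr 0 x) - Real.log (hh (pr 0 x) * (1 - sfun D x)))

/-- **Hart**: the local condition on the Hartogs domain -/
def HartStmt : Prop :=
  ∃ ε0 c0 C0 : ℝ, 0 < ε0 ∧ ε0 ≤ 1 ∧ 0 < c0 ∧ c0 ≤ 1 ∧ 1 ≤ C0 ∧ ∀ (D : Base), ∀ x ∈ U0 D,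
    BaseJ ε0 D.A D.φ D.lam (pr 0 x) → LocAt c0 C0 (Phi0 D) (rho0 D) (D.lam (pr 0 x)) x

/-! ### gluing three Hartogs regions -/

open Classical in
noncomputable def efun (D : Base) (z : E 2) : ℝ :=
  if z ∈ Bl 2 then (D.φ z + Real.log (hh z)) / 2 else 0
open Classical in
noncomputable def afun (D : Base) (z : E 2) : ℝ :=
  if z ∈ Bl 2 then D.A z + D.lam z * Real.log (hh z) else 0
open Classical in
noncomputable def lfun (D : Base) (z : E 2) : ℝ := if z ∈ Bl 2 then D.lam z else 1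

noncomputable def Theta (D : Base) (x : E 3) : E 3 :=
  fun i => x i * (Real.exp (efun D (pr i x)) : ℝ)
noncomputable def ThetaInv (D : Base) (y : E 3) : E 3 :=
  fun i => y i * (Real.exp (-efun D (pr i y)) : ℝ)
/-- the domain -/
def Omega (D : Base) : Set (E 3) := {x | nsq (Theta D x) < 1}
noncomputable def lamG (D : Base) (x : E 3) : ℝ := ∏ i, lfun D (pr i x)
/-- the potential -/
noncomputable def Pot (D : Base) (x : E 3) : ℝ :=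
  ∑ i, afun D (pr i x) - lamG D x * Real.log (1 - nsq (Theta D x))
/-- the exhaustion -/
noncomputable def rhoG (D : Base) (x : E 3) : ℝ :=
  Real.log (1 / lamG D x - Real.log (1 - nsq (Theta D x)))

/-- `U` contains the Hartogs discs -/
def MemU (φ : E 2 → ℝ) (U : Set (E 3)) : Prop :=
  ∀ (i : Fin 3) (x : E 3), pr i x ∈ Bl 2 →
    (nsq (pr i x - q0) < 1 / 9 ∨ (‖x i‖ < 1 / 2 ∧ ‖x (i + 2)‖ < 1 / 2)) →
    ‖x i‖ ^ 2 * Real.exp (φ (pr i x)) < 1 → x ∈ U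

/-- **Top**: topology of the domain -/
def TopStmt : Prop :=
  ∀ D : Base, IsOpen (Omega D) ∧
    (∃ F G : E 3 → E 3, ContDiff ℝ ∞ F ∧ ContDiffOn ℝ ∞ G (Omega D) ∧ Set.range F = Omega D ∧
      ∀ x, G (F x) = x) ∧
    (∀ c : ℝ, ∃ K, IsCompact K ∧ K ⊆ Omega D ∧ ∀ x ∈ Omega D, rhoG D x ≤ c → x ∈ K)

/-- **Pot**: local form of the global potential -/
def PotStmt : Prop :=
  ∀ D : Base, MemU D.φ (Omega D) ∧
    (∀ t : ℝ, 0 ≤ t → t < 1 → lamG D ![0, (t : ℂ), 0] = D.lam ![(t : ℂ), 0]) ∧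
    ∀ p ∈ Omega D, ∃ i : Fin 3, rot i p ∈ U0 D ∧ lamG D p = D.lam (pr 0 (rot i p)) ∧
      Pot D =ᶠ[𝓝 p] (fun x => Phi0 D (rot i x)) ∧ rhoG D =ᶠ[𝓝 p] (fun x => rho0 D (rot i x))

/-! ### bounded holomorphic functions -/

/-- holomorphic along complex lines -/
def LineHol {n : ℕ} (a : E n → ℂ) (V : Set (E n)) : Prop :=
  ∀ z v : E n, DifferentiableOn ℂ (fun ζ : ℂ => a (z + ζ • v)) {ζ | z + ζ • v ∈ V}

/-- the cap -/
def Vcap : Set (E 2) := {z | z ∈ Bl 2 ∧ nsq (z - q0) < 1 / 9}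

/-- the weight `k φ` admits no holomorphic function -/
def Kill (φ : E 2 → ℝ) (k : ℕ) : Prop :=
  ∀ (a : E 2 → ℂ) (M : ℝ), LineHol a Vcap → (∀ z ∈ Vcap, ‖a z‖ ≤ M * Real.exp (k * φ z / 2)) →
    ∃ W : Set (E 2), IsOpen W ∧ W.Nonempty ∧ W ⊆ Vcap ∧ ∀ z ∈ W, a z = 0

/-- **Const**: bounded holomorphic functions are constant -/
def ConstStmt : Prop :=
  ∀ (φ : E 2 → ℝ) (U : Set (E 3)), ContinuousOn φ (Bl 2) → IsOpen U → IsPreconnected U →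
    MemU φ U → (∀ k, 1 ≤ k → Kill φ k) → ∀ f : E 3 → ℂ, DifferentiableOn ℂ f U →
      Bornology.IsBounded (f '' U) → ∀ p ∈ U, ∀ q ∈ U, f p = f q

/-- **Det**: bounded holomorphic maps are degenerate somewhere -/
def DetStmt : Prop :=
  ∀ (φ : E 2 → ℝ) (U : Set (E 3)), ContinuousOn φ (Bl 2) → IsOpen U → MemU φ U → Kill φ 1 →
    ∀ F : E 3 → E 3, DifferentiableOn ℂ F U → Bornology.IsBounded (F '' U) →
      ∃ p ∈ U, (fderiv ℂ F p).det = 0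

/-! ### the rotationally modified Bergman potential -/

noncomputable def beta (z : E 2) : ℝ := Real.smoothTransition (16 - 144 * nsq (z - q0)) ^ 2
noncomputable def yy (z : E 2) : ℝ := Real.log (hh z + beta z) - Real.log (hh z)
noncomputable def sig (η σ y : ℝ) : ℝ := σ + (1 - σ) / (1 + η * y)
noncomputable def chi (η σ y : ℝ) : ℝ := σ * y + (1 - σ) * Real.log (1 + η * y) / η
noncomputable def Afun (η σ : ℝ) (z : E 2) : ℝ := -Real.log (hh z + beta z) + chi η σ (yy z)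
noncomputable def lamf (η σ : ℝ) (z : E 2) : ℝ := sig η σ (yy z) ^ 16

/-- the Bergman form -/
noncomputable def om (z X Y : E 2) : ℂ :=
  ip X Y / (hh z : ℂ) + ip X z * conj (ip Y z) / (hh z : ℂ) ^ 2
/-- square of the Bergman norm -/
noncomputable def omq (z X : E 2) : ℝ := nsq X / hh z + ‖ip X z‖ ^ 2 / hh z ^ 2
/-- minus the Christoffel map of the Bergman metric -/
noncomputable def bh (z X Y : E 2) : E 2 :=
  -((ip X z / (hh z : ℂ)) • Y + (ip Y z / (hh z : ℂ)) • X)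
/-- frames adapted to the Bergman metric -/
noncomputable def ofr (z X Y Z W : E 2) : Fr 2 := ⟨X, Y, bh z X Y, Z, W, bh z Z W⟩
/-- all jets of `f` at `z` in Bergman-subunit frames are bounded by `K` -/
def JetLe (z : E 2) (K : ℝ) (j : Fr 2 → J) : Prop :=
  ∀ X Y Z W, omq z X ≤ 1 → omq z Y ≤ 1 → omq z Z ≤ 1 → omq z W ≤ 1 →
    ‖J.nil (j (ofr z X Y Z W))‖ ≤ K

/-- **PsiJet**: the jets of `ψ₀` -/
def PsiJetStmt : Prop :=
  ∀ z ∈ Bl 2, ∀ X Y Z W, dz X (cx psi0) z = ip X z / (hh z : ℂ) ∧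
    (jet (ofr z X Y Z W) (cx psi0) z).xz = om z X Z ∧
    (jet (ofr z X Y Z W) (cx psi0) z).dz = 0 ∧ (jet (ofr z X Y Z W) (cx psi0) z).xe = 0 ∧
    (jet (ofr z X Y Z W) (cx psi0) z).de = om z X Z * om z Y W + om z X W * om z Y Z

/-- **AJet**: the jets of `A` and `λ` -/
def AJetStmt : Prop :=
  ∃ C : ℝ, 0 < C ∧ ∀ η σ : ℝ, 0 < η → η ≤ 1 → 0 ≤ σ → σ ≤ 1 → ∀ z ∈ Bl 2,
    JetLe z (C * η * sig η σ (yy z))
      (fun F => jet F (cx (Afun η σ)) z - (sig η σ (yy z) : ℂ) • jet F (cx psi0) z) ∧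
    JetLe z (C * η * sig η σ (yy z) ^ 17) (fun F => jet F (cx (lamf η σ)) z)

/-- **Diag**: simultaneous diagonalisation -/
def DiagStmt : Prop :=
  ∀ R κ : E 2 → E 2 → ℂ, (∀ a X Y Z, R (a • X + Y) Z = a * R X Z + R Y Z) →
    (∀ X Y, R X Y = conj (R Y X)) → (∀ a X Y Z, κ (a • X + Y) Z = a * κ X Z + κ Y Z) →
    (∀ X Y, κ X Y = conj (κ Y X)) → (∀ X, X ≠ 0 → 0 < (R X X).re) →
    ∃ (e : Fin 2 → E 2) (k : Fin 2 → ℝ), Spans e ∧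
      ∀ i j, R (e i) (e j) = kr i j ∧ κ (e i) (e j) = (kr i j * k i : ℝ)

/-- **BaseJet**: good jets on the base -/
def BaseJetStmt : Prop :=
  ∀ ε : ℝ, 0 < ε → ∃ η : ℝ, 0 < η ∧ η ≤ 1 ∧ ∀ σ : ℝ, 0 ≤ σ → σ ≤ 1 → ∀ Ψ : E 2 → ℝ,
    ContDiffOn ℝ ∞ Ψ (Bl 2) → ∀ z ∈ Bl 2, ∀ K : ℝ, 0 ≤ K →
    (∀ X, 0 ≤ (dz X (dzb X (cx Ψ)) z).re) → JetLe z K (fun F => jet F (cx Ψ) z) →
    4 * sig η σ (yy z) * K * (1 + 4 * K) ≤ ε ^ 2 →
    BaseJ ε (Afun η σ) (fun x => Afun η σ x + Ψ x) (lamf η σ) z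

/-! ### wells -/

/-- bound for the overlap -/
noncomputable def Ov (Θ : ℝ) : ℝ := (2 * Θ + 7) ^ 4

/-- the profile of a well -/
structure Prof (Θ b Γ : ℝ) (G : ℂ → ℝ) : Prop where
  one_le : 1 ≤ Γ
  smooth : ContDiff ℝ ∞ G
  zero : ∀ ξ : ℂ, ξ.re ≤ -3 → G ξ = 0
  le : ∀ ξ : ℂ, ξ.re ≤ Θ → G ξ ≤ 1 / Ov Θ
  well : ∀ m : ℤ, G (2 * Real.pi * I * m) ≤ -b
  lip : ∀ ξ ξ' : ℂ, ξ.re ≤ Θ → ξ'.re ≤ Θ → |G ξ - G ξ'| ≤ Γ * ‖ξ - ξ'‖
  sub : ∀ (l : E 2 →L[ℂ] ℂ) (c : ℂ) (z X : E 2),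
    0 ≤ (dz X (dzb X fun x => (G (l x + c) : ℂ)) z).re
  jb : ∀ (l : E 2 →L[ℂ] ℂ) (c : ℂ) (z : E 2) (F : Fr 2) (D : ℝ), (l z + c).re ≤ Θ →
    D ≤ 8 * (Θ + 3) → ‖l F.X‖ ≤ D → ‖l F.Y‖ ≤ D → ‖l F.b‖ ≤ D → ‖l F.Z‖ ≤ D → ‖l F.W‖ ≤ D →
    ‖l F.c‖ ≤ D → ‖J.nil (jet F (fun x => (G (l x + c) : ℂ)) z)‖ ≤ Γ * D

/-- **Prof** -/
def ProfStmt : Prop := ∀ Θ b : ℝ, 0 ≤ Θ → ∃ Γ G, Prof Θ b Γ G

/-- a net of mesh `1 / √N` near `q0` -/
structure Net (N : ℝ) (Λ : Finset (E 2)) : Prop where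
  near : ∀ a ∈ Λ, nsq (a - q0) ≤ 1 / 64
  cover : ∀ p, nsq (p - q0) ≤ 1 / 100 → ∃ a ∈ Λ, N * nsq (p - a) ≤ 1
  overlap : ∀ (Θ : ℝ) (z : E 2) (S : Finset (E 2)), 0 ≤ Θ → S ⊆ Λ →
    (∀ a ∈ S, N * nsq (z - a) < Θ + 3) → (S.card : ℝ) ≤ Ov Θ

/-- **Net** -/
def NetStmt : Prop := ∀ N : ℝ, 1600 ≤ N → ∃ Λ, Net N Λ

/-- the affine function whose level sets are the leaves -/
noncomputable def xi (N Θ : ℝ) (a z : E 2) : ℂ := N * (2 * ip z a - 1 - nsq a) + Θ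

/-- a system of wells -/
structure Wells where
  N : ℕ → ℝ
  Θ : ℕ → ℝ
  Γ : ℕ → ℝ
  b : ℝ
  G : ℕ → ℂ → ℝ
  Λ : ℕ → Finset (E 2)
  N_pos : ∀ j, 0 < N j
  Θ_ge : ∀ j, 40 ≤ Θ j
  prof : ∀ j, Prof (Θ j) b (Γ j) (G j)
  net : ∀ j, Net (N j) (Λ j)
  l0 : (Θ 0 + 3) / N 0 ≤ 1 / 10000
  dec : ∀ j, 4 * (50 * Ov (Θ j) * Γ j * (Θ j + 3)) ^ 2 * ((Θ (j + 1) + 3) / N (j + 1)) ≤
    (Θ j + 3) / N j

namespace Wells
variable (W : Wells)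
/-- the height below which the wells of generation `j` live -/
noncomputable def ell (j : ℕ) : ℝ := (W.Θ j + 3) / W.N j
noncomputable def Gam (j : ℕ) : ℝ := 50 * Ov (W.Θ j) * W.Γ j * (W.Θ j + 3)
noncomputable def Psij (j : ℕ) (z : E 2) : ℝ := ∑ a ∈ W.Λ j, W.G j (xi (W.N j) (W.Θ j) a z)
noncomputable def Psi (z : E 2) : ℝ := ∑' j, W.Psij j z
/-- the shell of generation `j` -/
def Shell (j : ℕ) (p : E 2) : Prop := W.Θ j / W.N j ≤ hh p ∧ hh p ≤ (W.Θ j + 1) / W.N j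
end Wells

/-- **WellsJet** -/
def WellsJetStmt : Prop :=
  ∀ W : Wells, ContDiffOn ℝ ∞ W.Psi (Bl 2) ∧ ∀ z ∈ Bl 2,
    (1 / 16 ≤ nsq (z - q0) → W.Psi z = 0) ∧ (∀ X, 0 ≤ (dz X (dzb X (cx W.Psi)) z).re) ∧
    ∃ K, (K = 0 ∨ ∃ j, hh z ≤ W.ell j ∧ nsq (z - q0) ≤ 1 / 16 ∧ K = 2 * W.Gam j) ∧
      JetLe z K (fun F => jet F (cx W.Psi) z)

/-- the wells are deep enough for the weight `k (A + Ψ)` -/
def KillHyp (W : Wells) (A : E 2 → ℝ) (k : ℕ) : Prop :=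
  ∃ (cA : ℝ) (j0 : ℕ), cA + 6 ≤ W.b ∧ (∀ j, j0 ≤ j → 128 * Real.exp (k * (cA + 2) / 2) ≤ W.Θ j) ∧
    ∀ j, j0 ≤ j → ∀ p x : E 2, nsq (p - q0) ≤ 1 / 16 → nsq (x - q0) ≤ 1 / 16 → W.Shell j p →
      W.Shell (j + 1) x → A x - A p ≤ cA

/-- **Kill** -/
def KillStmt : Prop :=
  ∀ (W : Wells) (A : E 2 → ℝ) (k : ℕ), 1 ≤ k → KillHyp W A k → Kill (fun z => A z + W.Psi z) k

/-- **Param** for S0379 -/
def Param79Stmt : Prop :=
  ∀ ε η : ℝ, 0 < ε → ε ≤ 1 → 0 < η → η ≤ 1 → ∃ W : Wells,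
    (∀ j, 72 * W.Gam j ^ 2 * sig η 0 (Real.log (1 / W.ell j)) ≤ ε ^ 2) ∧
    ∀ k, 1 ≤ k → KillHyp W (Afun η 0) k

/-- **Param** for S0378 -/
def Param78Stmt : Prop :=
  ∀ ε η : ℝ, 0 < ε → ε ≤ 1 → 0 < η → η ≤ 1 → ∃ (σ : ℝ) (W : Wells), 0 < σ ∧ σ ≤ 1 ∧
    (∀ j, 72 * W.Gam j ^ 2 * sig η σ (Real.log (1 / W.ell j)) ≤ ε ^ 2) ∧
    KillHyp W (Afun η σ) 1

end Crest.Agent.R245
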