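import Crest.Agent.R245.Basic

/-! Row 245: simultaneous diagonalisation of two Hermitian forms on `ℂ²`. -/

set_option autoImplicit false

open Complex
open scoped ComplexConjugate

namespace Crest.Agent.R245

namespace DiagAux

variable {B : E 2 → E 2 → ℂ}

theorem lin_left (h : ∀ a X Y Z, B (a • X + Y) Z = a * B X Z + B Y Z) (a b : ℂ) (X Y Z : E 2) :
    B (a • X + b • Y) Z = a * B X Z + b * B Y Z := by
  have h0 : B 0 Z = 0 := by
    have := h 1 0 0 Z
    simpa using this
  have h1 := h b Y 0 Z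
  rw [add_zero, h0, add_zero] at h1
  rw [h, h1]

theorem expand (h : ∀ a X Y Z, B (a • X + Y) Z = a * B X Z + B Y Z)
    (h' : ∀ X Y, B X Y = conj (B Y X)) (a b c d : ℂ) (X Y : E 2) :
    B (a • X + b • Y) (c • X + d • Y) = a * conj c * B X X + a * conj d * B X Y +
      b * conj c * B Y X + b * conj d * B Y Y := by
  rw [lin_left h, h' X, h' Y, lin_left h, lin_left h]
  simp only [map_add, map_mul, ← h']
  ring

theorem exists_unit (h : ∀ a X Y Z, B (a • X + Y) Z = a * B X Z + B Y Z)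
    (h' : ∀ X Y, B X Y = conj (B Y X)) {X : E 2} (hX : 0 < (B X X).re) :
    ∃ c : ℂ, c ≠ 0 ∧ B (c • X) (c • X) = 1 := by
  have h1 : B X X = ((B X X).re : ℂ) := (conj_eq_iff_re.1 (h' X X).symm).symm
  have h2 := Real.sqrt_pos.2 hX
  refine ⟨((Real.sqrt (B X X).re)⁻¹ : ℝ), by exact_mod_cast inv_ne_zero h2.ne', ?_⟩
  have h3 := expand h h' ((Real.sqrt (B X X).re)⁻¹ : ℝ) 0 ((Real.sqrt (B X X).re)⁻¹ : ℝ) 0 X X
  simp only [zero_smul, add_zero, map_zero, mul_zero, zero_mul, conj_ofReal] at h3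
  rw [h3]
  generalize (B X X).re = r at *
  rw [h1]
  norm_cast
  rw [← mul_inv, Real.mul_self_sqrt hX.le, inv_mul_cancel₀ hX.ne']

theorem gram_schmidt (h : ∀ a X Y Z, B (a • X + Y) Z = a * B X Z + B Y Z)
    (h' : ∀ X Y, B X Y = conj (B Y X)) (hp : ∀ X, X ≠ 0 → 0 < (B X X).re) :
    ∃ f : Fin 2 → E 2, Spans f ∧ ∀ i j, B (f i) (f j) = kr i j := by
  obtain ⟨c, hc, h0⟩ := exists_unit h h' (hp ![1, 0] fun e => by simpa using congrFun e 0)
  set f0 : E 2 := c • ![1, 0] with hf0
  set t : ℂ := -B ![0, 1] f0 with ht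
  obtain ⟨d, hd, h1⟩ := exists_unit h h'
    (hp (t • f0 + ![0, 1]) fun e => by simpa [hf0] using congrFun e 1)
  have h2 : B (d • (t • f0 + ![0, 1])) f0 = 0 := by
    have := lin_left h d 0 (t • f0 + ![0, 1]) 0 f0
    rw [zero_smul, add_zero] at this
    rw [this, h, h0, ht]
    ring
  refine ⟨![f0, d • (t • f0 + ![0, 1])], fun V => ⟨![V 0 / c - t * V 1, V 1 / d], ?_⟩, ?_⟩
  · ext i
    fin_cases i
    · simp [hf0]
      field_simp
      ring
    · simp [hf0]
      field_simp
  · intro i j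
    fin_cases i <;> fin_cases j
    · simpa using h0
    · simp only [Fin.zero_eta, Matrix.cons_val_zero, Fin.mk_one, Matrix.cons_val_one]
      rw [h', h2]
      simp [kr]
    · simpa [kr] using h2
    · simpa using h1

end DiagAux

open DiagAux in
theorem diag : DiagStmt := by
  intro R κ hR hR' hκ hκ' hp
  obtain ⟨f, hf, hRf⟩ := gram_schmidt hR hR' hp
  let M : Matrix (Fin 2) (Fin 2) ℂ := Matrix.of fun i j => κ (f i) (f j)
  have hM : M.IsHermitian := by
    ext i j
    exact (hκ' _ _).symm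
  obtain ⟨U, h1, h2, h3⟩ : ∃ U : Matrix (Fin 2) (Fin 2) ℂ, star U * U = 1 ∧ U * star U = 1 ∧
      star U * M * U = Matrix.diagonal fun i => (hM.eigenvalues i : ℂ) := by
    refine ⟨hM.eigenvectorUnitary, Unitary.coe_star_mul_self _, Unitary.coe_mul_star_self _, ?_⟩
    have := hM.conjStarAlgAut_star_eigenvectorUnitary
    rw [Unitary.conjStarAlgAut_apply] at this
    simpa [Function.comp_def] using this
  refine ⟨fun i => conj (U 0 i) • f 0 + conj (U 1 i) • f 1, hM.eigenvalues, fun V => ?_,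
    fun i j => ⟨?_, ?_⟩⟩
  · obtain ⟨v, rfl⟩ := hf V
    refine ⟨fun i => v 0 * U 0 i + v 1 * U 1 i, ?_⟩
    have a00 := congrFun (congrFun h2 0) 0
    have a01 := congrFun (congrFun h2 0) 1
    have a10 := congrFun (congrFun h2 1) 0
    have a11 := congrFun (congrFun h2 1) 1
    simp [Matrix.mul_apply, Fin.sum_univ_two] at a00 a01 a10 a11
    ext m
    simp only [Fin.sum_univ_two, Pi.add_apply, Pi.smul_apply, smul_eq_mul]
    linear_combination (-v 0 * f 0 m) * a00 - (v 0 * f 1 m) * a01 - (v 1 * f 0 m) * a10 -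
      (v 1 * f 1 m) * a11
  · have a := congrFun (congrFun h1 i) j
    rw [expand hR hR', hRf, hRf, hRf, hRf]
    simp [Matrix.mul_apply, Fin.sum_univ_two, Matrix.one_apply] at a
    simp only [kr, conj_conj]
    rw [apply_ite ((↑) : ℝ → ℂ) (i = j)]
    simpa using a
  · have a := congrFun (congrFun h3 i) j
    rw [expand hκ hκ']
    simp [Matrix.mul_apply, Fin.sum_univ_two, Matrix.diagonal_apply, M] at a
    simp only [kr, conj_conj, ite_mul, one_mul, zero_mul]
    rw [apply_ite ((↑) : ℝ → ℂ) (i = j), ofReal_zero, ← a]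
    ring

end Crest.Agent.R245
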