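import Mathlib

/-! Row 245: dual numbers `Du R` and the 16-dimensional algebra `J` of `(2,2)`-jets. -/

set_option autoImplicit false

namespace Crest.Agent.R245

/-- dual numbers `a + b ε` -/
@[ext] structure Du (R : Type) where
  a : R
  b : R

namespace Du

section ring
variable {R : Type} [CommRing R]

instance : Zero (Du R) := ⟨⟨0, 0⟩⟩
instance : One (Du R) := ⟨⟨1, 0⟩⟩
instance : Add (Du R) := ⟨fun x y => ⟨x.a + y.a, x.b + y.b⟩⟩
instance : Neg (Du R) := ⟨fun x => ⟨-x.a, -x.b⟩⟩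
instance : Sub (Du R) := ⟨fun x y => ⟨x.a - y.a, x.b - y.b⟩⟩
instance : Mul (Du R) := ⟨fun x y => ⟨x.a * y.a, x.a * y.b + x.b * y.a⟩⟩
instance {S : Type} [SMul S R] : SMul S (Du R) := ⟨fun s x => ⟨s • x.a, s • x.b⟩⟩
instance : NatCast (Du R) := ⟨fun n => ⟨n, 0⟩⟩
instance : IntCast (Du R) := ⟨fun n => ⟨n, 0⟩⟩

@[simp] theorem zero_a : (0 : Du R).a = 0 := rfl
@[simp] theorem zero_b : (0 : Du R).b = 0 := rfl
@[simp] theorem one_a : (1 : Du R).a = 1 := rfl
@[simp] theorem one_b : (1 : Du R).b = 0 := rfl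
@[simp] theorem add_a (x y : Du R) : (x + y).a = x.a + y.a := rfl
@[simp] theorem add_b (x y : Du R) : (x + y).b = x.b + y.b := rfl
@[simp] theorem neg_a (x : Du R) : (-x).a = -x.a := rfl
@[simp] theorem neg_b (x : Du R) : (-x).b = -x.b := rfl
@[simp] theorem sub_a (x y : Du R) : (x - y).a = x.a - y.a := rfl
@[simp] theorem sub_b (x y : Du R) : (x - y).b = x.b - y.b := rfl
@[simp] theorem mul_a (x y : Du R) : (x * y).a = x.a * y.a := rfl
@[simp] theorem mul_b (x y : Du R) : (x * y).b = x.a * y.b + x.b * y.a := rfl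
@[simp] theorem smul_a {S : Type} [SMul S R] (s : S) (x : Du R) : (s • x).a = s • x.a := rfl
@[simp] theorem smul_b {S : Type} [SMul S R] (s : S) (x : Du R) : (s • x).b = s • x.b := rfl
@[simp] theorem natCast_a (n : ℕ) : (n : Du R).a = n := rfl
@[simp] theorem natCast_b (n : ℕ) : (n : Du R).b = 0 := rfl
@[simp] theorem intCast_a (n : ℤ) : (n : Du R).a = n := rfl
@[simp] theorem intCast_b (n : ℤ) : (n : Du R).b = 0 := rfl

instance : CommRing (Du R) where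
  add_assoc _ _ _ := by ext <;> simp [add_assoc]
  zero_add _ := by ext <;> simp
  add_zero _ := by ext <;> simp
  nsmul := (· • ·)
  nsmul_zero _ := by ext <;> simp
  nsmul_succ _ _ := by ext <;> simp [add_mul]
  zsmul := (· • ·)
  zsmul_zero' _ := by ext <;> simp
  zsmul_succ' _ _ := by ext <;> simp [add_mul]
  zsmul_neg' _ _ := by ext <;> simp [add_mul]
  neg_add_cancel _ := by ext <;> simp
  sub_eq_add_neg _ _ := by ext <;> simp [sub_eq_add_neg]
  add_comm _ _ := by ext <;> simp [add_comm]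
  left_distrib _ _ _ := by ext <;> simp <;> ring
  right_distrib _ _ _ := by ext <;> simp <;> ring
  zero_mul _ := by ext <;> simp
  mul_zero _ := by ext <;> simp
  mul_assoc _ _ _ := by ext <;> simp <;> ring
  one_mul _ := by ext <;> simp
  mul_one _ := by ext <;> simp
  mul_comm _ _ := by ext <;> simp <;> ring
  natCast_zero := by ext <;> simp
  natCast_succ _ := by ext <;> simp
  intCast_ofNat _ := by ext <;> simp
  intCast_negSucc _ := by ext <;> simp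

instance [Algebra ℂ R] : Algebra ℂ (Du R) where
  algebraMap :=
    { toFun := fun c => ⟨algebraMap ℂ R c, 0⟩
      map_one' := by ext <;> simp
      map_mul' := fun _ _ => by ext <;> simp
      map_zero' := by ext <;> simp
      map_add' := fun _ _ => by ext <;> simp }
  commutes' _ _ := mul_comm _ _
  smul_def' c x := by ext <;> simp [Algebra.smul_def]

@[simp] theorem algebraMap_a [Algebra ℂ R] (c : ℂ) :
    (algebraMap ℂ (Du R) c).a = algebraMap ℂ R c := rfl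
@[simp] theorem algebraMap_b [Algebra ℂ R] (c : ℂ) : (algebraMap ℂ (Du R) c).b = 0 := rfl

@[simp] theorem ofNat_a (n : ℕ) [n.AtLeastTwo] : (ofNat(n) : Du R).a = ofNat(n) := rfl
@[simp] theorem ofNat_b (n : ℕ) [n.AtLeastTwo] : (ofNat(n) : Du R).b = 0 := rfl

end ring

section norm
variable {R : Type} [NormedCommRing R]

noncomputable instance : Norm (Du R) := ⟨fun x => ‖x.a‖ + ‖x.b‖⟩

theorem norm_def (x : Du R) : ‖x‖ = ‖x.a‖ + ‖x.b‖ := rfl

noncomputable instance : NormedAddCommGroup (Du R) :=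
  AddGroupNorm.toNormedAddCommGroup
    { toFun := fun x => ‖x.a‖ + ‖x.b‖
      map_zero' := by simp
      add_le' := fun x y => by
        have h1 := norm_add_le x.a y.a
        have h2 := norm_add_le x.b y.b
        simp only [add_a, add_b]; linarith
      neg' := fun x => by simp
      eq_zero_of_map_eq_zero' := fun x h => by
        have h1 := norm_nonneg x.a
        have h2 := norm_nonneg x.b
        ext
        · simpa using (by linarith : ‖x.a‖ = 0)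
        · simpa using (by linarith : ‖x.b‖ = 0) }

noncomputable instance : NormedCommRing (Du R) where
  norm_mul_le x y := by
    have h1 := norm_mul_le x.a y.a
    have h2 := norm_mul_le x.a y.b
    have h3 := norm_mul_le x.b y.a
    have h4 := norm_add_le (x.a * y.b) (x.b * y.a)
    have h5 := mul_nonneg (norm_nonneg x.b) (norm_nonneg y.b)
    simp only [norm_def, mul_a, mul_b]
    nlinarith
  dist_eq := NormedAddCommGroup.dist_eq

noncomputable instance [NormedAlgebra ℂ R] : NormedAlgebra ℂ (Du R) where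
  norm_smul_le c x := by
    simp only [norm_def, smul_a, smul_b, norm_smul]
    rw [mul_add]

instance [NormOneClass R] : NormOneClass (Du R) := ⟨by simp [norm_def]⟩

theorem norm_a_le (x : Du R) : ‖x.a‖ ≤ ‖x‖ := le_add_of_nonneg_right (norm_nonneg _)
theorem norm_b_le (x : Du R) : ‖x.b‖ ≤ ‖x‖ := le_add_of_nonneg_left (norm_nonneg _)

end norm

end Du

/-- the algebra `ℂ[x,y,z,w]/(x²,y²,z²,w²)`; the order of the layers is `x, y, z, w` -/
abbrev J := Du (Du (Du (Du ℂ)))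

namespace J

/-- build a jet from its 16 components; first letter `o,x,y,d` (holomorphic part `1, x, y, xy`),
second letter `o,z,w,e` (antiholomorphic part `1, z, w, zw`) -/
@[simp] def mk16 (oo oz ow oe xo xz xw xe yo yz yw ye dO dz dw de : ℂ) : J :=
  ⟨⟨⟨⟨oo, ow⟩, ⟨oz, oe⟩⟩, ⟨⟨yo, yw⟩, ⟨yz, ye⟩⟩⟩, ⟨⟨⟨xo, xw⟩, ⟨xz, xe⟩⟩, ⟨⟨dO, dw⟩, ⟨dz, de⟩⟩⟩⟩

@[simp] abbrev oo (j : J) : ℂ := j.a.a.a.a
@[simp] abbrev oz (j : J) : ℂ := j.a.a.b.a
@[simp] abbrev ow (j : J) : ℂ := j.a.a.a.b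
@[simp] abbrev oe (j : J) : ℂ := j.a.a.b.b
@[simp] abbrev xo (j : J) : ℂ := j.b.a.a.a
@[simp] abbrev xz (j : J) : ℂ := j.b.a.b.a
@[simp] abbrev xw (j : J) : ℂ := j.b.a.a.b
@[simp] abbrev xe (j : J) : ℂ := j.b.a.b.b
@[simp] abbrev yo (j : J) : ℂ := j.a.b.a.a
@[simp] abbrev yz (j : J) : ℂ := j.a.b.b.a
@[simp] abbrev yw (j : J) : ℂ := j.a.b.a.b
@[simp] abbrev ye (j : J) : ℂ := j.a.b.b.b
@[simp] abbrev dO (j : J) : ℂ := j.b.b.a.a
@[simp] abbrev dz (j : J) : ℂ := j.b.b.b.a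
@[simp] abbrev dw (j : J) : ℂ := j.b.b.a.b
@[simp] abbrev de (j : J) : ℂ := j.b.b.b.b

/-- constants -/
noncomputable abbrev C (c : ℂ) : J := algebraMap ℂ J c

/-- jet of a holomorphic function -/
@[simp] def hol (o x y d : ℂ) : J := mk16 o 0 0 0 x 0 0 0 y 0 0 0 d 0 0 0
/-- jet of an antiholomorphic function -/
@[simp] def anti (o z w e : ℂ) : J := mk16 o z w e 0 0 0 0 0 0 0 0 0 0 0 0

/-- the nilpotent part -/
noncomputable def nil (j : J) : J := j - C j.oo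

/-- composition with a function whose derivatives at `j.oo` are `f0, …, f4` -/
noncomputable def comp (f0 f1 f2 f3 f4 : ℂ) (j : J) : J :=
  C f0 + f1 • nil j + (f2 / 2) • nil j ^ 2 + (f3 / 6) • nil j ^ 3 + (f4 / 24) • nil j ^ 4

theorem norm_eq (j : J) : ‖j‖ = ‖j.oo‖ + ‖j.ow‖ + (‖j.oz‖ + ‖j.oe‖) +
    (‖j.yo‖ + ‖j.yw‖ + (‖j.yz‖ + ‖j.ye‖)) + (‖j.xo‖ + ‖j.xw‖ + (‖j.xz‖ + ‖j.xe‖) +
    (‖j.dO‖ + ‖j.dw‖ + (‖j.dz‖ + ‖j.de‖))) := rfl

theorem nil_oo (j : J) : (nil j).oo = 0 := by simp [nil]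
theorem C_add_nil (j : J) : C j.oo + nil j = j := by simp [nil]
@[simp] theorem nil_C (c : ℂ) : nil (C c) = 0 := by simp [nil]
theorem nil_add (i j : J) : nil (i + j) = nil i + nil j := by simp [nil]; ring
theorem nil_sub (i j : J) : nil (i - j) = nil i - nil j := by simp [nil]; ring
theorem nil_neg (j : J) : nil (-j) = -nil j := by simp [nil]; ring
theorem nil_smul (c : ℂ) (j : J) : nil (c • j) = c • nil j := by
  simp [nil, Algebra.smul_def, mul_sub]
theorem nil_mul (i j : J) : nil (i * j) = i.oo • nil j + j.oo • nil i + nil i * nil j := by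
  simp only [nil, Algebra.smul_def, oo, Du.mul_a, map_mul]; ring
theorem nil_sum {ι : Type} (s : Finset ι) (f : ι → J) :
    nil (∑ i ∈ s, f i) = ∑ i ∈ s, nil (f i) := by
  classical
  induction s using Finset.induction_on with
  | empty => simp [nil]
  | insert a s ha ih => rw [Finset.sum_insert ha, Finset.sum_insert ha, nil_add, ih]

theorem comp_oo (f0 f1 f2 f3 f4 : ℂ) (j : J) : (comp f0 f1 f2 f3 f4 j).oo = f0 := by
  simp [comp, nil, pow_succ]

theorem nil_comp (f0 f1 f2 f3 f4 : ℂ) (j : J) : nil (comp f0 f1 f2 f3 f4 j) =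
    f1 • nil j + (f2 / 2) • nil j ^ 2 + (f3 / 6) • nil j ^ 3 + (f4 / 24) • nil j ^ 4 := by
  rw [nil, comp_oo, comp]; ring

theorem norm_nil_mul_le (i j : J) :
    ‖nil (i * j)‖ ≤ ‖i.oo‖ * ‖nil j‖ + ‖j.oo‖ * ‖nil i‖ + ‖nil i‖ * ‖nil j‖ := by
  rw [nil_mul]
  refine (norm_add_le _ _).trans (add_le_add ((norm_add_le _ _).trans ?_) (norm_mul_le _ _))
  rw [norm_smul, norm_smul]

/-- the part of `comp` of order at least two -/
theorem norm_nil_comp_sub_le (f0 f1 f2 f3 f4 : ℂ) (j : J) :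
    ‖nil (comp f0 f1 f2 f3 f4 j) - f1 • nil j‖ ≤
      ‖f2‖ / 2 * ‖nil j‖ ^ 2 + ‖f3‖ / 6 * ‖nil j‖ ^ 3 + ‖f4‖ / 24 * ‖nil j‖ ^ 4 := by
  have e : nil (comp f0 f1 f2 f3 f4 j) - f1 • nil j =
      (f2 / 2) • nil j ^ 2 + (f3 / 6) • nil j ^ 3 + (f4 / 24) • nil j ^ 4 := by
    rw [nil_comp]; ring
  rw [e]
  refine (norm_add_le _ _).trans (add_le_add ((norm_add_le _ _).trans (add_le_add ?_ ?_)) ?_) <;>
  · rw [norm_smul, norm_div]
    simp only [Complex.norm_ofNat]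
    exact mul_le_mul_of_nonneg_left (norm_pow_le _ _) (by positivity)

theorem norm_nil_comp_le (f0 f1 f2 f3 f4 : ℂ) (j : J) :
    ‖nil (comp f0 f1 f2 f3 f4 j)‖ ≤ ‖f1‖ * ‖nil j‖ +
      (‖f2‖ / 2 * ‖nil j‖ ^ 2 + ‖f3‖ / 6 * ‖nil j‖ ^ 3 + ‖f4‖ / 24 * ‖nil j‖ ^ 4) := by
  have h := norm_nil_comp_sub_le f0 f1 f2 f3 f4 j
  have h2 := norm_add_le (f1 • nil j) (nil (comp f0 f1 f2 f3 f4 j) - f1 • nil j)
  rw [add_sub_cancel, norm_smul] at h2
  linarith

/-- a crude version: all derivatives are bounded by `c`, and `‖nil j‖ ≤ D ≤ M` -/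
theorem norm_nil_comp_le' {f0 f1 f2 f3 f4 : ℂ} {j : J} {c D M : ℝ} (h1 : ‖f1‖ ≤ c)
    (h2 : ‖f2‖ ≤ c) (h3 : ‖f3‖ ≤ c) (h4 : ‖f4‖ ≤ c) (hD : ‖nil j‖ ≤ D) (hM : D ≤ M) :
    ‖nil (comp f0 f1 f2 f3 f4 j)‖ ≤ c * (1 + M) ^ 3 * D := by
  have h0 := norm_nonneg (nil j)
  have hc : 0 ≤ c := (norm_nonneg _).trans h1
  have hD0 : 0 ≤ D := h0.trans hD
  have hM0 : 0 ≤ M := hD0.trans hM
  refine (norm_nil_comp_le _ _ _ _ _ _).trans ?_
  calc _ ≤ c * D + (c / 2 * (M * D) + c / 6 * (M ^ 2 * D) + c / 24 * (M ^ 3 * D)) := by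
        have e2 : ‖nil j‖ ^ 2 ≤ M * D := by rw [sq]; gcongr; exact hD.trans hM
        have e3 : ‖nil j‖ ^ 3 ≤ M ^ 2 * D := by rw [pow_succ]; gcongr; exact hD.trans hM
        have e4 : ‖nil j‖ ^ 4 ≤ M ^ 3 * D := by rw [pow_succ]; gcongr; exact hD.trans hM
        gcongr
    _ ≤ _ := by
        have : 0 ≤ c * D := mul_nonneg hc hD0
        have a1 : 0 ≤ c * D * M := mul_nonneg this hM0
        have a2 : 0 ≤ c * D * M ^ 2 := mul_nonneg this (by positivity)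
        have a3 : 0 ≤ c * D * M ^ 3 := mul_nonneg this (by positivity)
        nlinarith

section comps
variable (j : J)
theorem norm_oo_le : ‖j.oo‖ ≤ ‖j‖ :=
  (Du.norm_a_le _).trans ((Du.norm_a_le _).trans ((Du.norm_a_le _).trans (Du.norm_a_le _)))
theorem norm_oz_le : ‖j.oz‖ ≤ ‖j‖ :=
  (Du.norm_a_le _).trans ((Du.norm_b_le _).trans ((Du.norm_a_le _).trans (Du.norm_a_le _)))
theorem norm_oe_le : ‖j.oe‖ ≤ ‖j‖ :=
  (Du.norm_b_le _).trans ((Du.norm_b_le _).trans ((Du.norm_a_le _).trans (Du.norm_a_le _)))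
theorem norm_xo_le : ‖j.xo‖ ≤ ‖j‖ :=
  (Du.norm_a_le _).trans ((Du.norm_a_le _).trans ((Du.norm_a_le _).trans (Du.norm_b_le _)))
theorem norm_xz_le : ‖j.xz‖ ≤ ‖j‖ :=
  (Du.norm_a_le _).trans ((Du.norm_b_le _).trans ((Du.norm_a_le _).trans (Du.norm_b_le _)))
theorem norm_xe_le : ‖j.xe‖ ≤ ‖j‖ :=
  (Du.norm_b_le _).trans ((Du.norm_b_le _).trans ((Du.norm_a_le _).trans (Du.norm_b_le _)))
theorem norm_dO_le : ‖j.dO‖ ≤ ‖j‖ :=
  (Du.norm_a_le _).trans ((Du.norm_a_le _).trans ((Du.norm_b_le _).trans (Du.norm_b_le _)))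
theorem norm_dz_le : ‖j.dz‖ ≤ ‖j‖ :=
  (Du.norm_a_le _).trans ((Du.norm_b_le _).trans ((Du.norm_b_le _).trans (Du.norm_b_le _)))
theorem norm_de_le : ‖j.de‖ ≤ ‖j‖ :=
  (Du.norm_b_le _).trans ((Du.norm_b_le _).trans ((Du.norm_b_le _).trans (Du.norm_b_le _)))
end comps

end J

end Crest.Agent.R245
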