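import Crest.Agent.R245.ErrC

/-! Row 245: the error bounds for the curvature array. -/

set_option autoImplicit false

open Complex
open scoped ComplexConjugate

namespace Crest.Agent.R245

namespace ErrD

open ErrA ErrB ErrC

theorem kr00 : kr (0 : Fin 3) 0 = 1 := if_pos rfl
theorem kr0s (j : Fin 2) : kr (0 : Fin 3) j.succ = 0 := if_neg (Fin.succ_ne_zero j).symm
theorem krs0 (j : Fin 2) : kr j.succ (0 : Fin 3) = 0 := if_neg (Fin.succ_ne_zero j)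
theorem krss (i j : Fin 2) : kr i.succ j.succ = kr i j := by simp only [kr, Fin.succ_inj]

theorem fin {l : ℝ} (hl : 0 ≤ l) {B H m : ℂ} {X Y Z : ℝ} (h1 : ‖l * B - m‖ ≤ X)
    (h2 : l * ‖H‖ ≤ Y) (h3 : X + Y ≤ Z) : ‖l * (B - H) - m‖ ≤ Z := by
  have e : l * (B - H) - m = (l * B - m) - l * H := by ring
  rw [e]
  refine (norm_sub_le_of_le h1 ?_).trans h3
  rwa [norm_mul, nr hl]

theorem fin0 {l : ℝ} (hl : 0 ≤ l) {B H : ℂ} {X Y Z : ℝ} (h1 : l * ‖B‖ ≤ X)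
    (h2 : l * ‖H‖ ≤ Y) (h3 : X + Y ≤ Z) : ‖l * (B - H) - (0 : ℝ)‖ ≤ Z :=
  fin hl (by rwa [ofReal_zero, sub_zero, norm_mul, nr hl]) h2 h3

variable {ε ς K r t L υ y V W : ℝ} {k : Fin 2 → ℝ} {g : Fin 3 → Fin 3 → ℂ} {G : Fin 3 → ℝ}
  {M : Fin 2 → ℂ}

theorem c11 (h : Ctx ε ς K r t L υ y V W) (m : Gm ε ς K r t L υ k g G M)
    {c c' b b' : Fin 3 → ℂ} (hc : ∀ j, ∑ i, c i * g i j = b j)
    (hc' : ∀ j, ∑ i, c' i * g i j = b' j) {i l : Fin 2} (p : P1 ε ς υ k M i b)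
    (p' : P1 ε ς υ k M l b') {B : ℂ}
    (hB : ‖B - kr i l * ((1 + (r ^ 2 : ℝ)) / t * k i)‖ ≤ ε) :
    ‖(ς ^ 32 : ℝ) * (B - ∑ i, ∑ j, c i * conj (c' j) * g i j) -
      (ς ^ 32 * k i / t * (r ^ 2 + 1 / (1 + υ * k i)) * kr i l : ℝ)‖ ≤
        11 * ε * (ς ^ 32 * (1 + L)) := by
  have ε0 := h.ε0
  have ς0 := h.ς0
  have L0 := h.L0
  have h1 := H11 h m hc hc' p p'
  have h2 : ς ^ 32 * k i / t * (r ^ 2 + 1 / (1 + υ * k i)) =
      ς ^ 32 * ((1 + r ^ 2) / t * k i - ‖M i‖ ^ 2 * (1 + υ * k i)) := by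
    have h3 := (h.G_pos (m.k1 i)).ne'
    have h4 := h.t0.ne'
    have h5 : 1 / (1 + υ * k i) = 1 - ς ^ 32 * r ^ 2 / t * k i / (1 + υ * k i) := by
      rw [← h.υe]
      field_simp
      ring
    rw [m.nM, h5]
    generalize 1 + υ * k i = G at *
    field_simp
    ring
  have e : (ς ^ 32 : ℝ) * (B - ∑ i, ∑ j, c i * conj (c' j) * g i j) -
      (ς ^ 32 * k i / t * (r ^ 2 + 1 / (1 + υ * k i)) * kr i l : ℝ) =
      (ς ^ 32 : ℝ) * ((B - kr i l * ((1 + (r ^ 2 : ℝ)) / t * k i)) -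
        (∑ i, ∑ j, c i * conj (c' j) * g i j - (kr i l * (‖M i‖ ^ 2 * (1 + υ * k i)) : ℝ))) -
          (0 : ℝ) := by
    rw [h2]
    push_cast
    ring
  rw [e]
  refine fin0 (by positivity) (mul_le_mul_of_nonneg_left hB (by positivity)) h1 ?_
  have : 0 ≤ ε * ς ^ 32 * L := by positivity
  nlinarith

end ErrD

open ErrA ErrB ErrC ErrD in
theorem err : ErrStmt := by
  refine ⟨400, by norm_num, fun ε ς K k a ph lm w ε0 ε1 N hw herm => ?_⟩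
  have h := ctx ε0 ε1 N.ς_pos N.ς_le N.K3_nonneg N.small (norm_nonneg w) hw
  have ς0 := N.ς_pos
  have C : Comp w (‖w‖ ^ 2) (1 - ‖w‖ ^ 2) (-Real.log (1 - ‖w‖ ^ 2)) (ς ^ 16) a ph lm
      (Tot ς w a ph lm) :=
    comp w _ _ _ _ a ph lm h.t0.ne' (by positivity) (by rw [N.lm_o]; push_cast; ring)
  have cf := coef h N rfl rfl rfl
  have hGd : ∀ i, 0 ≤ Gd ς (‖w‖ ^ 2) k i := fun i =>
    Fin.cases zero_le_one (fun j => (h.G_pos (N.k_ge j)).le) i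
  have hG0 : Gd ς (‖w‖ ^ 2) k 0 = 1 := rfl
  have hGs : ∀ j, Gd ς (‖w‖ ^ 2) k (Fin.succ j) = 1 + ups ς (‖w‖ ^ 2) * k j := fun _ => rfl
  have t00 : Real.sqrt (tau ς (‖w‖ ^ 2) k 0 0) = ς ^ 16 := by
    rw [show tau ς (‖w‖ ^ 2) k 0 0 = (ς ^ 16) ^ 2 by rw [← pow_mul]; rfl,
      Real.sqrt_sq (by positivity)]
  have t0s : ∀ j, tau ς (‖w‖ ^ 2) k 0 (Fin.succ j) = ς ^ 32 + ups ς (‖w‖ ^ 2) * k j :=
    fun _ => rfl
  have ts0 : ∀ j, tau ς (‖w‖ ^ 2) k (Fin.succ j) 0 = ς ^ 32 + ups ς (‖w‖ ^ 2) * k j :=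
    fun _ => rfl
  have tss : ∀ i j, tau ς (‖w‖ ^ 2) k (Fin.succ i) (Fin.succ j) = tauh ς (‖w‖ ^ 2) :=
    fun _ _ => rfl
  have m00 : mN ς (‖w‖ ^ 2) k 0 0 = 1 := rfl
  have m0s : ∀ j, mN ς (‖w‖ ^ 2) k 0 (Fin.succ j) = ς ^ 32 * k j / (1 - ‖w‖ ^ 2) *
      (‖w‖ ^ 2 + 1 / (1 + ups ς (‖w‖ ^ 2) * k j)) := fun _ => rfl
  have ms0 : ∀ j, mN ς (‖w‖ ^ 2) k (Fin.succ j) 0 = ς ^ 32 * k j / (1 - ‖w‖ ^ 2) *
      (‖w‖ ^ 2 + 1 / (1 + ups ς (‖w‖ ^ 2) * k j)) := fun _ => rfl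
  have mss : ∀ i j, mN ς (‖w‖ ^ 2) k (Fin.succ i) (Fin.succ j) =
      ‖w‖ ^ 2 * (ς ^ 32 * k i / (1 - ‖w‖ ^ 2)) * (ς ^ 32 * k j / (1 - ‖w‖ ^ 2)) +
        ς ^ 30 * (1 + ups ς (‖w‖ ^ 2)) := fun _ _ => rfl
  generalize Tot ς w a ph lm = T at herm C ⊢
  generalize mN ς (‖w‖ ^ 2) k = mn at *
  generalize tau ς (‖w‖ ^ 2) k = τ at *
  generalize Gd ς (‖w‖ ^ 2) k = G at *
  generalize hW : Real.sqrt (tauh ς (‖w‖ ^ 2)) = W at h
  generalize tauh ς (‖w‖ ^ 2) = τh at *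
  generalize Real.sqrt (ς ^ 32 + ups ς (‖w‖ ^ 2)) = V at h
  generalize Real.sqrt (ups ς (‖w‖ ^ 2)) = y at h
  generalize ups ς (‖w‖ ^ 2) = υ at *
  generalize -Real.log (1 - ‖w‖ ^ 2) = L at *
  generalize 1 - ‖w‖ ^ 2 = t at *
  generalize hr : ‖w‖ = r at *
  have υ0 := h.υ0
  have r0 := h.r0
  have t0 := h.t0
  have V0 := h.V0
  have W0 := h.W0
  have gs0 : ∀ i, ‖T.xz (Fin.succ i) 0‖ ≤ ε * ς * ς ^ 16 * r := fun i => by
    rw [C.gs0]; exact e1 h cf.c1' (N.lm_x i)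
  have g0s : ∀ i, ‖T.xz 0 (Fin.succ i)‖ ≤ ε * ς * ς ^ 16 * r := fun i => by
    rw [C.g0s]; exact e1 h cf.c1 (N.lm_z i)
  have gss : ∀ i j, ‖T.xz (Fin.succ i) (Fin.succ j) - (kr i j * (1 + υ * k i) : ℝ)‖ ≤
      ε * (ς ^ 32 * L) := fun i j => by rw [C.gss]; exact gss_le N cf i j
  have hhf := hf_bound (g := T.xz) ε1 hGd (by
    have h1 : ε * ς * ς ^ 16 * r ≤ ε * 1 := by
      have := h.ς1
      have := h.pw1 16
      have := h.r1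
      calc ε * ς * ς ^ 16 * r ≤ ε * 1 * 1 * 1 := by gcongr
        _ = _ := by ring
    have h2 : ∀ j, ε * 1 ≤ ε * (1 + υ * k j) := fun j => by
      gcongr
      linarith [h.G_ge (N.k_ge j)]
    have h3 : ∀ j, ε * (ς ^ 32 * L) ≤ ε * (1 + υ * k j) := fun j => by
      gcongr
      linarith [h.G_ge (N.k_ge j), h.L1]
    intro i j
    refine Fin.cases ?_ (fun i => ?_) i <;> refine Fin.cases ?_ (fun j => ?_) j
    · rw [C.g00, kr00, hG0]; simp [ε0]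
    · rw [kr0s, zero_mul, ofReal_zero, sub_zero, hG0, hGs]
      exact ⟨(g0s j).trans h1, (g0s j).trans (h1.trans (h2 j))⟩
    · rw [krs0, zero_mul, ofReal_zero, sub_zero, hG0, hGs]
      exact ⟨(gs0 i).trans (h1.trans (h2 i)), (gs0 i).trans h1⟩
    · rw [krss, hGs, hGs]
      exact ⟨(gss i j).trans (h3 i), (gss i j).trans (h3 j)⟩)
  refine ⟨C.g00, hhf, fun c hc => ?_⟩
  obtain ⟨M, hM⟩ : ∃ M : Fin 2 → ℂ, ∀ i,
      M i = (ς ^ 16 : ℝ) * conj w * k i / (t * (1 + υ * k i : ℝ)) := ⟨_, fun _ => rfl⟩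
  have m : Gm ε ς K r t L υ k T.xz G M := by
    refine ⟨N.k_ge, N.k_le, hG0, hGs, fun j => ?_, herm, fun x => (hhf x).1, gs0, gss⟩
    rw [hM, norm_div, norm_mul, norm_mul, norm_mul, norm_conj, hr, nr (by positivity),
      nr (by linarith [N.k_ge j]), nr t0.le, nr (h.G_pos (N.k_ge j)).le]
  have p00 : P0 ε ς r (T.dz 0 0) := ⟨C.b000, fun j => by rw [C.b00s]; exact b00s_le h N cf j⟩
  have p0s : ∀ i, P1 ε ς υ k M i (T.dz 0 (Fin.succ i)) := fun i =>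
    ⟨by rw [C.b0s0]; exact b0s0_le h N cf i, fun j => by
      rw [C.b0ss, hM]; exact b0ss_le h N cf i j⟩
  have ps0 : ∀ i, P1 ε ς υ k M i (T.dz (Fin.succ i) 0) := fun i =>
    ⟨by rw [C.bs00]; exact b0s0_le h N cf i, fun j => by
      rw [C.bs0s, hM]; exact b0ss_le h N cf i j⟩
  have pss : ∀ i j, P2 ε ς K υ (T.dz (Fin.succ i) (Fin.succ j)) := fun i j =>
    ⟨by rw [C.bss0]; exact e2 h cf.c1' (N.lm_d i j), fun l => by
      rw [C.bsss]; exact bsss_le h N cf i j l⟩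
  have hl : 0 ≤ ς ^ 32 := by positivity
  have hV : ∀ j, V ≤ Real.sqrt (ς ^ 32 + υ * k j) := fun j => h.V_le (N.k_ge j)
  have hz : ς ^ 32 * ‖(0 : ℂ)‖ ≤ 0 := by simp
  have n1 : ∀ j, 0 + 2 * ε * ς ^ 16 * Real.sqrt (ς ^ 32 + υ * k j) ≤
      400 * ε * ς ^ 16 * Real.sqrt (ς ^ 32 + υ * k j) := fun j => by
    rw [zero_add]
    gcongr
    norm_num
  have n1' : ∀ j, 0 + 2 * ε * ς ^ 16 * Real.sqrt (ς ^ 32 + υ * k j) ≤
      400 * ε * Real.sqrt (ς ^ 32 + υ * k j) * ς ^ 16 := fun j =>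
    (n1 j).trans (le_of_eq (by ring))
  have n2 : ∀ i j, ς ^ 32 * ε + ε * V * V ≤
      400 * ε * Real.sqrt (ς ^ 32 + υ * k i) * Real.sqrt (ς ^ 32 + υ * k j) := fun i j => by
    have h1 : ς ^ 32 * ε ≤ V ^ 2 * ε := by
      gcongr
      linarith [h.Ve]
    have h2 : 0 ≤ ε * V * V := by positivity
    calc _ ≤ 400 * ε * V * V := by nlinarith
      _ ≤ _ := by gcongr; exacts [hV i, hV j]
  have n3 : ∀ i j, 11 * ε * (ς ^ 32 * (1 + L)) ≤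
      400 * ε * Real.sqrt (ς ^ 32 + υ * k i) * Real.sqrt (ς ^ 32 + υ * k j) := fun i j => by
    have h1 : ς ^ 32 * (1 + L) ≤ V ^ 2 := by linarith [h.Ve, h.L1]
    have h2 : 0 ≤ ε * V * V := by positivity
    calc _ ≤ 11 * ε * V ^ 2 := by gcongr
      _ ≤ 400 * ε * V * V := by nlinarith
      _ ≤ _ := by gcongr; exacts [hV i, hV j]
  have n4 : 11 * ε * (ς ^ 32 * (1 + L)) ≤ 400 * ε * ς ^ 16 * W := by
    have h2 : 0 ≤ ε * ς ^ 16 * W := by positivity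
    calc _ = 11 * ε * ς ^ 16 * (ς ^ 16 * (1 + L)) := by ring
      _ ≤ 11 * ε * ς ^ 16 * (35 * W) := mul_le_mul_of_nonneg_left h.L3 (by positivity)
      _ ≤ _ := by nlinarith
  have n5 : ∀ j, 7 * ε * (V * W) + 20 * ε * (V * W) ≤
      400 * ε * Real.sqrt (ς ^ 32 + υ * k j) * W := fun j => by
    have h2 : 0 ≤ ε * V * W := by positivity
    calc _ ≤ 400 * ε * V * W := by nlinarith
      _ ≤ _ := by gcongr; exact hV j
  have n5' : ∀ j, 7 * ε * (V * W) + 20 * ε * (V * W) ≤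
      400 * ε * W * Real.sqrt (ς ^ 32 + υ * k j) := fun j => (n5 j).trans (le_of_eq (by ring))
  intro i i' j l
  unfold Nten
  refine Fin.cases ?_ (fun i => ?_) i <;> refine Fin.cases ?_ (fun i' => ?_) i' <;>
    refine Fin.cases ?_ (fun j => ?_) j <;> refine Fin.cases ?_ (fun l => ?_) l <;>
    simp only [kr00, kr0s, krs0, krss, t00, t0s, ts0, tss, hW, m00, m0s, ms0, mss, mul_zero,
      zero_mul, add_zero, zero_add, one_mul, mul_one]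
  · refine fin hl (X := 0) (le_of_eq ?_) (H00 h m (hc 0 0) (hc 0 0) p00 p00) ?_
    · have : (ς : ℂ) ≠ 0 := ofReal_ne_zero.2 ς0.ne'
      rw [C.B0000, norm_eq_zero]
      push_cast
      field_simp
      ring
    · rw [zero_add]
      gcongr
      linarith
  · rw [C.B000s]
    exact fin0 hl hz (H01 h m (hc _ _) (hc _ _) p00 (p0s l)) (n1 l)
  · rw [C.B00s0]
    exact fin0 hl hz (H01 h m (hc _ _) (hc _ _) p00 (ps0 j)) (n1' j)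
  · rw [C.B00ss]
    exact fin0 hl (mul_le_mul_of_nonneg_left (e3 h cf.c4 (N.lm_e j l)) hl)
      (H02 h m (hc _ _) (hc _ _) p00 (pss j l)) (n2 j l)
  · rw [C.B0s00]
    exact fin0 hl hz (Hsymm m _ _ ▸ H01 h m (hc _ _) (hc _ _) p00 (p0s i')) (n1 i')
  · refine (c11 h m (hc _ _) (hc _ _) (p0s i') (p0s l) ?_).trans n4
    rw [C.B0s0s]
    exact B0s0s_le h N cf i' l
  · refine (c11 h m (hc _ _) (hc _ _) (p0s i') (ps0 j) ?_).trans (n3 j i')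
    rw [C.B0ss0]
    exact B0s0s_le h N cf i' j
  · rw [C.B0sss]
    exact fin0 hl (B1_le h cf.c6 cf.c8 cf.c1 (cf.p3 _ _ _) (N.lm_z _) (N.lm_z _) (cf.p1 _ _)
      (cf.p1 _ _) (N.lm_xe _ _ _))
      (Hsymm m _ _ ▸ H21 h m (hc _ _) (hc _ _) (pss j l) (p0s i')) (n5 j)
  · rw [C.Bs000]
    exact fin0 hl hz (Hsymm m _ _ ▸ H01 h m (hc _ _) (hc _ _) p00 (ps0 i)) (n1' i)
  · refine (c11 h m (hc _ _) (hc _ _) (ps0 i) (p0s l) ?_).trans (n3 i l)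
    rw [C.Bs00s]
    exact B0s0s_le h N cf i l
  · refine (c11 h m (hc _ _) (hc _ _) (ps0 i) (ps0 j) ?_).trans (n4.trans (le_of_eq (by ring)))
    rw [C.Bs0s0]
    exact B0s0s_le h N cf i j
  · rw [C.Bs0ss]
    exact fin0 hl (B1_le h cf.c6 cf.c8 cf.c1 (cf.p3 _ _ _) (N.lm_z _) (N.lm_z _) (cf.p1 _ _)
      (cf.p1 _ _) (N.lm_xe _ _ _))
      (Hsymm m _ _ ▸ H21 h m (hc _ _) (hc _ _) (pss j l) (ps0 i)) (n5' l)
  · rw [C.Bss00]
    exact fin0 hl (mul_le_mul_of_nonneg_left (e3 h cf.c4' (N.lm_d i i')) hl)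
      (Hsymm m _ _ ▸ H02 h m (hc _ _) (hc _ _) p00 (pss i i')) (n2 i i')
  · rw [C.Bss0s]
    exact fin0 hl (B1_le h cf.c6' cf.c8' cf.c1' (cf.p2 _ _ _) (N.lm_x _) (N.lm_x _) (cf.p1 _ _)
      (cf.p1 _ _) (N.lm_dz _ _ _)) (H21 h m (hc _ _) (hc _ _) (pss i i') (p0s l)) (n5 i)
  · rw [C.Bsss0]
    exact fin0 hl (B1_le h cf.c6' cf.c8' cf.c1' (cf.p2 _ _ _) (N.lm_x _) (N.lm_x _) (cf.p1 _ _)
      (cf.p1 _ _) (N.lm_dz _ _ _)) (H21 h m (hc _ _) (hc _ _) (pss i i') (ps0 j)) (n5' i')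
  · rw [C.Bssss]
    refine fin hl (Bssss_le h N cf rfl i i' j l) (H22 h m (hc _ _) (hc _ _) (pss i i') (pss j l)) ?_
    have h2 : 0 ≤ ε * W * W := by positivity
    nlinarith

end Crest.Agent.R245
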