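import Crest.Agent.R245.Basic

/-! Row 245: linear algebra and real inequalities for the error bounds. -/

set_option autoImplicit false

open Complex
open scoped ComplexConjugate

namespace Crest.Agent.R245.ErrA

theorem cs {n : ℕ} {G : Fin n → ℝ} (hG : ∀ i, 0 < G i) (b x : Fin n → ℂ) {A B : ℝ} (hA : 0 ≤ A)
    (hB : 0 ≤ B) (hb : ∑ j, ‖b j‖ ^ 2 / G j ≤ A ^ 2) (hx : ∑ j, G j * ‖x j‖ ^ 2 ≤ B ^ 2) :
    ‖∑ j, b j * conj (x j)‖ ≤ A * B := by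
  refine (norm_sum_le _ _).trans (abs_le_of_sq_le_sq' ?_ (mul_nonneg hA hB)).2
  have h := Finset.sum_sq_le_sum_mul_sum_of_sq_le_mul Finset.univ
    (r := fun j => ‖b j * conj (x j)‖) (f := fun j => ‖b j‖ ^ 2 / G j)
    (g := fun j => G j * ‖x j‖ ^ 2) (fun j _ => div_nonneg (sq_nonneg _) (hG j).le)
    (fun j _ => mul_nonneg (hG j).le (sq_nonneg _)) (fun j _ => by
      have := (hG j).ne'
      rw [norm_mul, norm_conj]
      refine le_of_eq ?_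
      field_simp)
  refine h.trans ?_
  rw [mul_pow]
  exact mul_le_mul hb hx
    (Finset.sum_nonneg fun j _ => mul_nonneg (hG j).le (sq_nonneg _)) (sq_nonneg _)

theorem H_eq {n : ℕ} (g : Fin n → Fin n → ℂ) (c c' b : Fin n → ℂ)
    (hc : ∀ j, ∑ m, c m * g m j = b j) :
    ∑ m, ∑ r, c m * conj (c' r) * g m r = ∑ r, b r * conj (c' r) := by
  rw [Finset.sum_comm]
  refine Finset.sum_congr rfl fun r _ => ?_
  rw [← hc r, Finset.sum_mul]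
  exact Finset.sum_congr rfl fun m _ => by ring

theorem sol_le {n : ℕ} {g : Fin n → Fin n → ℂ} {G : Fin n → ℝ} (hG : ∀ i, 0 < G i)
    (hlow : ∀ x, (∑ i, G i * ‖x i‖ ^ 2) / 2 ≤ hf g x x) {c b : Fin n → ℂ}
    (hc : ∀ j, ∑ m, c m * g m j = b j) {A : ℝ} (hA : 0 ≤ A) (hb : ∑ j, ‖b j‖ ^ 2 / G j ≤ A ^ 2) :
    ∑ j, G j * ‖c j‖ ^ 2 ≤ (2 * A) ^ 2 := by
  have h0 : 0 ≤ ∑ j, G j * ‖c j‖ ^ 2 :=
    Finset.sum_nonneg fun j _ => mul_nonneg (hG j).le (sq_nonneg _)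
  have h1 := cs hG b c hA (Real.sqrt_nonneg _) hb (Real.sq_sqrt h0).ge
  have h2 : hf g c c = (∑ r, b r * conj (c r)).re := by
    rw [← H_eq g c c b hc, hf]
    congr 1
    exact Finset.sum_congr rfl fun i _ => Finset.sum_congr rfl fun j _ => by ring
  have h3 := (hlow c).trans (h2.le.trans ((re_le_norm _).trans h1))
  have h4 := Real.sq_sqrt h0
  have h5 := Real.sqrt_nonneg (∑ j, G j * ‖c j‖ ^ 2)
  generalize Real.sqrt (∑ j, G j * ‖c j‖ ^ 2) = z at h3 h4 h5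
  rw [← h4] at h3 ⊢
  rcases h5.eq_or_lt with h | h
  · rw [← h]
    nlinarith
  · have : z ≤ 2 * A := by nlinarith
    nlinarith

theorem la {n : ℕ} {g : Fin n → Fin n → ℂ} (herm : ∀ i j, g i j = conj (g j i))
    {G : Fin n → ℝ} (hG : ∀ i, 0 < G i)
    (hlow : ∀ x, (∑ i, G i * ‖x i‖ ^ 2) / 2 ≤ hf g x x) {c c' b b' : Fin n → ℂ}
    (hc : ∀ j, ∑ m, c m * g m j = b j) (hc' : ∀ j, ∑ m, c' m * g m j = b' j) (M M' : ℂ)
    (k l : Fin n) {A A' : ℝ} (hA : 0 ≤ A) (hA' : 0 ≤ A')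
    (hb : ∑ j, ‖b j - M * g k j‖ ^ 2 / G j ≤ A ^ 2)
    (hb' : ∑ j, ‖b' j - M' * g l j‖ ^ 2 / G j ≤ A' ^ 2) :
    ‖∑ m, ∑ r, c m * conj (c' r) * g m r -
      (b l * conj M' + M * conj (b' k) - M * conj M' * g k l)‖ ≤ 2 * A * A' := by
  classical
  have key : ∀ (c b : Fin n → ℂ) (M : ℂ) (k : Fin n), (∀ j, ∑ m, c m * g m j = b j) →
      ∀ j, ∑ m, (c m - if m = k then M else 0) * g m j = b j - M * g k j := by
    intro c b M k hc j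
    simp only [sub_mul, Finset.sum_sub_distrib, hc, ite_mul, zero_mul, Finset.sum_ite_eq',
      Finset.mem_univ, if_true]
  have h1 := sol_le hG hlow (key c' b' M' l hc') hA' hb'
  have h2 := cs hG _ _ hA (by positivity) hb h1
  refine le_trans (le_of_eq ?_) (h2.trans (le_of_eq (by ring)))
  congr 1
  rw [H_eq g c c' b hc]
  have h3 : conj (b' k) = ∑ m, g k m * conj (c' m) := by
    rw [← hc' k, map_sum]
    exact Finset.sum_congr rfl fun m _ => by rw [map_mul, ← herm, mul_comm]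
  simp only [map_sub, mul_sub, sub_mul, Finset.sum_sub_distrib, apply_ite conj, map_zero, mul_ite,
    mul_zero, Finset.sum_ite_eq', Finset.mem_univ, if_true, h3, Finset.mul_sum, mul_assoc]
  ring

theorem hf_bound {g : Fin 3 → Fin 3 → ℂ} {G : Fin 3 → ℝ} {ε : ℝ} (hε : ε ≤ 1 / 100)
    (hG : ∀ i, 0 ≤ G i)
    (h : ∀ i j, ‖g i j - (kr i j * G i : ℝ)‖ ≤ ε * G i ∧ ‖g i j - (kr i j * G i : ℝ)‖ ≤ ε * G j)
    (x : Fin 3 → ℂ) : (∑ i, G i * ‖x i‖ ^ 2) / 2 ≤ hf g x x ∧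
      hf g x x ≤ 2 * ∑ i, G i * ‖x i‖ ^ 2 := by
  have h0 : 0 ≤ ∑ j, G j * ‖x j‖ ^ 2 :=
    Finset.sum_nonneg fun j _ => mul_nonneg (hG j) (sq_nonneg _)
  have h1 : ∑ i, ∑ j, g i j * x i * conj (x j) = (∑ i, G i * ‖x i‖ ^ 2 : ℝ) +
      ∑ i, ∑ j, (g i j - (kr i j * G i : ℝ)) * x i * conj (x j) := by
    simp only [sub_mul, Finset.sum_sub_distrib, kr, ite_mul, one_mul, zero_mul, apply_ite ofReal,
      ofReal_zero, Finset.sum_ite_eq, Finset.mem_univ, if_true, mul_assoc, Complex.mul_conj,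
      Complex.normSq_eq_norm_sq]
    push_cast
    ring
  have h2 : ‖∑ i, ∑ j, (g i j - (kr i j * G i : ℝ)) * x i * conj (x j)‖ ≤
      3 * ε * ∑ i, G i * ‖x i‖ ^ 2 := by
    have h3 : ∀ i j, ‖(g i j - (kr i j * G i : ℝ)) * x i * conj (x j)‖ ≤
        ε * (G i * ‖x i‖ ^ 2 + G j * ‖x j‖ ^ 2) / 2 := by
      intro i j
      rw [norm_mul, norm_mul, norm_conj]
      obtain ⟨h4, h5⟩ := h i j
      have h6 := norm_nonneg (g i j - (kr i j * G i : ℝ))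
      nlinarith [mul_nonneg h6 (sq_nonneg (‖x i‖ - ‖x j‖)),
        mul_le_mul_of_nonneg_right h4 (sq_nonneg ‖x i‖),
        mul_le_mul_of_nonneg_right h5 (sq_nonneg ‖x j‖)]
    refine (norm_sum_le _ _).trans ((Finset.sum_le_sum fun i _ => (norm_sum_le _ _).trans
      (Finset.sum_le_sum fun j _ => h3 i j)).trans (le_of_eq ?_))
    simp only [Fin.sum_univ_three]
    ring
  have h4 := abs_le.1 ((abs_re_le_norm _).trans h2)
  rw [hf, h1, add_re, ofReal_re]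
  constructor <;> nlinarith

/-- the real parameters -/
structure Ctx (ε ς K r t L υ y V W : ℝ) : Prop where
  ε0 : 0 ≤ ε
  ε1 : ε ≤ 1 / 100
  ς0 : 0 < ς
  ς1 : ς ≤ 1
  K0 : 0 ≤ K
  K1 : ς ^ 5 * K ≤ ε
  r0 : 0 ≤ r
  r1 : r ≤ 1
  t0 : 0 < t
  te : t = 1 - r ^ 2
  L0 : 0 ≤ L
  υe : υ = ς ^ 32 * r ^ 2 / t
  L1 : ς ^ 32 * L ≤ υ
  L2 : ς ^ 32 * L ^ 2 ≤ 4 * υ
  L3 : ς ^ 16 * (1 + L) ≤ 35 * W
  y0 : 0 ≤ y
  ye : y ^ 2 = υ
  V0 : 0 ≤ V
  Ve : V ^ 2 = ς ^ 32 + υ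
  W0 : 0 ≤ W
  We : W ^ 2 = ς ^ 30 * (1 + υ) + ς ^ 20 * υ

theorem ctx {ε ς K r : ℝ} (ε0 : 0 ≤ ε) (ε1 : ε ≤ 1 / 100) (ς0 : 0 < ς) (ς1 : ς ≤ 1) (K0 : 0 ≤ K)
    (hK : ς ^ 10 * K * (1 + K) ≤ ε ^ 2) (r0 : 0 ≤ r) (r1 : r < 1) :
    Ctx ε ς K r (1 - r ^ 2) (-Real.log (1 - r ^ 2)) (ups ς (r ^ 2)) (Real.sqrt (ups ς (r ^ 2)))
      (Real.sqrt (ς ^ 32 + ups ς (r ^ 2))) (Real.sqrt (tauh ς (r ^ 2))) := by
  have t0 : 0 < 1 - r ^ 2 := by nlinarith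
  have t1 : 1 - r ^ 2 ≤ 1 := by nlinarith
  have υ0 : 0 ≤ ups ς (r ^ 2) := by unfold ups; positivity
  have hlog : ∀ x : ℝ, 0 < x → -Real.log x ≤ 1 / x - 1 := fun x hx => by
    have := Real.log_le_sub_one_of_pos (one_div_pos.2 hx)
    rwa [one_div, Real.log_inv, ← one_div] at this
  have L0 : 0 ≤ -Real.log (1 - r ^ 2) := neg_nonneg.2 (Real.log_nonpos t0.le t1)
  have hl : (0 : ℝ) < ς ^ 32 := by positivity
  refine ⟨ε0, ε1, ς0, ς1, K0, ?_, r0, r1.le, t0, rfl, L0, rfl, ?_, ?_, ?_, Real.sqrt_nonneg _,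
    Real.sq_sqrt υ0, Real.sqrt_nonneg _, Real.sq_sqrt (by positivity), Real.sqrt_nonneg _,
    Real.sq_sqrt (by unfold tauh; positivity)⟩
  · refine abs_le_of_sq_le_sq' ?_ ε0 |>.2
    have : 0 ≤ ς ^ 10 * K := by positivity
    nlinarith
  · have h1 := hlog _ t0
    have h2 : 1 / (1 - r ^ 2) - 1 = r ^ 2 / (1 - r ^ 2) := by field_simp; ring
    rw [ups, mul_div_assoc, ← h2]
    gcongr
  · obtain ⟨q, q0, hq⟩ : ∃ q : ℝ, 0 < q ∧ q ^ 2 = 1 - r ^ 2 :=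
      ⟨Real.sqrt _, Real.sqrt_pos.2 t0, Real.sq_sqrt t0.le⟩
    have h1 := hlog q q0
    have q1 : q ≤ 1 := by nlinarith
    have h2 : -Real.log (1 - r ^ 2) ≤ 2 * r / q := by
      rw [← hq, Real.log_pow]
      have h3 : 1 / q - 1 ≤ r / q := by
        rw [div_sub_one q0.ne']
        gcongr
        nlinarith
      push_cast
      rw [mul_div_assoc]
      linarith
    have h3 : (-Real.log (1 - r ^ 2)) ^ 2 ≤ (2 * r / q) ^ 2 := by gcongr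
    have h4 : ς ^ 32 * (2 * r / q) ^ 2 = 4 * ups ς (r ^ 2) := by
      rw [ups, ← hq]
      field_simp
      ring
    rw [← h4]
    gcongr
  · obtain ⟨z, z0, hz⟩ : ∃ z : ℝ, 0 < z ∧ z ^ 2 = 1 + ups ς (r ^ 2) :=
      ⟨Real.sqrt _, Real.sqrt_pos.2 (by positivity), Real.sq_sqrt (by positivity)⟩
    have z1 : 1 ≤ z := by nlinarith
    have h1 : ς ^ 15 * z ≤ Real.sqrt (tauh ς (r ^ 2)) := by
      refine Real.le_sqrt_of_sq_le ?_
      rw [mul_pow, hz, tauh]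
      have : 0 ≤ ς ^ 20 * ups ς (r ^ 2) := by positivity
      linarith
    have h2 : ς ^ 32 / z ^ 2 ≤ 1 - r ^ 2 := by
      rw [div_le_iff₀ (by positivity), hz, ups, mul_add, mul_div_cancel₀ _ t0.ne']
      have : ς ^ 32 ≤ 1 := pow_le_one₀ ς0.le ς1
      nlinarith
    have h3 := Real.log_le_log (by positivity) h2
    rw [Real.log_div hl.ne' (by positivity), Real.log_pow, Real.log_pow] at h3
    have h4 := hlog ς ς0
    have h5 := Real.log_le_sub_one_of_pos z0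
    push_cast at h3
    have h6 : -Real.log (1 - r ^ 2) ≤ 32 / ς + 2 * z := by
      have : 32 / ς = 32 * (1 / ς) := by ring
      linarith
    have h7 : ς * (1 + -Real.log (1 - r ^ 2)) ≤ 35 * z := by
      have h8 : ς * -Real.log (1 - r ^ 2) ≤ ς * (32 / ς + 2 * z) := by gcongr
      rw [mul_add, mul_div_cancel₀ _ ς0.ne'] at h8
      nlinarith
    calc _ = ς ^ 15 * (ς * (1 + -Real.log (1 - r ^ 2))) := by ring
      _ ≤ ς ^ 15 * (35 * z) := by gcongr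
      _ = 35 * (ς ^ 15 * z) := by ring
      _ ≤ _ := by gcongr

namespace Ctx

variable {ε ς K r t L υ y V W : ℝ} (h : Ctx ε ς K r t L υ y V W)
include h

theorem pw {a b : ℕ} (hab : a ≤ b) : ς ^ b ≤ ς ^ a := pow_le_pow_of_le_one h.ς0.le h.ς1 hab

theorem pw1 (a : ℕ) : ς ^ a ≤ 1 := pow_le_one₀ h.ς0.le h.ς1

theorem υ0 : 0 ≤ υ := h.ye ▸ sq_nonneg y

theorem k5 {k : ℝ} (hk : k ≤ 1 + K) : ς ^ 5 * k ≤ 2 := by
  have h1 : ς ^ 5 * k ≤ ς ^ 5 * (1 + K) := by have := h.ς0; gcongr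
  linarith [h.pw1 5, h.K1, h.ε1]

theorem lam_t : ς ^ 32 / t = V ^ 2 := by
  have := h.t0.ne'
  rw [h.Ve, h.υe]
  field_simp
  rw [h.te]
  ring

theorem yV : ς ^ 32 * r / t = y * V := by
  have := h.t0
  have := h.ς0
  have := h.r0
  refine (pow_left_inj₀ (by positivity) (mul_nonneg h.y0 h.V0) two_ne_zero).1 ?_
  rw [mul_pow y, h.ye, ← h.lam_t, h.υe]
  field_simp

theorem uV : ς ^ 16 ≤ V := by
  refine abs_le_of_sq_le_sq' ?_ h.V0 |>.2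
  rw [h.Ve]
  linarith [h.υ0]

theorem yV' : y ≤ V := by
  refine abs_le_of_sq_le_sq' ?_ h.V0 |>.2
  rw [h.Ve, h.ye]
  have := h.ς0
  have : 0 < ς ^ 32 := by positivity
  linarith

theorem W1 : ς ^ 10 * y ≤ W := by
  refine abs_le_of_sq_le_sq' ?_ h.W0 |>.2
  rw [h.We, mul_pow, h.ye]
  have := h.ς0
  have := h.υ0
  have : 0 ≤ ς ^ 30 * (1 + υ) := by positivity
  linarith

theorem W2 : ς ^ 15 ≤ W := by
  refine abs_le_of_sq_le_sq' ?_ h.W0 |>.2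
  rw [h.We]
  have := h.ς0
  have := h.υ0
  have : 0 ≤ ς ^ 30 * υ + ς ^ 20 * υ := by positivity
  linarith

theorem uW : ς * ς ^ 16 * W ≤ V ^ 2 := by
  refine abs_le_of_sq_le_sq' ?_ (sq_nonneg V) |>.2
  rw [mul_pow, h.We, h.Ve]
  have h0 := h.ς0
  have h1 := h.υ0
  have h2 : ς ^ 64 * υ ≤ ς ^ 32 * υ := mul_le_mul_of_nonneg_right (h.pw (by norm_num)) h1
  have h3 : ς ^ 54 * υ ≤ ς ^ 32 * υ := mul_le_mul_of_nonneg_right (h.pw (by norm_num)) h1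
  nlinarith [sq_nonneg υ]

theorem G_ge {k : ℝ} (k1 : 1 ≤ k) : 1 + υ ≤ 1 + υ * k := by nlinarith [h.υ0]

theorem G_pos {k : ℝ} (k1 : 1 ≤ k) : 0 < 1 + υ * k := by linarith [h.G_ge k1, h.υ0]

theorem M0 {k : ℝ} (k1 : 1 ≤ k) : 0 ≤ ς ^ 16 * r * k / (t * (1 + υ * k)) := by
  have := h.ς0
  have := h.r0
  have := h.t0
  have := h.G_pos k1
  positivity

theorem Me {k : ℝ} (k1 : 1 ≤ k) :
    ς ^ 16 * (ς ^ 16 * r * k / (t * (1 + υ * k))) * r = υ * k / (1 + υ * k) := by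
  have := h.t0.ne'
  have := (h.G_pos k1).ne'
  generalize 1 + υ * k = G at *
  rw [h.υe]
  field_simp

theorem M1 {k : ℝ} (k1 : 1 ≤ k) : ς ^ 16 * (ς ^ 16 * r * k / (t * (1 + υ * k))) * r ≤ 1 := by
  rw [h.Me k1, div_le_one (h.G_pos k1)]
  linarith

theorem M2 {k : ℝ} (k1 : 1 ≤ k) (k2 : k ≤ 1 + K) :
    ς ^ 16 * (ς ^ 16 * r * k / (t * (1 + υ * k))) ≤ 3 := by
  have h1 := h.G_pos k1
  have h2 : ς ^ 16 * (ς ^ 16 * r * k / (t * (1 + υ * k))) = r * (ς ^ 32 / t * k) / (1 + υ * k) := by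
    have := h.t0.ne'
    field_simp
  rw [h2, h.lam_t, h.Ve, div_le_iff₀ h1]
  have h3 : ς ^ 32 * k ≤ ς ^ 5 * k := mul_le_mul_of_nonneg_right (h.pw (by norm_num)) (by linarith)
  have h4 := h.k5 k2
  have h5 : 0 ≤ υ * k := mul_nonneg h.υ0 (by linarith)
  have h6 : 0 ≤ (ς ^ 32 + υ) * k := by
    have := h.ς0
    have := h.υ0
    have : 0 ≤ k := by linarith
    positivity
  have h7 := mul_le_mul_of_nonneg_right h.r1 h6
  nlinarith

theorem M3 {k : ℝ} (k1 : 1 ≤ k) :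
    ς ^ 32 * (ς ^ 16 * r * k / (t * (1 + υ * k))) * (1 + υ) ≤ ς ^ 16 * k * (y * V) := by
  have h1 := h.G_pos k1
  have h2 : ς ^ 32 * (ς ^ 16 * r * k / (t * (1 + υ * k))) * (1 + υ * k) =
      ς ^ 16 * k * (y * V) := by
    have := h.t0.ne'
    have := h1.ne'
    rw [← h.yV]
    generalize 1 + υ * k = G at *
    field_simp
  rw [← h2]
  have := h.ς0
  have := h.M0 k1
  have := h.G_ge k1
  gcongr

theorem M4 {k : ℝ} (k1 : 1 ≤ k) : ς ^ 16 * (ς ^ 16 * r * k / (t * (1 + υ * k))) * r ≤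
    Real.sqrt (ς ^ 32 + υ * k) := by
  refine Real.le_sqrt_of_sq_le ?_
  have h1 := h.M1 k1
  have h5 : 0 ≤ υ * k := mul_nonneg h.υ0 (by linarith)
  rw [h.Me k1] at h1 ⊢
  have h2 : υ * k / (1 + υ * k) ≤ υ * k := div_le_self h5 (by linarith)
  have h3 : 0 ≤ υ * k / (1 + υ * k) := by positivity
  have := h.ς0
  have : 0 < ς ^ 32 := by positivity
  nlinarith

theorem V_le {k : ℝ} (k1 : 1 ≤ k) : V ≤ Real.sqrt (ς ^ 32 + υ * k) := by
  refine Real.le_sqrt_of_sq_le ?_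
  rw [h.Ve]
  linarith [h.G_ge k1]

end Ctx

end Crest.Agent.R245.ErrA
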