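import Crest.Agent.R245.ErrA

/-! Row 245: the components of the array of the potential. -/

set_option autoImplicit false

open Complex
open scoped ComplexConjugate

namespace Crest.Agent.R245.ErrB

/-- explicit formulas for the components -/
structure Comp (w : ℂ) (s t L u : ℝ) (a ph lm : Arr 2) (T : Arr 3) : Prop where
  g00 : T.xz 0 0 = 1
  g0s : ∀ j, T.xz 0 (Fin.succ j) = conj w / u * lm.z j
  gs0 : ∀ i, T.xz (Fin.succ i) 0 = w / u * lm.x i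
  gss : ∀ i j, T.xz (Fin.succ i) (Fin.succ j) =
    a.xz i j + u ^ 2 * s / t * ph.xz i j + L * lm.xz i j
  b000 : T.dz 0 0 0 = 0
  b00s : ∀ j, T.dz 0 0 (Fin.succ j) = -(conj w / u) ^ 2 * lm.z j
  b0s0 : ∀ k, T.dz 0 (Fin.succ k) 0 = 1 / u ^ 2 * lm.x k
  bs00 : ∀ k, T.dz (Fin.succ k) 0 0 = 1 / u ^ 2 * lm.x k
  b0ss : ∀ k j, T.dz 0 (Fin.succ k) (Fin.succ j) =
    u * conj w / t * ph.xz k j + conj w / u * lm.xz k j
  bs0s : ∀ k j, T.dz (Fin.succ k) 0 (Fin.succ j) =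
    u * conj w / t * ph.xz k j + conj w / u * lm.xz k j
  bss0 : ∀ i k, T.dz (Fin.succ i) (Fin.succ k) 0 = w / u * lm.d i k
  bsss : ∀ i k j, T.dz (Fin.succ i) (Fin.succ k) (Fin.succ j) =
    a.dz i k j + u ^ 2 * s / t * ph.dz i k j + s / t * lm.x i * ph.xz k j +
      s / t * lm.x k * ph.xz i j + L * lm.dz i k j
  B0000 : T.de 0 0 0 0 = 2 / u ^ 2
  B000s : ∀ l, T.de 0 0 0 (Fin.succ l) = 0
  B00s0 : ∀ l, T.de 0 0 (Fin.succ l) 0 = 0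
  B0s00 : ∀ l, T.de 0 (Fin.succ l) 0 0 = 0
  Bs000 : ∀ l, T.de (Fin.succ l) 0 0 0 = 0
  B00ss : ∀ j l, T.de 0 0 (Fin.succ j) (Fin.succ l) = -(conj w / u) ^ 2 * lm.e j l
  Bss00 : ∀ i k, T.de (Fin.succ i) (Fin.succ k) 0 0 = -(w / u) ^ 2 * lm.d i k
  B0s0s : ∀ k l, T.de 0 (Fin.succ k) 0 (Fin.succ l) =
    (1 + s) / t * ph.xz k l + 1 / u ^ 2 * lm.xz k l
  B0ss0 : ∀ k l, T.de 0 (Fin.succ k) (Fin.succ l) 0 =
    (1 + s) / t * ph.xz k l + 1 / u ^ 2 * lm.xz k l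
  Bs00s : ∀ k l, T.de (Fin.succ k) 0 0 (Fin.succ l) =
    (1 + s) / t * ph.xz k l + 1 / u ^ 2 * lm.xz k l
  Bs0s0 : ∀ k l, T.de (Fin.succ k) 0 (Fin.succ l) 0 =
    (1 + s) / t * ph.xz k l + 1 / u ^ 2 * lm.xz k l
  B0sss : ∀ k j l, T.de 0 (Fin.succ k) (Fin.succ j) (Fin.succ l) =
    u * conj w / t * ph.xe k j l + conj w / (t * u) * lm.z j * ph.xz k l +
      conj w / (t * u) * lm.z l * ph.xz k j + conj w / u * lm.xe k j l
  Bs0ss : ∀ k j l, T.de (Fin.succ k) 0 (Fin.succ j) (Fin.succ l) =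
    u * conj w / t * ph.xe k j l + conj w / (t * u) * lm.z j * ph.xz k l +
      conj w / (t * u) * lm.z l * ph.xz k j + conj w / u * lm.xe k j l
  Bss0s : ∀ i k l, T.de (Fin.succ i) (Fin.succ k) 0 (Fin.succ l) =
    u * w / t * ph.dz i k l + w / (t * u) * lm.x i * ph.xz k l +
      w / (t * u) * lm.x k * ph.xz i l + w / u * lm.dz i k l
  Bsss0 : ∀ i k l, T.de (Fin.succ i) (Fin.succ k) (Fin.succ l) 0 =
    u * w / t * ph.dz i k l + w / (t * u) * lm.x i * ph.xz k l +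
      w / (t * u) * lm.x k * ph.xz i l + w / u * lm.dz i k l
  Bssss : ∀ i k j l, T.de (Fin.succ i) (Fin.succ k) (Fin.succ j) (Fin.succ l) =
    a.de i k j l + u ^ 2 * s / t * ph.de i k j l +
      u ^ 2 * s / t ^ 2 * (ph.xz i j * ph.xz k l + ph.xz i l * ph.xz k j) +
      (s / t * lm.x i * ph.xe k j l + s / t * lm.x k * ph.xe i j l +
        s / t * lm.z j * ph.dz i k l + s / t * lm.z l * ph.dz i k j) +
      (s / t * lm.xz i j * ph.xz k l + s / t * lm.xz i l * ph.xz k j +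
        s / t * lm.xz k j * ph.xz i l + s / t * lm.xz k l * ph.xz i j) + L * lm.de i k j l

theorem comp (w : ℂ) (s t L u : ℝ) (a ph lm : Arr 2) (ht : t ≠ 0) (hu : u ≠ 0)
    (ho : lm.o = u ^ 2) :
    Comp w s t L u a ph lm (a.pad.add (lm.pad.mul (Larr w s t L (Fin.cons (t / u) 0) ph.pad))) := by
  have ht' : (t : ℂ) ≠ 0 := ofReal_ne_zero.2 ht
  have hu' : (u : ℂ) ≠ 0 := ofReal_ne_zero.2 hu
  constructor <;> intros <;>
    simp only [Arr.add, Arr.mul, Arr.pad, Larr, ho, pad1_zero, pad1_succ, pad2_zero, pad2_succ,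
      pad3_zero, pad3_succ, pad4_zero, pad4_succ, Fin.cons_zero, Fin.cons_succ, Pi.zero_apply,
      ofReal_zero, ofReal_div, mul_zero, zero_mul, add_zero, zero_add, zero_div, neg_zero] <;>
    field_simp <;> ring

open ErrA

theorem nm {x y : ℂ} {X Y : ℝ} (hx : ‖x‖ ≤ X) (hy : ‖y‖ ≤ Y) : ‖x * y‖ ≤ X * Y :=
  norm_mul_le_of_le hx hy

theorem na {x y : ℂ} {X Y : ℝ} (hx : ‖x‖ ≤ X) (hy : ‖y‖ ≤ Y) : ‖x + y‖ ≤ X + Y :=
  norm_add_le_of_le hx hy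

theorem nr {x : ℝ} (hx : 0 ≤ x) : ‖(x : ℂ)‖ = x := by rw [norm_real, Real.norm_of_nonneg hx]

theorem kr_le {n : ℕ} (i j : Fin n) : ‖(kr i j : ℂ)‖ ≤ 1 := by
  unfold kr
  split_ifs <;> simp

/-- norms of the coefficients -/
structure Coef (ε ς K r t L υ : ℝ) (w : ℂ) (s u : ℝ) (ph : Arr 2) : Prop where
  c1 : ‖conj w / u‖ ≤ r / ς ^ 16
  c1' : ‖w / u‖ ≤ r / ς ^ 16
  c2 : (u ^ 2 * s / t : ℂ) = υ
  c3 : ‖(L : ℂ)‖ ≤ L
  c4 : ‖-(conj w / u) ^ 2‖ ≤ (r / ς ^ 16) ^ 2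
  c4' : ‖-(w / u) ^ 2‖ ≤ (r / ς ^ 16) ^ 2
  c5 : ‖(1 / u ^ 2 : ℂ)‖ ≤ 1 / ς ^ 32
  c6 : ‖u * conj w / t‖ ≤ ς ^ 16 * r / t
  c6' : ‖u * w / t‖ ≤ ς ^ 16 * r / t
  c7 : ‖(s / t : ℂ)‖ ≤ υ / ς ^ 32
  c8 : ‖conj w / (t * u)‖ ≤ r / (t * ς ^ 16)
  c8' : ‖w / (t * u)‖ ≤ r / (t * ς ^ 16)
  c9 : ‖(u ^ 2 : ℂ)‖ = ς ^ 32
  p1 : ∀ i j, ‖ph.xz i j‖ ≤ 1 + K
  p2 : ∀ i m j, ‖ph.dz i m j‖ ≤ ε / ς + K
  p3 : ∀ i m j, ‖ph.xe i m j‖ ≤ ε / ς + K

variable {ε ς K r t L υ y V W : ℝ} {k : Fin 2 → ℝ} {a ph lm : Arr 2} {w : ℂ} {s u : ℝ}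

theorem coef (h : Ctx ε ς K r t L υ y V W) (N : NumHyp ε ς K k a ph lm) (hr : ‖w‖ = r)
    (hs : s = r ^ 2) (hu : u = ς ^ 16) : Coef ε ς K r t L υ w s u ph := by
  have ς0 := h.ς0
  have t0 := h.t0
  have nu : ‖(u : ℂ)‖ = ς ^ 16 := by rw [nr (by rw [hu]; positivity), hu]
  have nt : ‖(t : ℂ)‖ = t := nr t0.le
  have ns : ‖(s : ℂ)‖ = r ^ 2 := by rw [nr (by rw [hs]; positivity), hs]
  refine ⟨?_, ?_, ?_, (nr h.L0).le, ?_, ?_, ?_, ?_, ?_, ?_, ?_, ?_, ?_, fun i j => ?_,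
    fun i m j => ?_, fun i m j => ?_⟩
  · rw [norm_div, norm_conj, nu, hr]
  · rw [norm_div, nu, hr]
  · rw [h.υe, hs, hu]
    push_cast
    ring
  · rw [norm_neg, norm_pow, norm_div, norm_conj, nu, hr]
  · rw [norm_neg, norm_pow, norm_div, nu, hr]
  · rw [norm_div, norm_pow, nu, norm_one, ← pow_mul]
  · rw [norm_div, norm_mul, norm_conj, nu, hr, nt]
  · rw [norm_div, norm_mul, nu, hr, nt]
  · rw [norm_div, ns, nt, h.υe]
    refine le_of_eq ?_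
    field_simp
  · rw [norm_div, norm_mul, norm_conj, nu, hr, nt]
  · rw [norm_div, norm_mul, nu, hr, nt]
  · rw [norm_pow, nu, ← pow_mul]
  · rw [N.ph_xz, ofReal_mul]
    refine (nm (kr_le i j) ((nr (by linarith [N.k_ge i])).le.trans (N.k_le i))).trans ?_
    rw [one_mul]
  · have := na (N.a_dz i m j) (N.ph_dz i m j)
    rwa [add_sub_cancel] at this
  · have := na (N.a_xe i m j) (N.ph_xe i m j)
    rwa [add_sub_cancel] at this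

section bounds

variable (h : Ctx ε ς K r t L υ y V W) (N : NumHyp ε ς K k a ph lm)
  (c : Coef ε ς K r t L υ w s u ph)
include h c

omit c in
theorem e1 {x z : ℂ} (hx : ‖x‖ ≤ r / ς ^ 16) (hz : ‖z‖ ≤ ε * ς ^ 33) :
    ‖x * z‖ ≤ ε * ς * ς ^ 16 * r := by
  have := h.ς0.ne'
  refine (nm hx hz).trans (le_of_eq ?_)
  field_simp

omit c in
theorem e2 {x z : ℂ} (hx : ‖x‖ ≤ r / ς ^ 16) (hz : ‖z‖ ≤ ε * ς ^ 32) :
    ‖x * z‖ ≤ ε * ς ^ 16 := by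
  have := h.ς0
  have := h.ε0
  calc _ ≤ _ := nm hx hz
    _ = ε * ς ^ 16 * r := by field_simp
    _ ≤ ε * ς ^ 16 * 1 := by gcongr; exact h.r1
    _ = _ := mul_one _

omit c in
theorem e3 {x z : ℂ} (hx : ‖x‖ ≤ (r / ς ^ 16) ^ 2) (hz : ‖z‖ ≤ ε * ς ^ 32) : ‖x * z‖ ≤ ε := by
  have := h.ς0
  have := h.ε0
  have := h.r0
  calc _ ≤ _ := nm hx hz
    _ = ε * r ^ 2 := by field_simp
    _ ≤ ε * 1 ^ 2 := by gcongr; exact h.r1
    _ = _ := by ring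

include N

omit h in
theorem gss_le (i j : Fin 2) : ‖a.xz i j + u ^ 2 * s / t * ph.xz i j + L * lm.xz i j -
    (kr i j * (1 + υ * k i) : ℝ)‖ ≤ ε * (ς ^ 32 * L) := by
  have e : a.xz i j + u ^ 2 * s / t * ph.xz i j + L * lm.xz i j -
      (kr i j * (1 + υ * k i) : ℝ) = L * lm.xz i j := by
    rw [N.a_xz, N.ph_xz, c.c2]
    push_cast
    ring
  rw [e]
  exact (nm c.c3 (N.lm_xz i j)).trans (le_of_eq (by ring))

theorem b00s_le (j : Fin 2) : ‖-(conj w / u) ^ 2 * lm.z j‖ ≤ ε * ς * r ^ 2 := by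
  have := h.ς0.ne'
  refine (nm c.c4 (N.lm_z j)).trans (le_of_eq ?_)
  field_simp

theorem b0s0_le (j : Fin 2) : ‖1 / u ^ 2 * lm.x j‖ ≤ ε * ς := by
  have := h.ς0.ne'
  refine (nm c.c5 (N.lm_x j)).trans (le_of_eq ?_)
  field_simp

theorem b0ss_le (i j : Fin 2) : ‖u * conj w / t * ph.xz i j + conj w / u * lm.xz i j -
    kr i j * (u * conj w * k i / (t * (1 + υ * k i : ℝ)) * (1 + υ * k i : ℝ))‖ ≤ ε * ς ^ 16 := by
  have h1 : ((1 + υ * k i : ℝ) : ℂ) ≠ 0 := ofReal_ne_zero.2 (h.G_pos (N.k_ge i)).ne'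
  have e : u * conj w / t * ph.xz i j + conj w / u * lm.xz i j -
      kr i j * (u * conj w * k i / (t * (1 + υ * k i : ℝ)) * (1 + υ * k i : ℝ)) =
      conj w / u * lm.xz i j := by
    rw [N.ph_xz, ← div_div, div_mul_cancel₀ _ h1]
    push_cast
    ring
  rw [e]
  exact e2 h c.c1 (N.lm_xz i j)

theorem bsss_le (i m j : Fin 2) : ‖a.dz i m j + u ^ 2 * s / t * ph.dz i m j +
    s / t * lm.x i * ph.xz m j + s / t * lm.x m * ph.xz i j + L * lm.dz i m j‖ ≤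
      4 * ε * (1 + υ) / ς + 3 * υ * K := by
  have ς0 := h.ς0
  have ε0 := h.ε0
  have υ0 := h.υ0
  have K0 := h.K0
  rw [c.c2]
  refine (na (na (na (na (N.a_dz i m j) (nm (nr υ0).le (c.p2 i m j)))
    (nm (nm c.c7 (N.lm_x i)) (c.p1 m j))) (nm (nm c.c7 (N.lm_x m)) (c.p1 i j)))
    (nm c.c3 (N.lm_dz i m j))).trans ?_
  have h1 : υ / ς ^ 32 * (ε * ς ^ 33) * (1 + K) ≤ ε * υ / ς + υ * K := by
    have h2 : ε * ς ≤ 1 := by nlinarith [h.ε1, h.ς1]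
    calc _ = ε * υ / ς * ς ^ 2 + υ * K * (ε * ς) := by field_simp
      _ ≤ ε * υ / ς * 1 + υ * K * 1 := by gcongr; exact h.pw1 2
      _ = _ := by ring
  have h2 : L * (ε * ς ^ 31) ≤ ε * υ / ς := by
    calc _ = ε * (ς ^ 32 * L) / ς := by field_simp
      _ ≤ _ := by gcongr; exact h.L1
  have h3 : 0 ≤ ε / ς := by positivity
  have h4 : 4 * ε * (1 + υ) / ς = 4 * (ε / ς) + 4 * (ε * υ / ς) := by ring
  have h5 : υ * (ε / ς + K) = ε * υ / ς + υ * K := by ring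
  linarith

theorem B0s0s_le (i j : Fin 2) : ‖(1 + s) / t * ph.xz i j + 1 / u ^ 2 * lm.xz i j -
    kr i j * ((1 + s) / t * k i)‖ ≤ ε := by
  have e : (1 + s) / t * ph.xz i j + 1 / u ^ 2 * lm.xz i j - kr i j * ((1 + s) / t * k i) =
      1 / u ^ 2 * lm.xz i j := by
    rw [N.ph_xz]
    push_cast
    ring
  have := h.ς0.ne'
  rw [e]
  refine (nm c.c5 (N.lm_xz i j)).trans (le_of_eq ?_)
  field_simp

omit N c in
theorem B1_le {x1 x2 x3 p z1 z2 q1 q2 l : ℂ} (h1 : ‖x1‖ ≤ ς ^ 16 * r / t)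
    (h2 : ‖x2‖ ≤ r / (t * ς ^ 16)) (h3 : ‖x3‖ ≤ r / ς ^ 16) (hp : ‖p‖ ≤ ε / ς + K)
    (hz1 : ‖z1‖ ≤ ε * ς ^ 33) (hz2 : ‖z2‖ ≤ ε * ς ^ 33) (hq1 : ‖q1‖ ≤ 1 + K) (hq2 : ‖q2‖ ≤ 1 + K)
    (hl : ‖l‖ ≤ ε * ς ^ 31) :
    ς ^ 32 * ‖x1 * p + x2 * z1 * q1 + x2 * z2 * q2 + x3 * l‖ ≤ 7 * ε * (V * W) := by
  have ς0 := h.ς0
  have ε0 := h.ε0
  have t0 := h.t0
  have K0 := h.K0
  have y0 := h.y0
  have V0 := h.V0
  have W0 := h.W0
  have r0 := h.r0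
  have h4 := na (na (na (nm h1 hp) (nm (nm h2 hz1) hq1)) (nm (nm h2 hz2) hq2)) (nm h3 hl)
  refine (mul_le_mul_of_nonneg_left h4 (by positivity)).trans ?_
  have e : ς ^ 32 * (ς ^ 16 * r / t * (ε / ς + K) + r / (t * ς ^ 16) * (ε * ς ^ 33) * (1 + K) +
      r / (t * ς ^ 16) * (ε * ς ^ 33) * (1 + K) + r / ς ^ 16 * (ε * ς ^ 31)) =
      (ς ^ 5 * ε + ς * (ς ^ 5 * K) + 2 * ε * ς ^ 2 * (ς ^ 5 * (1 + K))) *
        (ς ^ 10 * (ς ^ 32 * r / t)) + ε * ς ^ 16 * r * (ς ^ 16 * ς ^ 15) := by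
    field_simp
    ring
  rw [e, h.yV]
  calc _ ≤ (1 * ε + 1 * ε + 2 * ε * 1 * 2) * (ς ^ 10 * (y * V)) + ε * 1 * 1 * (V * W) := by
        gcongr
        exacts [h.pw1 5, h.ς1, h.K1, h.pw1 2, h.k5 le_rfl, h.pw1 16, h.r1, h.uV, h.W2]
    _ = 6 * ε * (V * (ς ^ 10 * y)) + ε * (V * W) := by ring
    _ ≤ 6 * ε * (V * W) + ε * (V * W) := by gcongr; exact h.W1
    _ = _ := by ring

theorem Bssss_le (hu : u = ς ^ 16) (i m j l : Fin 2) :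
    ‖(ς ^ 32 : ℝ) * (a.de i m j l + u ^ 2 * s / t * ph.de i m j l +
      u ^ 2 * s / t ^ 2 * (ph.xz i j * ph.xz m l + ph.xz i l * ph.xz m j) +
      (s / t * lm.x i * ph.xe m j l + s / t * lm.x m * ph.xe i j l +
        s / t * lm.z j * ph.dz i m l + s / t * lm.z l * ph.dz i m j) +
      (s / t * lm.xz i j * ph.xz m l + s / t * lm.xz i l * ph.xz m j +
        s / t * lm.xz m j * ph.xz i l + s / t * lm.xz m l * ph.xz i j) + L * lm.de i m j l) -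
      ((s * (ς ^ 32 * k i / t) * (ς ^ 32 * k m / t) + ς ^ 30 * (1 + υ)) *
        (kr i j * kr m l + kr i l * kr m j) : ℝ)‖ ≤ 20 * ε * W ^ 2 := by
  have ς0 := h.ς0
  have ε0 := h.ε0
  have υ0 := h.υ0
  have K0 := h.K0
  have L0 := h.L0
  have hς : (ς : ℂ) ≠ 0 := ofReal_ne_zero.2 ς0.ne'
  have e : (ς ^ 32 : ℝ) * (a.de i m j l + u ^ 2 * s / t * ph.de i m j l +
      u ^ 2 * s / t ^ 2 * (ph.xz i j * ph.xz m l + ph.xz i l * ph.xz m j) +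
      (s / t * lm.x i * ph.xe m j l + s / t * lm.x m * ph.xe i j l +
        s / t * lm.z j * ph.dz i m l + s / t * lm.z l * ph.dz i m j) +
      (s / t * lm.xz i j * ph.xz m l + s / t * lm.xz i l * ph.xz m j +
        s / t * lm.xz m j * ph.xz i l + s / t * lm.xz m l * ph.xz i j) + L * lm.de i m j l) -
      ((s * (ς ^ 32 * k i / t) * (ς ^ 32 * k m / t) + ς ^ 30 * (1 + υ)) *
        (kr i j * kr m l + kr i l * kr m j) : ℝ) =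
      (ς ^ 32 : ℝ) * ((1 + υ : ℝ) *
        (a.de i m j l - ((kr i j * kr m l + kr i l * kr m j) / ς ^ 2 : ℝ)) +
        υ * (ph.de i m j l - a.de i m j l) +
      (s / t * lm.x i * ph.xe m j l + s / t * lm.x m * ph.xe i j l +
        s / t * lm.z j * ph.dz i m l + s / t * lm.z l * ph.dz i m j) +
      (s / t * lm.xz i j * ph.xz m l + s / t * lm.xz i l * ph.xz m j +
        s / t * lm.xz m j * ph.xz i l + s / t * lm.xz m l * ph.xz i j) + L * lm.de i m j l) := by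
    rw [c.c2]
    generalize (s / t * lm.x i * ph.xe m j l + s / t * lm.x m * ph.xe i j l +
        s / t * lm.z j * ph.dz i m l + s / t * lm.z l * ph.dz i m j) = A
    generalize (s / t * lm.xz i j * ph.xz m l + s / t * lm.xz i l * ph.xz m j +
        s / t * lm.xz m j * ph.xz i l + s / t * lm.xz m l * ph.xz i j) = B
    simp only [N.ph_xz, hu]
    push_cast
    have : (ς : ℂ) ^ 30 = ς ^ 32 / ς ^ 2 := by field_simp
    rw [this]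
    ring
  rw [e]
  refine (nm (nr (by positivity)).le (na (na (na (na (nm (nr (by positivity)).le (N.a_de i m j l))
    (nm (nr υ0).le (N.ph_de i m j l)))
    (na (na (na (nm (nm c.c7 (N.lm_x i)) (c.p3 m j l)) (nm (nm c.c7 (N.lm_x m)) (c.p3 i j l)))
      (nm (nm c.c7 (N.lm_z j)) (c.p2 i m l))) (nm (nm c.c7 (N.lm_z l)) (c.p2 i m j))))
    (na (na (na (nm (nm c.c7 (N.lm_xz i j)) (c.p1 m l)) (nm (nm c.c7 (N.lm_xz i l)) (c.p1 m j)))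
      (nm (nm c.c7 (N.lm_xz m j)) (c.p1 i l))) (nm (nm c.c7 (N.lm_xz m l)) (c.p1 i j))))
    (nm c.c3 (N.lm_de i m j l)))).trans ?_
  have e2 : ς ^ 32 * ((1 + υ) * (ε / ς ^ 2) + υ * K +
      (υ / ς ^ 32 * (ε * ς ^ 33) * (ε / ς + K) + υ / ς ^ 32 * (ε * ς ^ 33) * (ε / ς + K) +
        υ / ς ^ 32 * (ε * ς ^ 33) * (ε / ς + K) + υ / ς ^ 32 * (ε * ς ^ 33) * (ε / ς + K)) +
      (υ / ς ^ 32 * (ε * ς ^ 32) * (1 + K) + υ / ς ^ 32 * (ε * ς ^ 32) * (1 + K) +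
        υ / ς ^ 32 * (ε * ς ^ 32) * (1 + K) + υ / ς ^ 32 * (ε * ς ^ 32) * (1 + K)) +
      L * (ε * ς ^ 30)) =
      ε * (ς ^ 30 * (1 + υ)) + (ς ^ 7 * (ς ^ 5 * K) + 4 * ε * ε * ς ^ 12 +
        4 * ε * ς ^ 8 * (ς ^ 5 * K) + 4 * ε * ς ^ 7 * (ς ^ 5 * (1 + K))) * (ς ^ 20 * υ) +
        ε * ς ^ 10 * (ς ^ 20 * (ς ^ 32 * L)) := by
    field_simp
    ring
  have ε1 : ε ≤ 1 := by linarith [h.ε1]
  rw [e2, h.We]
  calc _ ≤ ε * (ς ^ 30 * (1 + υ)) + (1 * ε + 4 * ε * 1 * 1 + 4 * ε * 1 * 1 + 4 * ε * 1 * 2) *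
        (ς ^ 20 * υ) + ε * 1 * (ς ^ 20 * υ) := by
        gcongr
        exacts [h.pw1 7, h.K1, h.pw1 12, h.pw1 8, h.K1.trans ε1, h.pw1 7, h.k5 le_rfl, h.pw1 10,
          h.L1]
    _ ≤ _ := by
        have h1 : 0 ≤ ε * (ς ^ 30 * (1 + υ)) := by positivity
        have h2 : 0 ≤ ε * (ς ^ 20 * υ) := by positivity
        nlinarith

end bounds

end Crest.Agent.R245.ErrB
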