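import Crest.Agent.R245.ErrB

/-! Row 245: bounds for the Christoffel terms. -/

set_option autoImplicit false

open Complex
open scoped ComplexConjugate

namespace Crest.Agent.R245.ErrC

open ErrA ErrB

/-- the hypotheses on the metric -/
structure Gm (ε ς K r t L υ : ℝ) (k : Fin 2 → ℝ) (g : Fin 3 → Fin 3 → ℂ) (G : Fin 3 → ℝ)
    (M : Fin 2 → ℂ) : Prop where
  k1 : ∀ i, 1 ≤ k i
  k2 : ∀ i, k i ≤ 1 + K
  G0 : G 0 = 1
  Gs : ∀ j, G (Fin.succ j) = 1 + υ * k j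
  nM : ∀ j, ‖M j‖ = ς ^ 16 * r * k j / (t * (1 + υ * k j))
  herm : ∀ i j, g i j = conj (g j i)
  low : ∀ x, (∑ i, G i * ‖x i‖ ^ 2) / 2 ≤ hf g x x
  gs0 : ∀ i, ‖g (Fin.succ i) 0‖ ≤ ε * ς * ς ^ 16 * r
  gss : ∀ i j, ‖g (Fin.succ i) (Fin.succ j) - (kr i j * (1 + υ * k i) : ℝ)‖ ≤ ε * (ς ^ 32 * L)

/-- right-hand sides of type `00` -/
structure P0 (ε ς r : ℝ) (b : Fin 3 → ℂ) : Prop where
  h0 : b 0 = 0
  hs : ∀ j, ‖b (Fin.succ j)‖ ≤ ε * ς * r ^ 2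

/-- right-hand sides of type `0k` -/
structure P1 (ε ς υ : ℝ) (k : Fin 2 → ℝ) (M : Fin 2 → ℂ) (i : Fin 2) (b : Fin 3 → ℂ) : Prop where
  h0 : ‖b 0‖ ≤ ε * ς
  hs : ∀ j, ‖b (Fin.succ j) - kr i j * (M i * (1 + υ * k i : ℝ))‖ ≤ ε * ς ^ 16

/-- right-hand sides of type `ik` -/
structure P2 (ε ς K υ : ℝ) (b : Fin 3 → ℂ) : Prop where
  h0 : ‖b 0‖ ≤ ε * ς ^ 16
  hs : ∀ j, ‖b (Fin.succ j)‖ ≤ 4 * ε * (1 + υ) / ς + 3 * υ * K

variable {ε ς K r t L υ y V W : ℝ} {k : Fin 2 → ℝ} {g : Fin 3 → Fin 3 → ℂ} {G : Fin 3 → ℝ}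
  {M : Fin 2 → ℂ} (h : Ctx ε ς K r t L υ y V W) (m : Gm ε ς K r t L υ k g G M)
include h m

theorem G_pos (i : Fin 3) : 0 < G i := by
  refine Fin.cases ?_ (fun j => ?_) i
  · rw [m.G0]; exact one_pos
  · rw [m.Gs]; exact h.G_pos (m.k1 j)

theorem star_le {b : Fin 3 → ℂ} {X Y : ℝ} (h0 : ‖b 0‖ ≤ X) (hs : ∀ j, ‖b (Fin.succ j)‖ ≤ Y) :
    ∑ j, ‖b j‖ ^ 2 / G j ≤ X ^ 2 + 2 * Y ^ 2 / (1 + υ) := by
  have υ0 := h.υ0
  have h1 : ∀ j, ‖b (Fin.succ j)‖ ^ 2 / G (Fin.succ j) ≤ Y ^ 2 / (1 + υ) := by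
    intro j
    rw [m.Gs]
    have := h.G_ge (m.k1 j)
    have := hs j
    gcongr
  rw [Fin.sum_univ_succ, Fin.sum_univ_two, m.G0, div_one]
  have h2 : ‖b 0‖ ^ 2 ≤ X ^ 2 := by gcongr
  have h3 : 2 * Y ^ 2 / (1 + υ) = Y ^ 2 / (1 + υ) + Y ^ 2 / (1 + υ) := by ring
  linarith [h1 0, h1 1]

theorem S0 {b : Fin 3 → ℂ} (p : P0 ε ς r b) :
    ∑ j, ‖b j - 0 * g 0 j‖ ^ 2 / G j ≤ (2 * ε * ς) ^ 2 := by
  simp only [zero_mul, sub_zero]
  have ε0 := h.ε0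
  have ς0 := h.ς0
  have r0 := h.r0
  have h1 : ∀ j, ‖b (Fin.succ j)‖ ≤ ε * ς := fun j => (p.hs j).trans (by
    calc _ ≤ ε * ς * 1 ^ 2 := by gcongr; exact h.r1
      _ = _ := by ring)
  refine (star_le h m (X := 0) (by rw [p.h0, norm_zero]) h1).trans ?_
  have h2 : 2 * (ε * ς) ^ 2 / (1 + υ) ≤ 2 * (ε * ς) ^ 2 :=
    div_le_self (by positivity) (by linarith [h.υ0])
  nlinarith [sq_nonneg (ε * ς)]

theorem uM (i : Fin 2) : ς ^ 16 * ‖M i‖ ≤ 3 := by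
  rw [m.nM]
  exact h.M2 (m.k1 i) (m.k2 i)

theorem S1 {b : Fin 3 → ℂ} {i : Fin 2} (p : P1 ε ς υ k M i b) :
    ∑ j, ‖b j - M i * g (Fin.succ i) j‖ ^ 2 / G j ≤ (13 * ε) ^ 2 := by
  have ε0 := h.ε0
  have ς0 := h.ς0
  have r0 := h.r0
  have L0 := h.L0
  have υ0 := h.υ0
  have h0 : ‖b 0 - M i * g (Fin.succ i) 0‖ ≤ 2 * ε := by
    refine (norm_sub_le_of_le p.h0 (nm le_rfl (m.gs0 i))).trans ?_
    have h1 : ς ^ 16 * ‖M i‖ * r ≤ 1 := by rw [m.nM]; exact h.M1 (m.k1 i)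
    calc _ = ε * ς + ε * ς * (ς ^ 16 * ‖M i‖ * r) := by ring
      _ ≤ ε * 1 + ε * 1 * 1 := by gcongr <;> exact h.ς1
      _ = _ := by ring
  have hs : ∀ j, ‖b (Fin.succ j) - M i * g (Fin.succ i) (Fin.succ j)‖ ≤
      ε * ς ^ 16 * (1 + 3 * L) := by
    intro j
    have e : b (Fin.succ j) - M i * g (Fin.succ i) (Fin.succ j) =
        (b (Fin.succ j) - kr i j * (M i * (1 + υ * k i : ℝ))) -
          M i * (g (Fin.succ i) (Fin.succ j) - (kr i j * (1 + υ * k i) : ℝ)) := by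
      push_cast
      ring
    rw [e]
    refine (norm_sub_le_of_le (p.hs j) (nm le_rfl (m.gss i j))).trans ?_
    calc _ = ε * ς ^ 16 * (1 + ς ^ 16 * ‖M i‖ * L) := by ring
      _ ≤ _ := by gcongr; exact uM h m i
  refine (star_le h m (b := fun j => b j - M i * g (Fin.succ i) j) h0 hs).trans ?_
  have h1 : 2 * (ε * ς ^ 16 * (1 + 3 * L)) ^ 2 / (1 + υ) ≤ 144 * ε ^ 2 := by
    rw [div_le_iff₀ (by positivity)]
    have h2 : ς ^ 32 * (1 + 3 * L) ^ 2 ≤ 72 * (1 + υ) := by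
      have h3 : (1 + 3 * L) ^ 2 ≤ 2 + 18 * L ^ 2 := by nlinarith [sq_nonneg (1 - 3 * L)]
      have h4 : ς ^ 32 * (1 + 3 * L) ^ 2 ≤ ς ^ 32 * (2 + 18 * L ^ 2) := by gcongr
      linarith [h.L2, h.pw1 32]
    calc _ = 2 * ε ^ 2 * (ς ^ 32 * (1 + 3 * L) ^ 2) := by ring
      _ ≤ 2 * ε ^ 2 * (72 * (1 + υ)) := by gcongr
      _ = _ := by ring
  nlinarith [sq_nonneg ε]

theorem S2 {b : Fin 3 → ℂ} (p : P2 ε ς K υ b) :
    ∑ j, ‖b j - 0 * g 0 j‖ ^ 2 / G j ≤ (11 * ε * W / ς ^ 16) ^ 2 := by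
  simp only [zero_mul, sub_zero]
  have ε0 := h.ε0
  have ς0 := h.ς0
  have υ0 := h.υ0
  have K0 := h.K0
  refine (star_le h m p.h0 p.hs).trans ?_
  have h1 : 2 * (4 * ε * (1 + υ) / ς + 3 * υ * K) ^ 2 / (1 + υ) ≤
      64 * ε ^ 2 * (1 + υ) / ς ^ 2 + 36 * υ * K ^ 2 := by
    rw [div_le_iff₀ (by positivity)]
    have h2 : (4 * ε * (1 + υ) / ς + 3 * υ * K) ^ 2 ≤
        2 * (4 * ε * (1 + υ) / ς) ^ 2 + 2 * (3 * υ * K) ^ 2 := by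
      nlinarith [sq_nonneg (4 * ε * (1 + υ) / ς - 3 * υ * K)]
    have h3 : (64 * ε ^ 2 * (1 + υ) / ς ^ 2 + 36 * υ * K ^ 2) * (1 + υ) =
        4 * (4 * ε * (1 + υ) / ς) ^ 2 + 4 * (3 * υ * K) ^ 2 + 36 * υ * K ^ 2 := by
      field_simp
      ring
    have h4 : 0 ≤ υ * K ^ 2 := by positivity
    linarith
  refine (add_le_add_right h1 _).trans ?_
  rw [div_pow, le_div_iff₀ (by positivity), mul_pow (11 * ε), h.We]
  calc _ = ε ^ 2 * ς ^ 34 * (ς ^ 30 * 1) + 64 * ε ^ 2 * (ς ^ 30 * (1 + υ)) +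
        36 * ς ^ 2 * (ς ^ 5 * K) ^ 2 * (ς ^ 20 * υ) := by
        field_simp
        ring
    _ ≤ ε ^ 2 * 1 * (ς ^ 30 * (1 + υ)) + 64 * ε ^ 2 * (ς ^ 30 * (1 + υ)) +
        36 * 1 * ε ^ 2 * (ς ^ 20 * υ) := by
        gcongr
        exacts [h.pw1 34, by linarith, h.pw1 2, h.K1]
    _ ≤ _ := by
        have h1 : 0 ≤ ε ^ 2 * (ς ^ 30 * (1 + υ)) := by positivity
        have h2 : 0 ≤ ε ^ 2 * (ς ^ 20 * υ) := by positivity
        nlinarith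

omit h in
theorem Hsymm (c c' : Fin 3 → ℂ) : ‖∑ i, ∑ j, c i * conj (c' j) * g i j‖ =
    ‖∑ i, ∑ j, c' i * conj (c j) * g i j‖ := by
  rw [← norm_conj, Finset.sum_comm]
  congr 1
  simp only [map_sum, map_mul, conj_conj, ← m.herm]
  exact Finset.sum_congr rfl fun i _ => Finset.sum_congr rfl fun j _ => by ring

variable {c c' b b' : Fin 3 → ℂ} (hc : ∀ j, ∑ i, c i * g i j = b j)
  (hc' : ∀ j, ∑ i, c' i * g i j = b' j)
include hc hc'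

theorem H_zero {A A' : ℝ} (hA : 0 ≤ A) (hA' : 0 ≤ A')
    (hb : ∑ j, ‖b j - 0 * g 0 j‖ ^ 2 / G j ≤ A ^ 2)
    (hb' : ∑ j, ‖b' j - 0 * g 0 j‖ ^ 2 / G j ≤ A' ^ 2) :
    ‖∑ i, ∑ j, c i * conj (c' j) * g i j‖ ≤ 2 * A * A' := by
  simpa using la m.herm (G_pos h m) m.low hc hc' 0 0 0 0 hA hA' hb hb'

theorem H_one {A : ℝ} (hA : 0 ≤ A) (hb : ∑ j, ‖b j - 0 * g 0 j‖ ^ 2 / G j ≤ A ^ 2) {l : Fin 2}
    (p' : P1 ε ς υ k M l b') :
    ‖∑ i, ∑ j, c i * conj (c' j) * g i j‖ ≤ ‖b (Fin.succ l)‖ * ‖M l‖ + 26 * ε * A := by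
  have ε0 := h.ε0
  have h1 := la m.herm (G_pos h m) m.low hc hc' 0 (M l) 0 (Fin.succ l) hA (by positivity) hb
    (S1 h m p')
  simp only [zero_mul, add_zero, sub_zero] at h1
  have h2 := norm_add_le (b (Fin.succ l) * conj (M l))
    (∑ i, ∑ j, c i * conj (c' j) * g i j - b (Fin.succ l) * conj (M l))
  rw [add_sub_cancel, norm_mul, norm_conj] at h2
  linarith

theorem H00 (p : P0 ε ς r b) (p' : P0 ε ς r b') :
    ς ^ 32 * ‖∑ i, ∑ j, c i * conj (c' j) * g i j‖ ≤ ε * ς ^ 16 * ς ^ 16 := by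
  have ε0 := h.ε0
  have ς0 := h.ς0
  have h1 := H_zero h m hc hc' (by positivity) (by positivity) (S0 h m p) (S0 h m p')
  calc _ ≤ ς ^ 32 * (2 * (2 * ε * ς) * (2 * ε * ς)) := by gcongr
    _ = ε * ς ^ 16 * ς ^ 16 * (8 * ε * ς ^ 2) := by ring
    _ ≤ ε * ς ^ 16 * ς ^ 16 * (8 * (1 / 100) * 1) := by
        gcongr
        exacts [h.ε1, h.pw1 2]
    _ ≤ ε * ς ^ 16 * ς ^ 16 * 1 := by gcongr; norm_num
    _ = _ := mul_one _

theorem H01 (p : P0 ε ς r b) {l : Fin 2} (p' : P1 ε ς υ k M l b') :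
    ς ^ 32 * ‖∑ i, ∑ j, c i * conj (c' j) * g i j‖ ≤
      2 * ε * ς ^ 16 * Real.sqrt (ς ^ 32 + υ * k l) := by
  have ε0 := h.ε0
  have ς0 := h.ς0
  have r0 := h.r0
  have h1 := H_one h m hc hc' (by positivity) (S0 h m p) p'
  have h2 : ς ^ 16 * ‖M l‖ * r ≤ Real.sqrt (ς ^ 32 + υ * k l) := by
    rw [m.nM]; exact h.M4 (m.k1 l)
  have h3 := h.uV.trans (h.V_le (m.k1 l))
  have h4 := p.hs l
  calc _ ≤ ς ^ 32 * (ε * ς * r ^ 2 * ‖M l‖ + 26 * ε * (2 * ε * ς)) := by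
        refine mul_le_mul_of_nonneg_left (h1.trans ?_) (by positivity)
        gcongr
    _ = ε * ς ^ 16 * (ς * r * (ς ^ 16 * ‖M l‖ * r) + 52 * ε * ς * ς ^ 16) := by ring
    _ ≤ ε * ς ^ 16 * (1 * 1 * Real.sqrt (ς ^ 32 + υ * k l) +
          52 * (1 / 100) * 1 * Real.sqrt (ς ^ 32 + υ * k l)) := by
        gcongr
        exacts [h.ς1, h.r1, h.ε1, h.ς1]
    _ ≤ _ := by
        have : 0 ≤ ε * ς ^ 16 * Real.sqrt (ς ^ 32 + υ * k l) := by positivity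
        nlinarith

theorem H02 (p : P0 ε ς r b) (p' : P2 ε ς K υ b') :
    ς ^ 32 * ‖∑ i, ∑ j, c i * conj (c' j) * g i j‖ ≤ ε * V * V := by
  have ε0 := h.ε0
  have ς0 := h.ς0
  have W0 := h.W0
  have h1 := H_zero h m hc hc' (by positivity) (by positivity) (S0 h m p) (S2 h m p')
  calc _ ≤ ς ^ 32 * (2 * (2 * ε * ς) * (11 * ε * W / ς ^ 16)) := by gcongr
    _ = ε * (44 * ε) * (ς * ς ^ 16 * W) := by field_simp; ring
    _ ≤ ε * 1 * V ^ 2 := by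
        gcongr
        exacts [by linarith [h.ε1], h.uW]
    _ = _ := by ring

theorem H22 (p : P2 ε ς K υ b) (p' : P2 ε ς K υ b') :
    ς ^ 32 * ‖∑ i, ∑ j, c i * conj (c' j) * g i j‖ ≤ 3 * ε * W ^ 2 := by
  have ε0 := h.ε0
  have ς0 := h.ς0
  have W0 := h.W0
  have h1 := H_zero h m hc hc' (by positivity) (by positivity) (S2 h m p) (S2 h m p')
  calc _ ≤ ς ^ 32 * (2 * (11 * ε * W / ς ^ 16) * (11 * ε * W / ς ^ 16)) := by gcongr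
    _ = (242 * ε) * ε * W ^ 2 := by field_simp; ring
    _ ≤ _ := by
        gcongr
        linarith [h.ε1]

theorem H21 (p : P2 ε ς K υ b) {l : Fin 2} (p' : P1 ε ς υ k M l b') :
    ς ^ 32 * ‖∑ i, ∑ j, c i * conj (c' j) * g i j‖ ≤ 20 * ε * (V * W) := by
  have ε0 := h.ε0
  have ς0 := h.ς0
  have W0 := h.W0
  have V0 := h.V0
  have y0 := h.y0
  have υ0 := h.υ0
  have K0 := h.K0
  have k0 : 0 ≤ k l := by linarith [m.k1 l]
  have h1 := H_one h m hc hc' (by positivity) (S2 h m p) p'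
  have h2 : ς ^ 32 * ‖M l‖ * (1 + υ) ≤ ς ^ 16 * k l * (y * V) := by
    rw [m.nM]; exact h.M3 (m.k1 l)
  have h4 := p.hs l
  calc _ ≤ ς ^ 32 * ((4 * ε * (1 + υ) / ς + 3 * υ * K) * ‖M l‖ +
          26 * ε * (11 * ε * W / ς ^ 16)) := by
        refine mul_le_mul_of_nonneg_left (h1.trans ?_) (by positivity)
        gcongr
    _ = 4 * ε * (ς ^ 32 * ‖M l‖ * (1 + υ)) / ς +
          3 * (ς ^ 16 * ‖M l‖) * ς * (ς ^ 5 * K) * (y * (ς ^ 10 * y)) +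
          (286 * ε) * ε * (ς ^ 16 * W) := by
        rw [← h.ye]
        field_simp
        ring
    _ ≤ 4 * ε * (ς ^ 16 * k l * (y * V)) / ς + 3 * 3 * 1 * ε * (V * W) + 3 * ε * (V * W) := by
        gcongr
        exacts [uM h m l, h.ς1, h.K1, h.yV', h.W1, by linarith [h.ε1], h.uV]
    _ = 4 * ε * (ς ^ 5 * k l) * (V * (ς ^ 10 * y)) + 12 * ε * (V * W) := by
        field_simp
        ring
    _ ≤ 4 * ε * 2 * (V * W) + 12 * ε * (V * W) := by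
        gcongr
        exacts [h.k5 (m.k2 l), h.W1]
    _ = _ := by ring

theorem H11 {i l : Fin 2} (p : P1 ε ς υ k M i b) (p' : P1 ε ς υ k M l b') :
    ς ^ 32 * ‖∑ i, ∑ j, c i * conj (c' j) * g i j -
      (kr i l * (‖M i‖ ^ 2 * (1 + υ * k i)) : ℝ)‖ ≤ 10 * ε * (ς ^ 32 * (1 + L)) := by
  have ε0 := h.ε0
  have ς0 := h.ς0
  have L0 := h.L0
  have h1 := la m.herm (G_pos h m) m.low hc hc' (M i) (M l) (Fin.succ i) (Fin.succ l)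
    (by positivity) (by positivity) (S1 h m p) (S1 h m p')
  have e : ∑ i, ∑ j, c i * conj (c' j) * g i j - (kr i l * (‖M i‖ ^ 2 * (1 + υ * k i)) : ℝ) =
      (∑ i, ∑ j, c i * conj (c' j) * g i j - (b (Fin.succ l) * conj (M l) +
        M i * conj (b' (Fin.succ i)) - M i * conj (M l) * g (Fin.succ i) (Fin.succ l))) +
      (b (Fin.succ l) - kr i l * (M i * (1 + υ * k i : ℝ))) * conj (M l) +
      M i * conj (b' (Fin.succ i) - kr l i * (M l * (1 + υ * k l : ℝ))) +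
      -(M i * conj (M l)) * (g (Fin.succ i) (Fin.succ l) - (kr i l * (1 + υ * k i) : ℝ)) := by
    by_cases hil : i = l
    · subst hil
      have h2 : ((‖M i‖ : ℝ) : ℂ) ^ 2 = M i * conj (M i) := by
        rw [Complex.mul_conj, Complex.normSq_eq_norm_sq, ofReal_pow]
      simp only [kr, if_true, map_sub, map_mul, conj_ofReal]
      push_cast
      rw [h2]
      ring
    · simp only [kr, if_neg hil, if_neg (Ne.symm hil), map_sub, map_mul, conj_ofReal]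
      push_cast
      ring
  rw [e]
  have h3 := na (na (na h1 (nm (p.hs l) (norm_conj (M l)).le))
    (nm (le_refl ‖M i‖) ((norm_conj _).le.trans (p'.hs i))))
    (nm ((norm_neg _).le.trans (nm (le_refl ‖M i‖) (norm_conj (M l)).le)) (m.gss i l))
  have h4 := uM h m i
  have h5 := uM h m l
  calc _ ≤ ς ^ 32 * (2 * (13 * ε) * (13 * ε) + ε * ς ^ 16 * ‖M l‖ + ‖M i‖ * (ε * ς ^ 16) +
          ‖M i‖ * ‖M l‖ * (ε * (ς ^ 32 * L))) := by gcongr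
    _ = ε * ς ^ 32 * (338 * ε + ς ^ 16 * ‖M l‖ + ς ^ 16 * ‖M i‖ +
          (ς ^ 16 * ‖M i‖) * (ς ^ 16 * ‖M l‖) * L) := by ring
    _ ≤ ε * ς ^ 32 * (338 * (1 / 100) + 3 + 3 + 3 * 3 * L) := by
        gcongr
        exact h.ε1
    _ ≤ ε * ς ^ 32 * (10 * (1 + L)) := by
        gcongr
        linarith
    _ = _ := by ring

end Crest.Agent.R245.ErrC
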