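import Crest.Agent.R245.HartA

/-! Row 245: the local condition on the Hartogs domain. -/

set_option autoImplicit false

open Complex
open scoped ContDiff ComplexConjugate Topology

namespace Crest.Agent.R245

theorem dz_comp_real {n : ℕ} {u : E n → ℝ} {p : E n} {g : ℝ → ℝ} {g' : ℝ}
    (hg : HasDerivAt g g' (u p)) (hu : DifferentiableAt ℝ u p) (X : E n) :
    dz X (fun x => (g (u x) : ℂ)) p = g' * dz X (cx u) p := by
  have h1 := Complex.ofRealCLM.hasFDerivAt.comp p (hg.hasFDerivAt.comp p hu.hasFDerivAt)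
  have h2 := Complex.ofRealCLM.hasFDerivAt.comp p hu.hasFDerivAt
  simp only [dz]
  rw [show (fun x => (g (u x) : ℂ)) = Complex.ofRealCLM ∘ g ∘ u from rfl, h1.fderiv,
    show cx u = Complex.ofRealCLM ∘ u from rfl, h2.fderiv]
  simp; ring

/-- padded base vectors -/
def padE (e : Fin 2 → E 2) : Fin 3 → E 2 := Fin.cons 0 e
def padB (b : Fin 2 → Fin 2 → E 2) : Fin 3 → Fin 3 → E 2 :=
  Fin.cons (fun _ => 0) fun i => padE (b i)

theorem arr_pad (e : Fin 2 → E 2) (b : Fin 2 → Fin 2 → E 2) (f : E 2 → ℂ) (z : E 2) :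
    arr (padE e) (padB b) f z = (arr e b f z).pad := by
  have h1 : ∀ X : E 2, op2b X 0 0 f = fun _ => 0 := fun X => by ext p; simp [op2b]
  have h2 : ∀ X : E 2, op2b 0 X 0 f = fun _ => 0 := fun X => by ext p; simp [op2b]
  have h3 : ∀ X Y c : E 2, op2 X Y c (fun _ => 0) = fun _ => 0 := fun X Y c => by
    ext p; simp [op2]
  have h4 : ∀ (X : E 2) (g : E 2 → ℂ), op2 X 0 0 g = fun _ => 0 := fun X g => by ext p; simp [op2]
  have h5 : ∀ (X : E 2) (g : E 2 → ℂ), op2 0 X 0 g = fun _ => 0 := fun X g => by ext p; simp [op2]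
  ext i k j l
  · rfl
  · cases i using Fin.cases <;> simp [arr, Arr.pad, padE]
  · cases i using Fin.cases <;> simp [arr, Arr.pad, padE]
  · cases i using Fin.cases <;> cases k using Fin.cases <;>
      simp [arr, Arr.pad, padE, padB, h4, h5]
  · cases i using Fin.cases <;> cases k using Fin.cases <;>
      simp [arr, Arr.pad, padE, padB, h1, h2]
  · cases i using Fin.cases <;> cases k using Fin.cases <;> simp [arr, Arr.pad, padE]
  · cases i using Fin.cases <;> cases k using Fin.cases <;> cases j using Fin.cases <;>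
      simp [arr, Arr.pad, padE, padB, h3, h4, h5]
  · cases i using Fin.cases <;> cases k using Fin.cases <;> cases j using Fin.cases <;>
      simp [arr, Arr.pad, padE, padB, h1, h2]
  · cases i using Fin.cases <;> cases k using Fin.cases <;> cases j using Fin.cases <;>
      cases l using Fin.cases <;> simp [arr, Arr.pad, padE, padB, h1, h2, h3, h4, h5]

theorem pr_cons (a : ℂ) (y : E 2) : pr 0 (Fin.cons a y : E 3) = y := by
  ext j; fin_cases j <;> rfl

theorem arr_pr {f : E 2 → ℝ} (hf : ContDiffOn ℝ ∞ f (Bl 2)) {x : E 3} (hx : pr 0 x ∈ Bl 2)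
    (v : Fin 3 → ℂ) (bv : Fin 3 → Fin 3 → ℂ) (e : Fin 2 → E 2) (b : Fin 2 → Fin 2 → E 2) :
    arr (fun i => (Fin.cons (v i) (padE e i) : E 3))
      (fun i k => (Fin.cons (bv i k) (padB b i k) : E 3)) (fun y => (f (pr 0 y) : ℂ)) x =
      (arr e b (cx f) (pr 0 x)).pad := by
  rw [← arr_pad]
  refine Arr.ext_toJ 0 fun i k j l => ?_
  rw [← jet_frm, ← jet_frm]
  have := jet_linear (pr 0) isOpen_Bl (ofReal_smooth hf) hx
    (frm (fun i => (Fin.cons (v i) (padE e i) : E 3))
      (fun i k => (Fin.cons (bv i k) (padB b i k) : E 3)) i k j l)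
  refine this.trans ?_
  simp only [Fr.map, frm, pr_cons]

theorem hart (hN : NumStmt) : HartStmt := by
  obtain ⟨ε, c0, C0, hε, hε1, h0, h1, hC, hN⟩ := hN
  refine ⟨ε, c0, C0, hε, hε1, h0, h1, hC, fun D x hx hJ => ?_⟩
  obtain ⟨ς, K3, k, e, b, he, hb, hψ, hH⟩ := hJ
  have hς := hH.ς_pos
  have hς1 := hH.ς_le
  set z := pr 0 x with hz
  have hzB : z ∈ Bl 2 := hx.1
  set γ : ℝ := Real.exp (D.φ z / 2) with hγ
  have hγ0 : 0 < γ := Real.exp_pos _
  have hγ2 : γ ^ 2 = Real.exp (D.φ z) := by rw [hγ, sq, ← Real.exp_add]; ring_nf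
  have hγc : (γ : ℂ) ≠ 0 := by exact_mod_cast hγ0.ne'
  set w : ℂ := x 0 * γ with hw
  have hs : ‖w‖ ^ 2 = sfun D x := by
    rw [hw, norm_mul, mul_pow, Complex.norm_real, Real.norm_eq_abs, sq_abs, hγ2]; rfl
  have hw1 : ‖w‖ < 1 := by
    have := hx.2
    rw [← hs] at this
    nlinarith [norm_nonneg w]
  set t : ℝ := 1 - ‖w‖ ^ 2 with ht
  have ht0 : 0 < t := by rw [ht, hs]; exact sub_pos.2 hx.2
  have htc : (t : ℂ) ≠ 0 := by exact_mod_cast ht0.ne'
  set ν : Fin 3 → ℝ := Fin.cons (t / ς ^ 16) 0 with hν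
  set P := (arr e b (cx D.φ) z).pad with hP
  set v : Fin 3 → ℂ := fun i => ν i / γ - x 0 * P.x i with hv
  set bv : Fin 3 → Fin 3 → ℂ := fun i m => -2 * conj w * ν i * ν m / t / γ - v i * P.x m -
    v m * P.x i - x 0 * (P.d i m + P.x i * P.x m) with hbv
  set X : Fin 3 → E 3 := fun i => Fin.cons (v i) (padE e i) with hX
  set B : Fin 3 → Fin 3 → E 3 := fun i m => Fin.cons (bv i m) (padB b i m) with hB
  have hU := isOpen_U0 D
  have smp : ∀ {f : E 2 → ℝ}, ContDiffOn ℝ ∞ f (Bl 2) →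
      ContDiffOn ℝ ∞ (fun y => f (pr 0 y)) (U0 D) := fun hf =>
    (comp_pr_smooth hf 0).mono (U0_subset D)
  have Pz : ∀ j, P.z j = conj (P.x j) := fun j => by
    cases j using Fin.cases <;> simp [hP, Arr.pad, arr, dzb_real]
  have Pe : ∀ j l, P.e j l = conj (P.d j l) := fun j l => by
    cases j using Fin.cases <;> cases l using Fin.cases <;> simp [hP, Arr.pad, arr, op2b_real]
  have Pd : ∀ j l, P.d j l = P.d l j := fun j l => by
    cases j using Fin.cases <;> cases l using Fin.cases <;> simp [hP, Arr.pad, arr, op2]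
    rw [dz_dz_comm isOpen_Bl (ofReal_smooth D.smφ) hzB, hb]
  -- the jet of `s`
  have jS : ∀ i m j l, jet (frm X B i m j l) (cx (sfun D)) x =
      J.hol w (ν i) (ν m) (-2 * conj w * ν i * ν m / t) *
        J.anti (conj w) (ν j) (ν l) (-2 * w * ν j * ν l / t) *
        J.comp 1 1 1 1 1 (J.mk16 0 0 0 0 0 (P.xz i j) (P.xz i l) (P.xe i j l) 0 (P.xz m j)
          (P.xz m l) (P.xe m j l) 0 (P.dz i m j) (P.dz i m l) (P.de i m j l)) := by
    intro i m j l
    have e1 : cx (sfun D) = fun y => (y 0 * conj (y 0)) * cexp (D.φ (pr 0 y)) := by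
      ext y
      simp only [cx, sfun, ofReal_mul, ofReal_exp, Complex.mul_conj, Complex.normSq_eq_norm_sq]
    have s0 : ContDiffOn ℝ ∞ (fun y : E 3 => y 0) (U0 D) := (contDiff_apply ℝ ℂ _).contDiffOn
    have s1 : ContDiffOn ℝ ∞ (fun y : E 3 => conj (y 0)) (U0 D) :=
      conjCLE.contDiff.comp_contDiffOn s0
    have s2 := ofReal_smooth (smp D.smφ)
    have e2 : cexp (D.φ z) = (γ : ℂ) ^ 2 := by rw [← ofReal_exp, ← hγ2]; simp
    rw [e1, jet_mul hU hx _ (s0.mul s1) s2.cexp, jet_mul hU hx _ s0 s1, jet_exp hU hx _ s2,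
      jet_coord, jet_conj_coord, jet_frm, arr_pr D.smφ hzB, ← hz, ← hP, e2, Arr.toJ, exp_split]
    have a1 : J.hol (x 0) (v i) (v m) (bv i m) *
        J.hol γ (γ * P.x i) (γ * P.x m) (γ * (P.d i m + P.x i * P.x m)) =
        J.hol w (ν i) (ν m) (-2 * conj w * ν i * ν m / t) := by
      rw [hol_mul]
      congr 1
      · simp only [hv]; field_simp; ring
      · simp only [hv]; field_simp; ring
      · simp only [hbv]; field_simp; ring
    have a2 : J.anti (conj (x 0)) (conj (v j)) (conj (v l)) (conj (bv j l)) *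
        J.anti γ (γ * P.z j) (γ * P.z l) (γ * (P.e j l + P.z j * P.z l)) =
        J.anti (conj w) (ν j) (ν l) (-2 * w * ν j * ν l / t) := by
      rw [anti_mul]
      congr 1
      · simp [hw]
      · simp only [hv, Pz, map_sub, map_mul, map_div₀, conj_ofReal]; field_simp; ring
      · simp only [hv, Pz, map_sub, map_mul, map_div₀, conj_ofReal]; field_simp; ring
      · simp only [hbv, Pz, Pe, map_sub, map_mul, map_div₀, map_add, map_neg, conj_ofReal,
          conj_conj, map_ofNat]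
        field_simp; ring
    rw [← a1, ← a2]
    simp only [frm, hX, hB, Fin.cons_zero]
    ring
  -- the jet of `L`
  have jL : ∀ i m j l, jet (frm X B i m j l) (fun y => ((-Real.log (1 - sfun D y) : ℝ) : ℂ)) x =
      (Larr w (‖w‖ ^ 2) t (-Real.log t) ν P).toJ i m j l := by
    intro i m j l
    have s1 : ContDiffOn ℝ ∞ (fun y => 1 - sfun D y) (U0 D) :=
      contDiffOn_const.sub (sfun_smooth D)
    have hp : ∀ y ∈ U0 D, 0 < 1 - sfun D y := fun y hy => sub_pos.2 hy.2
    have e1 : (fun y => ((1 - sfun D y : ℝ) : ℂ)) = fun y => 1 - cx (sfun D) y := by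
      ext y; simp
    have e2 : 1 - sfun D x = t := by rw [ht, hs]
    have e3 : w * conj w = 1 - t := by
      rw [ht, Complex.mul_conj, Complex.normSq_eq_norm_sq]; simp
    have e4 : ((‖w‖ ^ 2 : ℝ) : ℂ) = 1 - t := by rw [ht]; simp
    simp only [ofReal_neg]
    rw [jet_neg hU hx _ (ofReal_smooth (s1.log fun y hy => (hp y hy).ne')),
      jet_log hU hx _ s1 hp, e1, jet_sub hU hx _ contDiffOn_const (ofReal_smooth (sfun_smooth D)),
      jet_const, jS, e2, show J.C 1 = 1 from map_one _]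
    have := Ljet_alg w (conj w) t (-Real.log t) (ν i) (ν m) (ν j) (ν l) (P.xz i j) (P.xz i l)
      (P.xz m j) (P.xz m l) (P.xe i j l) (P.xe m j l) (P.dz i m j) (P.dz i m l) (P.de i m j l)
      htc e3
    rw [neg_neg] at this
    rw [this]
    simp only [Arr.toJ, Larr, e4, ofReal_neg]
  have aL : arr X B (fun y => ((-Real.log (1 - sfun D y) : ℝ) : ℂ)) x =
      Larr w (‖w‖ ^ 2) t (-Real.log t) ν P :=
    Arr.ext_toJ 0 fun i m j l => by rw [← jet_frm, jL]
  have aT : arr X B (cx (Phi0 D)) x =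
      Tot ς w (arr e b (cx D.A) z) (arr e b (cx D.φ) z) (arr e b (cx D.lam) z) := by
    refine Arr.ext_toJ 0 fun i m j l => ?_
    have e1 : cx (Phi0 D) = fun y => (D.A (pr 0 y) : ℂ) +
        (D.lam (pr 0 y) : ℂ) * ((-Real.log (1 - sfun D y) : ℝ) : ℂ) := by
      ext y; simp only [cx, Phi0, ofReal_add, ofReal_mul]
    rw [← jet_frm, e1, jet_add hU hx _ (ofReal_smooth (smp D.smA))
      ((ofReal_smooth (smp D.smlam)).mul (ofReal_smooth (Lfun_smooth D))),
      jet_mul hU hx _ (ofReal_smooth (smp D.smlam)) (ofReal_smooth (Lfun_smooth D)), jL,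
      jet_frm, jet_frm, arr_pr D.smA hzB, arr_pr D.smlam hzB, Tot, Arr.toJ_add, Arr.toJ_mul]
  have hlam : D.lam z = ς ^ 32 := by
    have := hH.lm_o
    simp only [arr, cx] at this
    exact_mod_cast this
  refine ⟨X, B, fun V => ?_, fun i m => ?_, fun i => ?_, ?_⟩
  · obtain ⟨u, hu⟩ := he (pr 0 V)
    have hv0 : v 0 ≠ 0 := by
      simp only [hv, hP, Arr.pad, pad1_zero, mul_zero, sub_zero, hν, Fin.cons_zero]
      refine div_ne_zero ?_ hγc
      exact_mod_cast (div_pos ht0 (by positivity)).ne'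
    refine ⟨Fin.cons ((V 0 - ∑ i, u i * v i.succ) / v 0) u, ?_⟩
    ext j
    rw [Fin.sum_univ_succ]
    cases j using Fin.cases with
    | zero =>
      simp only [Fin.cons_zero, Fin.cons_succ, Pi.add_apply, Pi.smul_apply, Finset.sum_apply, hX,
        smul_eq_mul]
      field_simp
      ring
    | succ j =>
      have := congrFun hu j
      simp only [Fin.cons_zero, Fin.cons_succ, Pi.add_apply, Pi.smul_apply, Finset.sum_apply, hX,
        smul_eq_mul, padE, Pi.zero_apply, mul_zero, zero_add] at this ⊢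
      rw [← this]
      fin_cases j <;> rfl
  · have e1 : bv i m = bv m i := by simp only [hbv, Pd i m]; ring
    have e2 : padB b i m = padB b m i := by
      cases i using Fin.cases <;> cases m using Fin.cases <;> simp [padB, padE, hb _ _]
    simp only [hB, e1, e2]
  · set R : E 3 → ℝ := fun y => (D.lam (pr 0 y))⁻¹ + psi0 (pr 0 y) + -Real.log (1 - sfun D y)
      with hR
    have e1 : ∀ y ∈ U0 D, 1 / D.lam (pr 0 y) - Real.log (hh (pr 0 y) * (1 - sfun D y)) = R y := by
      intro y hy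
      rw [Real.log_mul (hh_pos hy.1).ne' (sub_pos.2 hy.2).ne', hR, one_div]
      simp only [psi0]; ring
    have dr : ∀ {f : E 3 → ℝ}, ContDiffOn ℝ ∞ f (U0 D) → DifferentiableAt ℝ f x := fun hf =>
      (hf.contDiffAt (hU.mem_nhds hx)).differentiableAt (by simp)
    have sinv : ContDiffOn ℝ ∞ (fun y => (D.lam (pr 0 y))⁻¹) (U0 D) :=
      (smp D.smlam).inv fun y hy => (D.lam_pos _ hy.1).ne'
    have sR : ContDiffOn ℝ ∞ R (U0 D) := (sinv.add (smp psi0_smooth)).add (Lfun_smooth D)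
    have hl0 : 0 < D.lam z := D.lam_pos _ hzB
    have hR1 : 1 / D.lam z ≤ R x := by rw [← e1 x hx]; exact rho0_arg_ge D hx
    have hR0 : 0 < R x := (one_div_pos.2 hl0).trans_le hR1
    have e2 : cx (rho0 D) =ᶠ[𝓝 x] fun y => (Real.log (R y) : ℂ) := by
      filter_upwards [hU.mem_nhds hx] with y hy
      simp only [cx, rho0, e1 y hy]
    have e3 : cx R = fun y => (((D.lam (pr 0 y))⁻¹ : ℝ) : ℂ) + (psi0 (pr 0 y) : ℂ) +
        ((-Real.log (1 - sfun D y) : ℝ) : ℂ) := by
      ext y; simp only [cx, hR, ofReal_add]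
    have d1 := diffAt hU (ofReal_smooth sinv) hx
    have d2 := diffAt hU (ofReal_smooth (smp psi0_smooth)) hx
    have d3 := diffAt hU (ofReal_smooth (Lfun_smooth D)) hx
    rw [(dz_congr_ev e2 _).eq_of_nhds, dz_comp_real (Real.hasDerivAt_log hR0.ne') (dr sR), e3,
      dz_add (d1.fun_add d2) d3, dz_add d1 d2,
      dz_comp_real (g := fun r => r⁻¹) (u := fun y => D.lam (pr 0 y)) (hasDerivAt_inv hl0.ne')
        (dr (smp D.smlam))]
    have b1 : ‖dz (X i) (cx fun y => D.lam (pr 0 y)) x‖ ≤ ς ^ 32 := by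
      have := congrArg (fun a => a.x i) (arr_pr D.smlam hzB v bv e b)
      refine (congrArg norm this).trans_le ?_
      cases i using Fin.cases with
      | zero => simp [Arr.pad]; positivity
      | succ i =>
        refine (hH.lm_x i).trans ?_
        calc ε * ς ^ 33 ≤ 1 * ς ^ 32 :=
              mul_le_mul hε1 (pow_le_pow_of_le_one hς.le hς1 (by norm_num)) (by positivity)
                zero_le_one
          _ = _ := one_mul _
    have i1 : ς⁻¹ ≤ (ς ^ 32)⁻¹ :=
      inv_anti₀ (by positivity) (pow_le_of_le_one hς.le hς1 (by norm_num))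
    have i2 : (ς ^ 16)⁻¹ ≤ (ς ^ 32)⁻¹ :=
      inv_anti₀ (by positivity) (pow_le_pow_of_le_one hς.le hς1 (by norm_num))
    have b2 : ‖dz (X i) (fun y => (psi0 (pr 0 y) : ℂ)) x‖ ≤ 2 * (ς ^ 32)⁻¹ := by
      have := congrArg (fun a => a.x i) (arr_pr psi0_smooth hzB v bv e b)
      refine (congrArg norm this).trans_le ?_
      cases i using Fin.cases with
      | zero => simp [Arr.pad]; positivity
      | succ i =>
        refine (hψ i).trans ?_
        rw [div_eq_mul_inv]; gcongr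
    have b3 : ‖dz (X i) (fun y => ((-Real.log (1 - sfun D y) : ℝ) : ℂ)) x‖ ≤ (ς ^ 32)⁻¹ := by
      have := congrArg (fun a => a.x i) aL
      refine (congrArg norm this).trans_le ?_
      cases i using Fin.cases with
      | zero =>
        have : (conj w * ((t / ς ^ 16 : ℝ) : ℂ) / t) = conj w * ((ς ^ 16)⁻¹ : ℝ) := by
          push_cast; field_simp
        simp only [Larr, hν, Fin.cons_zero, this, norm_mul, norm_conj, Complex.norm_real,
          Real.norm_eq_abs]
        rw [abs_of_pos (by positivity)]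
        calc _ ≤ 1 * (ς ^ 32)⁻¹ := by gcongr
          _ = _ := one_mul _
      | succ i => simp [Larr, hν]; positivity
    rw [hlam] at hR1
    have b4 : ‖((-(D.lam (pr 0 x) ^ 2)⁻¹ : ℝ) : ℂ) * dz (X i) (cx fun y => D.lam (pr 0 y)) x‖ ≤
        (ς ^ 32)⁻¹ := by
      rw [norm_mul, Complex.norm_real, ← hz, hlam, norm_neg, Real.norm_eq_abs,
        abs_of_pos (by positivity)]
      calc _ ≤ ((ς ^ 32) ^ 2)⁻¹ * ς ^ 32 := by gcongr
        _ = _ := by field_simp
    rw [norm_mul, Complex.norm_real, Real.norm_eq_abs, abs_of_pos (inv_pos.2 hR0)]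
    have b5 := (norm_add_le _ _).trans (add_le_add ((norm_add_le _ _).trans (add_le_add b4 b2)) b3)
    have b6 : (R x)⁻¹ ≤ ς ^ 32 := by
      rw [inv_le_comm₀ hR0 (by positivity), ← one_div]; exact hR1
    calc _ ≤ ς ^ 32 * ((ς ^ 32)⁻¹ + 2 * (ς ^ 32)⁻¹ + (ς ^ 32)⁻¹) := by gcongr
      _ = 4 := by field_simp; norm_num
      _ ≤ 10 := by norm_num
  · rw [aT, hlam]
    refine hN ς K3 k _ _ _ w hH hw1 fun i j => ?_
    rw [← aT]
    exact dz_dzb_real hU (Phi0_smooth D) hx _ _

end Crest.Agent.R245
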