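import Crest.Agent.R245.Basic

/-! Row 245: algebraic identities for the jets on the Hartogs domain. -/

set_option autoImplicit false

namespace Crest.Agent.R245

set_option maxHeartbeats 4000000 in
theorem Ljet_alg (w wb t L0 a b c d k11 k12 k21 k22 p1 p2 q1 q2 r : ℂ) (ht : t ≠ 0)
    (h : w * wb = 1 - t) :
    -J.comp (-L0) t⁻¹ (-(t ^ 2)⁻¹) (2 * (t ^ 3)⁻¹) (-6 * (t ^ 4)⁻¹)
      (1 - J.hol w a b (-2 * wb * a * b / t) * J.anti wb c d (-2 * w * c * d / t) *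
        J.comp 1 1 1 1 1 (J.mk16 0 0 0 0 0 k11 k12 p1 0 k21 k22 p2 0 q1 q2 r)) =
    J.mk16 L0 (w * c / t) (w * d / t) (-(w ^ 2 * c * d / t ^ 2))
      (wb * a / t) (a * c / t ^ 2 + (1 - t) / t * k11) (a * d / t ^ 2 + (1 - t) / t * k12)
      ((1 - t) / t * p1 + w / t ^ 2 * (c * k12 + d * k11))
      (wb * b / t) (b * c / t ^ 2 + (1 - t) / t * k21) (b * d / t ^ 2 + (1 - t) / t * k22)
      ((1 - t) / t * p2 + w / t ^ 2 * (c * k22 + d * k21))
      (-(wb ^ 2 * a * b / t ^ 2)) ((1 - t) / t * q1 + wb / t ^ 2 * (a * k21 + b * k11))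
      ((1 - t) / t * q2 + wb / t ^ 2 * (a * k22 + b * k12))
      ((1 - t) / t * r + (1 - t) / t ^ 2 * (k11 * k22 + k12 * k21) +
        w / t ^ 2 * (c * q2 + d * q1) + wb / t ^ 2 * (a * p2 + b * p1) +
        (1 + (1 - t)) / t ^ 3 * (a * c * k22 + a * d * k21 + b * c * k12 + b * d * k11) +
        2 / t ^ 4 * a * b * c * d) := by
  have e : t = 1 - w * wb := by rw [h]; ring
  ext <;> simp [J.comp, J.nil, pow_succ] <;> field_simp <;> subst e <;> ring

set_option maxHeartbeats 4000000 in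
theorem exp_split (γ o zj zl e xi xk d k11 k12 k21 k22 p1 p2 q1 q2 r : ℂ) :
    J.comp (γ ^ 2) (γ ^ 2) (γ ^ 2) (γ ^ 2) (γ ^ 2)
      (J.mk16 o zj zl e xi k11 k12 p1 xk k21 k22 p2 d q1 q2 r) =
    J.hol γ (γ * xi) (γ * xk) (γ * (d + xi * xk)) * J.anti γ (γ * zj) (γ * zl) (γ * (e + zj * zl)) *
      J.comp 1 1 1 1 1 (J.mk16 0 0 0 0 0 k11 k12 p1 0 k21 k22 p2 0 q1 q2 r) := by
  ext <;> simp [J.comp, J.nil, pow_succ] <;> ring

theorem hol_mul (a b c d a' b' c' d' : ℂ) : J.hol a b c d * J.hol a' b' c' d' =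
    J.hol (a * a') (a * b' + b * a') (a * c' + c * a') (a * d' + b * c' + c * b' + d * a') := by
  ext <;> simp <;> ring

theorem anti_mul (a b c d a' b' c' d' : ℂ) : J.anti a b c d * J.anti a' b' c' d' =
    J.anti (a * a') (a * b' + b * a') (a * c' + c * a') (a * d' + b * c' + c * b' + d * a') := by
  ext <;> simp <;> ring

end Crest.Agent.R245
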