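import Crest.Agent.R245.Du

/-! Row 245: Wirtinger derivatives and `(2,2)`-jets of smooth functions on open sets of `ℂⁿ`. -/

set_option autoImplicit false

open Complex
open scoped ContDiff ComplexConjugate Topology

namespace Crest.Agent.R245

abbrev E (n : ℕ) : Type := Fin n → ℂ

variable {n : ℕ}

/-- holomorphic derivative in the direction `X` -/
noncomputable def dz (X : E n) (f : E n → ℂ) : E n → ℂ :=
  fun p => (fderiv ℝ f p X - I * fderiv ℝ f p (I • X)) / 2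

/-- antiholomorphic derivative in the direction `X` -/
noncomputable def dzb (X : E n) (f : E n → ℂ) : E n → ℂ :=
  fun p => (fderiv ℝ f p X + I * fderiv ℝ f p (I • X)) / 2

/-- the second order operator `∂_X ∂_Y + ∂_b` -/
noncomputable def op2 (X Y b : E n) (f : E n → ℂ) : E n → ℂ :=
  fun p => dz X (dz Y f) p + dz b f p

/-- the conjugate second order operator -/
noncomputable def op2b (Z W c : E n) (f : E n → ℂ) : E n → ℂ :=
  fun p => dzb Z (dzb W f) p + dzb c f p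

/-- a frame: the data of the operators `∂_X, ∂_Y, ∂_X ∂_Y + ∂_b` and of the conjugates of
`∂_Z, ∂_W, ∂_Z ∂_W + ∂_c` -/
structure Fr (n : ℕ) where
  X : E n
  Y : E n
  b : E n
  Z : E n
  W : E n
  c : E n

/-- the `(2,2)`-jet of `f` at `p` with respect to the frame `F` -/
noncomputable def jet (F : Fr n) (f : E n → ℂ) (p : E n) : J :=
  J.mk16 (f p) (dzb F.Z f p) (dzb F.W f p) (op2b F.Z F.W F.c f p)
    (dz F.X f p) (dz F.X (dzb F.Z f) p) (dz F.X (dzb F.W f) p) (dz F.X (op2b F.Z F.W F.c f) p)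
    (dz F.Y f p) (dz F.Y (dzb F.Z f) p) (dz F.Y (dzb F.W f) p) (dz F.Y (op2b F.Z F.W F.c f) p)
    (op2 F.X F.Y F.b f p) (op2 F.X F.Y F.b (dzb F.Z f) p) (op2 F.X F.Y F.b (dzb F.W f) p)
    (op2 F.X F.Y F.b (op2b F.Z F.W F.c f) p)

/-! ### the algebraic model -/

section alg
variable {R : Type} [CommRing R] [Algebra ℂ R]

/-- jets for six derivations and an evaluation -/
noncomputable def ajet (ev : R →ₐ[ℂ] ℂ) (X Y b Z W c : Derivation ℂ R R) (f : R) : J :=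
  J.mk16 (ev f) (ev (Z f)) (ev (W f)) (ev (Z (W f) + c f))
    (ev (X f)) (ev (X (Z f))) (ev (X (W f))) (ev (X (Z (W f) + c f)))
    (ev (Y f)) (ev (Y (Z f))) (ev (Y (W f))) (ev (Y (Z (W f) + c f)))
    (ev (X (Y f) + b f)) (ev (X (Y (Z f)) + b (Z f))) (ev (X (Y (W f)) + b (W f)))
    (ev (X (Y (Z (W f) + c f)) + b (Z (W f) + c f)))

variable (ev : R →ₐ[ℂ] ℂ) (X Y b Z W c : Derivation ℂ R R)

set_option maxHeartbeats 2000000 in
theorem ajet_mul (f g : R) :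
    ajet ev X Y b Z W c (f * g) = ajet ev X Y b Z W c f * ajet ev X Y b Z W c g := by
  ext <;> simp [ajet] <;> ring

theorem ajet_add (f g : R) :
    ajet ev X Y b Z W c (f + g) = ajet ev X Y b Z W c f + ajet ev X Y b Z W c g := by
  ext <;> simp [ajet] <;> ring

theorem ajet_smul (a : ℂ) (f : R) :
    ajet ev X Y b Z W c (a • f) = a • ajet ev X Y b Z W c f := by
  ext <;> simp [ajet] <;> ring

set_option maxHeartbeats 4000000 in
theorem ajet_comp (u f0 f1 f2 f3 f4 : R)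
    (h : ∀ d ∈ [X, Y, b, Z, W, c], d f0 = f1 * d u ∧ d f1 = f2 * d u ∧ d f2 = f3 * d u ∧
      d f3 = f4 * d u) :
    ajet ev X Y b Z W c f0 =
      J.comp (ev f0) (ev f1) (ev f2) (ev f3) (ev f4) (ajet ev X Y b Z W c u) := by
  simp only [List.mem_cons, List.not_mem_nil, or_false, forall_eq_or_imp, forall_eq] at h
  obtain ⟨⟨x0, x1, x2, x3⟩, ⟨y0, y1, y2, -⟩, ⟨b0, b1, b2, -⟩, ⟨z0, z1, -, -⟩, ⟨w0, -, -, -⟩,
    ⟨c0, -, -, -⟩⟩ := h
  ext <;> simp [ajet, J.comp, J.nil, pow_succ, x0, x1, x2, x3, y0, y1, y2, b0, b1, b2, z0, z1, w0,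
    c0] <;> ring

end alg

/-! ### first order operators -/

/-- `dz` and `dzb` in one definition -/
noncomputable def dd (s : ℂ) (X : E n) (f : E n → ℂ) : E n → ℂ :=
  fun p => (fderiv ℝ f p X + s * fderiv ℝ f p (I • X)) / 2

theorem dz_eq_dd (X : E n) (f : E n → ℂ) : dz X f = dd (-I) X f := by
  ext p; simp [dz, dd, sub_eq_add_neg]

theorem dzb_eq_dd (X : E n) (f : E n → ℂ) : dzb X f = dd I X f := rfl

variable {U : Set (E n)} {f g : E n → ℂ} {p : E n}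

theorem diffAt (hU : IsOpen U) (hf : ContDiffOn ℝ ∞ f U) (hp : p ∈ U) :
    DifferentiableAt ℝ f p :=
  (hf.contDiffAt (hU.mem_nhds hp)).differentiableAt (by simp)

theorem contDiffOn_fderiv_apply (hU : IsOpen U) (hf : ContDiffOn ℝ ∞ f U) (X : E n) :
    ContDiffOn ℝ ∞ (fun p => fderiv ℝ f p X) U :=
  (hf.fderiv_of_isOpen hU (by simp)).clm_apply contDiffOn_const

theorem dd_smooth (hU : IsOpen U) (hf : ContDiffOn ℝ ∞ f U) (s : ℂ) (X : E n) :
    ContDiffOn ℝ ∞ (dd s X f) U :=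
  ((contDiffOn_fderiv_apply hU hf X).add
    (contDiffOn_const.mul (contDiffOn_fderiv_apply hU hf _))).div_const _

theorem dd_congr_ev (h : f =ᶠ[𝓝 p] g) (s : ℂ) (X : E n) : dd s X f =ᶠ[𝓝 p] dd s X g := by
  filter_upwards [h.eventuallyEq_nhds] with q hq
  simp only [dd, hq.fderiv_eq]

theorem dd_add (hf : DifferentiableAt ℝ f p) (hg : DifferentiableAt ℝ g p) (s : ℂ) (X : E n) :
    dd s X (fun x => f x + g x) p = dd s X f p + dd s X g p := by
  simp only [dd, fderiv_fun_add hf hg, add_apply]; ring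

theorem dd_mul (hf : DifferentiableAt ℝ f p) (hg : DifferentiableAt ℝ g p) (s : ℂ) (X : E n) :
    dd s X (fun x => f x * g x) p = f p * dd s X g p + g p * dd s X f p := by
  simp only [dd, fderiv_fun_mul hf hg, add_apply,
    smul_apply, smul_eq_mul]; ring

theorem dd_const (a s : ℂ) (X : E n) : dd s X (fun _ => a) = fun _ => 0 := by
  ext p; simp [dd]

/-! ### the ring of smooth functions on an open set -/

/-- smooth functions on `U` -/
def Sm (U : Set (E n)) : Subalgebra ℂ (U → ℂ) where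
  carrier := {f | ∃ F : E n → ℂ, ContDiffOn ℝ ∞ F U ∧ ∀ x : U, F x = f x}
  mul_mem' := by
    rintro f g ⟨F, hF, h1⟩ ⟨G, hG, h2⟩
    exact ⟨fun x => F x * G x, hF.mul hG, fun x => by simp [h1, h2]⟩
  add_mem' := by
    rintro f g ⟨F, hF, h1⟩ ⟨G, hG, h2⟩
    exact ⟨fun x => F x + G x, hF.add hG, fun x => by simp [h1, h2]⟩
  algebraMap_mem' c := ⟨fun _ => c, contDiffOn_const, fun _ => rfl⟩

/-- restriction -/
def res (f : E n → ℂ) (hf : ContDiffOn ℝ ∞ f U) : Sm U := ⟨fun x => f x, f, hf, fun _ => rfl⟩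

theorem res_surj (u : Sm U) : ∃ f hf, u = res f hf := by
  obtain ⟨u, F, hF, h⟩ := u
  exact ⟨F, hF, Subtype.ext (funext fun x => (h x).symm)⟩

theorem res_ext {hf : ContDiffOn ℝ ∞ f U} {hg : ContDiffOn ℝ ∞ g U} (h : Set.EqOn f g U) :
    res f hf = res g hg := Subtype.ext (funext fun x => h x.2)

theorem res_add (hf : ContDiffOn ℝ ∞ f U) (hg : ContDiffOn ℝ ∞ g U) :
    res f hf + res g hg = res (fun x => f x + g x) (hf.add hg) := rfl

theorem res_mul (hf : ContDiffOn ℝ ∞ f U) (hg : ContDiffOn ℝ ∞ g U) :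
    res f hf * res g hg = res (fun x => f x * g x) (hf.mul hg) := rfl

theorem res_smul (a : ℂ) (hf : ContDiffOn ℝ ∞ f U) :
    a • res f hf = res (fun x => a * f x) (contDiffOn_const.mul hf) := rfl

/-- `dd` on the ring of smooth functions -/
noncomputable def ddFun (hU : IsOpen U) (s : ℂ) (X : E n) (u : Sm U) : Sm U :=
  res (dd s X u.2.choose) (dd_smooth hU u.2.choose_spec.1 s X)

theorem ddFun_res (hU : IsOpen U) (s : ℂ) (X : E n) (hf : ContDiffOn ℝ ∞ f U) :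
    ddFun hU s X (res f hf) = res (dd s X f) (dd_smooth hU hf s X) := by
  refine res_ext fun p hp => (dd_congr_ev ?_ s X).eq_of_nhds
  filter_upwards [hU.mem_nhds hp] with q hq
  exact (res f hf).2.choose_spec.2 ⟨q, hq⟩

/-- `dd` as a derivation -/
noncomputable def ddD (hU : IsOpen U) (s : ℂ) (X : E n) : Derivation ℂ (Sm U) (Sm U) :=
  Derivation.mk'
    { toFun := ddFun hU s X
      map_add' := fun u v => by
        obtain ⟨f, hf, rfl⟩ := res_surj u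
        obtain ⟨g, hg, rfl⟩ := res_surj v
        rw [res_add, ddFun_res, ddFun_res, ddFun_res, res_add]
        exact res_ext fun p hp => dd_add (diffAt hU hf hp) (diffAt hU hg hp) s X
      map_smul' := fun a u => by
        obtain ⟨f, hf, rfl⟩ := res_surj u
        rw [res_smul, ddFun_res, ddFun_res, RingHom.id_apply, res_smul]
        refine res_ext fun p hp => ?_
        rw [dd_mul (differentiableAt_const a) (diffAt hU hf hp), dd_const]
        simp }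
    (fun u v => by
      obtain ⟨f, hf, rfl⟩ := res_surj u
      obtain ⟨g, hg, rfl⟩ := res_surj v
      simp only [LinearMap.coe_mk, AddHom.coe_mk, smul_eq_mul]
      rw [res_mul, ddFun_res, ddFun_res, ddFun_res, res_mul, res_mul, res_add]
      exact res_ext fun p hp => dd_mul (diffAt hU hf hp) (diffAt hU hg hp) s X)

theorem ddD_res (hU : IsOpen U) (s : ℂ) (X : E n) (hf : ContDiffOn ℝ ∞ f U) :
    ddD hU s X (res f hf) = res (dd s X f) (dd_smooth hU hf s X) := ddFun_res hU s X hf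

/-- evaluation -/
def evA (hp : p ∈ U) : Sm U →ₐ[ℂ] ℂ where
  toFun u := u.1 ⟨p, hp⟩
  map_one' := rfl
  map_mul' _ _ := rfl
  map_zero' := rfl
  map_add' _ _ := rfl
  commutes' _ := rfl

theorem evA_res (hp : p ∈ U) (hf : ContDiffOn ℝ ∞ f U) : evA hp (res f hf) = f p := rfl

theorem jet_eq_ajet (hU : IsOpen U) (hp : p ∈ U) (F : Fr n) (hf : ContDiffOn ℝ ∞ f U) :
    jet F f p = ajet (evA hp) (ddD hU (-I) F.X) (ddD hU (-I) F.Y) (ddD hU (-I) F.b)
      (ddD hU I F.Z) (ddD hU I F.W) (ddD hU I F.c) (res f hf) := by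
  simp only [ajet, ddD_res, res_add, evA_res, jet, ← dz_eq_dd, ← dzb_eq_dd]
  rfl

/-! ### the calculus of jets -/

theorem dz_smooth (hU : IsOpen U) (hf : ContDiffOn ℝ ∞ f U) (X : E n) :
    ContDiffOn ℝ ∞ (dz X f) U := by rw [dz_eq_dd]; exact dd_smooth hU hf _ X

theorem dzb_smooth (hU : IsOpen U) (hf : ContDiffOn ℝ ∞ f U) (X : E n) :
    ContDiffOn ℝ ∞ (dzb X f) U := dd_smooth hU hf _ X

theorem dz_congr_ev (h : f =ᶠ[𝓝 p] g) (X : E n) : dz X f =ᶠ[𝓝 p] dz X g := by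
  rw [dz_eq_dd, dz_eq_dd]; exact dd_congr_ev h _ X

theorem dzb_congr_ev (h : f =ᶠ[𝓝 p] g) (X : E n) : dzb X f =ᶠ[𝓝 p] dzb X g :=
  dd_congr_ev h _ X

theorem op2_congr_ev (h : f =ᶠ[𝓝 p] g) (X Y b : E n) : op2 X Y b f =ᶠ[𝓝 p] op2 X Y b g := by
  filter_upwards [dz_congr_ev (dz_congr_ev h Y) X, dz_congr_ev h b] with q h1 h2
  simp only [op2, h1, h2]

theorem op2b_congr_ev (h : f =ᶠ[𝓝 p] g) (X Y b : E n) : op2b X Y b f =ᶠ[𝓝 p] op2b X Y b g := by
  filter_upwards [dzb_congr_ev (dzb_congr_ev h Y) X, dzb_congr_ev h b] with q h1 h2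
  simp only [op2b, h1, h2]

theorem jet_congr (F : Fr n) (h : f =ᶠ[𝓝 p] g) : jet F f p = jet F g p := by
  have h1 := dzb_congr_ev h F.Z
  have h2 := dzb_congr_ev h F.W
  have h3 := op2b_congr_ev h F.Z F.W F.c
  simp only [jet, h.eq_of_nhds, h1.eq_of_nhds, h2.eq_of_nhds, h3.eq_of_nhds,
    (dz_congr_ev h _).eq_of_nhds, (dz_congr_ev h1 _).eq_of_nhds, (dz_congr_ev h2 _).eq_of_nhds,
    (dz_congr_ev h3 _).eq_of_nhds, (op2_congr_ev h _ _ _).eq_of_nhds,
    (op2_congr_ev h1 _ _ _).eq_of_nhds, (op2_congr_ev h2 _ _ _).eq_of_nhds,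
    (op2_congr_ev h3 _ _ _).eq_of_nhds]

theorem jet_congr_on (hU : IsOpen U) (hp : p ∈ U) (F : Fr n) (h : Set.EqOn f g U) :
    jet F f p = jet F g p := jet_congr F (h.eventuallyEq_of_mem (hU.mem_nhds hp))

theorem jet_oo (F : Fr n) (f : E n → ℂ) (p : E n) : (jet F f p).oo = f p := rfl

theorem jet_add (hU : IsOpen U) (hp : p ∈ U) (F : Fr n) (hf : ContDiffOn ℝ ∞ f U)
    (hg : ContDiffOn ℝ ∞ g U) : jet F (fun x => f x + g x) p = jet F f p + jet F g p := by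
  rw [jet_eq_ajet hU hp F hf, jet_eq_ajet hU hp F hg, jet_eq_ajet hU hp F (hf.add hg), ← ajet_add,
    res_add]

theorem jet_mul (hU : IsOpen U) (hp : p ∈ U) (F : Fr n) (hf : ContDiffOn ℝ ∞ f U)
    (hg : ContDiffOn ℝ ∞ g U) : jet F (fun x => f x * g x) p = jet F f p * jet F g p := by
  rw [jet_eq_ajet hU hp F hf, jet_eq_ajet hU hp F hg, jet_eq_ajet hU hp F (hf.mul hg), ← ajet_mul,
    res_mul]

theorem jet_const_mul (hU : IsOpen U) (hp : p ∈ U) (F : Fr n) (a : ℂ) (hf : ContDiffOn ℝ ∞ f U) :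
    jet F (fun x => a * f x) p = a • jet F f p := by
  rw [jet_eq_ajet hU hp F hf, jet_eq_ajet hU hp F (contDiffOn_const.mul hf), ← ajet_smul,
    res_smul]

theorem jet_const (F : Fr n) (a : ℂ) (p : E n) : jet F (fun _ => a) p = J.C a := by
  have h1 : ∀ (a : ℂ) (X : E n), dz X (fun _ => a) = fun _ => 0 := fun a X => by
    rw [dz_eq_dd, dd_const]
  have h2 : ∀ (a : ℂ) (X : E n), dzb X (fun _ => a) = fun _ => 0 := fun a X => dd_const _ _ _
  have h3 : op2b F.Z F.W F.c (fun _ => a) = fun _ => 0 := by ext q; simp [op2b, h2]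
  ext <;> simp [jet, h1, h2, h3, op2]

theorem jet_neg (hU : IsOpen U) (hp : p ∈ U) (F : Fr n) (hf : ContDiffOn ℝ ∞ f U) :
    jet F (fun x => -f x) p = -jet F f p := by
  have := jet_const_mul hU hp F (-1) hf
  simpa using this

theorem jet_sub (hU : IsOpen U) (hp : p ∈ U) (F : Fr n) (hf : ContDiffOn ℝ ∞ f U)
    (hg : ContDiffOn ℝ ∞ g U) : jet F (fun x => f x - g x) p = jet F f p - jet F g p := by
  simp only [sub_eq_add_neg]
  rw [jet_add hU hp F hf hg.neg, jet_neg hU hp F hg]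

theorem jet_sum (hU : IsOpen U) (hp : p ∈ U) (F : Fr n) {ι : Type} (s : Finset ι)
    {f : ι → E n → ℂ} (hf : ∀ i ∈ s, ContDiffOn ℝ ∞ (f i) U) :
    jet F (fun x => ∑ i ∈ s, f i x) p = ∑ i ∈ s, jet F (f i) p := by
  classical
  induction s using Finset.induction_on with
  | empty => simpa using jet_const F 0 p
  | insert a s ha ih =>
    simp only [Finset.sum_insert ha]
    rw [jet_add hU hp F (hf a (Finset.mem_insert_self _ _))
      (ContDiffOn.sum fun i hi => hf i (Finset.mem_insert_of_mem hi)),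
      ih fun i hi => hf i (Finset.mem_insert_of_mem hi)]

theorem jet_pow (hU : IsOpen U) (hp : p ∈ U) (F : Fr n) (hf : ContDiffOn ℝ ∞ f U) (k : ℕ) :
    jet F (fun x => f x ^ k) p = jet F f p ^ k := by
  induction k with
  | zero => simpa using jet_const F 1 p
  | succ k ih => simp only [pow_succ]; rw [jet_mul hU hp F (hf.pow k) hf, ih]

/-- chain rule for a tower `f0, …, f4` of functions with `d f_k = f_{k+1} d u` -/
theorem jet_tower (hU : IsOpen U) (hp : p ∈ U) (F : Fr n) {u f0 f1 f2 f3 f4 : E n → ℂ}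
    (hu : ContDiffOn ℝ ∞ u U) (h0 : ContDiffOn ℝ ∞ f0 U) (h1 : ContDiffOn ℝ ∞ f1 U)
    (h2 : ContDiffOn ℝ ∞ f2 U) (h3 : ContDiffOn ℝ ∞ f3 U) (h4 : ContDiffOn ℝ ∞ f4 U)
    (d0 : ∀ q ∈ U, ∀ X, fderiv ℝ f0 q X = f1 q * fderiv ℝ u q X)
    (d1 : ∀ q ∈ U, ∀ X, fderiv ℝ f1 q X = f2 q * fderiv ℝ u q X)
    (d2 : ∀ q ∈ U, ∀ X, fderiv ℝ f2 q X = f3 q * fderiv ℝ u q X)
    (d3 : ∀ q ∈ U, ∀ X, fderiv ℝ f3 q X = f4 q * fderiv ℝ u q X) :
    jet F f0 p = J.comp (f0 p) (f1 p) (f2 p) (f3 p) (f4 p) (jet F u p) := by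
  have key : ∀ {a b : E n → ℂ} (ha : ContDiffOn ℝ ∞ a U) (hb : ContDiffOn ℝ ∞ b U),
      (∀ q ∈ U, ∀ X, fderiv ℝ a q X = b q * fderiv ℝ u q X) → ∀ s X,
      ddD hU s X (res a ha) = res b hb * ddD hU s X (res u hu) := by
    intro a b ha hb h s X
    rw [ddD_res, ddD_res, res_mul]
    refine res_ext fun q hq => ?_
    simp only [dd, h q hq]; ring
  rw [jet_eq_ajet hU hp F h0, jet_eq_ajet hU hp F hu,
    ajet_comp _ _ _ _ _ _ _ (res u hu) _ (res f1 h1) (res f2 h2) (res f3 h3) (res f4 h4)]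
  · rfl
  · simp only [List.mem_cons, List.not_mem_nil, or_false, forall_eq_or_imp, forall_eq]
    refine ⟨?_, ?_, ?_, ?_, ?_, ?_⟩ <;>
      exact ⟨key h0 h1 d0 _ _, key h1 h2 d1 _ _, key h2 h3 d2 _ _, key h3 h4 d3 _ _⟩

/-- chain rule for a holomorphic tower -/
theorem jet_comp_hol (hU : IsOpen U) (hp : p ∈ U) (F : Fr n) {u : E n → ℂ}
    (hu : ContDiffOn ℝ ∞ u U) {V : Set ℂ} (hV : IsOpen V) (huV : Set.MapsTo u U V)
    {g0 g1 g2 g3 g4 : ℂ → ℂ} (d0 : ∀ x ∈ V, HasDerivAt g0 (g1 x) x)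
    (d1 : ∀ x ∈ V, HasDerivAt g1 (g2 x) x) (d2 : ∀ x ∈ V, HasDerivAt g2 (g3 x) x)
    (d3 : ∀ x ∈ V, HasDerivAt g3 (g4 x) x) (d4 : DifferentiableOn ℂ g4 V) :
    jet F (fun x => g0 (u x)) p =
      J.comp (g0 (u p)) (g1 (u p)) (g2 (u p)) (g3 (u p)) (g4 (u p)) (jet F u p) := by
  have sm : ∀ {g : ℂ → ℂ}, DifferentiableOn ℂ g V → ContDiffOn ℝ ∞ (fun x => g (u x)) U :=
    fun hg => ((hg.contDiffOn hV).restrict_scalars ℝ).comp hu huV
  have df : ∀ {g g' : ℂ → ℂ}, (∀ x ∈ V, HasDerivAt g (g' x) x) → DifferentiableOn ℂ g V :=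
    fun h x hx => (h x hx).differentiableAt.differentiableWithinAt
  have ch : ∀ {g g' : ℂ → ℂ}, (∀ x ∈ V, HasDerivAt g (g' x) x) → ∀ q ∈ U, ∀ X,
      fderiv ℝ (fun x => g (u x)) q X = g' (u q) * fderiv ℝ u q X := by
    intro g g' h q hq X
    have := ((h _ (huV hq)).hasFDerivAt.restrictScalars ℝ).comp q (diffAt hU hu hq).hasFDerivAt
    rw [show (fun x => g (u x)) = g ∘ u from rfl, this.fderiv]
    simp [mul_comm]
  have := jet_tower hU hp F hu (sm (df d0)) (sm (df d1)) (sm (df d2)) (sm (df d3)) (sm d4)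
    (ch d0) (ch d1) (ch d2) (ch d3)
  exact this

theorem jet_exp (hU : IsOpen U) (hp : p ∈ U) (F : Fr n) {u : E n → ℂ}
    (hu : ContDiffOn ℝ ∞ u U) : jet F (fun x => cexp (u x)) p =
      J.comp (cexp (u p)) (cexp (u p)) (cexp (u p)) (cexp (u p)) (cexp (u p)) (jet F u p) :=
  jet_comp_hol hU hp F hu isOpen_univ (Set.mapsTo_univ _ _) (fun x _ => Complex.hasDerivAt_exp x)
    (fun x _ => Complex.hasDerivAt_exp x) (fun x _ => Complex.hasDerivAt_exp x)
    (fun x _ => Complex.hasDerivAt_exp x) Complex.differentiable_exp.differentiableOn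

theorem ofReal_smooth {u : E n → ℝ} (hu : ContDiffOn ℝ ∞ u U) :
    ContDiffOn ℝ ∞ (fun x => (u x : ℂ)) U := Complex.ofRealCLM.contDiff.comp_contDiffOn hu

/-- chain rule for a smooth real function -/
theorem jet_comp_real (hU : IsOpen U) (hp : p ∈ U) (F : Fr n) {u : E n → ℝ}
    (hu : ContDiffOn ℝ ∞ u U) {V : Set ℝ} (huV : Set.MapsTo u U V)
    {g0 g1 g2 g3 g4 : ℝ → ℝ} (s0 : ContDiffOn ℝ ∞ g0 V) (s1 : ContDiffOn ℝ ∞ g1 V)
    (s2 : ContDiffOn ℝ ∞ g2 V) (s3 : ContDiffOn ℝ ∞ g3 V) (s4 : ContDiffOn ℝ ∞ g4 V)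
    (d0 : ∀ x ∈ V, HasDerivAt g0 (g1 x) x) (d1 : ∀ x ∈ V, HasDerivAt g1 (g2 x) x)
    (d2 : ∀ x ∈ V, HasDerivAt g2 (g3 x) x) (d3 : ∀ x ∈ V, HasDerivAt g3 (g4 x) x) :
    jet F (fun x => (g0 (u x) : ℂ)) p =
      J.comp (g0 (u p)) (g1 (u p)) (g2 (u p)) (g3 (u p)) (g4 (u p))
        (jet F (fun x => (u x : ℂ)) p) := by
  have sm : ∀ {g : ℝ → ℝ}, ContDiffOn ℝ ∞ g V → ContDiffOn ℝ ∞ (fun x => (g (u x) : ℂ)) U :=
    fun hg => ofReal_smooth (hg.comp hu huV)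
  have ch : ∀ {g g' : ℝ → ℝ}, (∀ x ∈ V, HasDerivAt g (g' x) x) → ∀ q ∈ U, ∀ X,
      fderiv ℝ (fun x => (g (u x) : ℂ)) q X = (g' (u q) : ℂ) * fderiv ℝ (fun x => (u x : ℂ)) q X := by
    intro g g' h q hq X
    have hd : HasFDerivAt u (fderiv ℝ u q) q :=
      ((hu.contDiffAt (hU.mem_nhds hq)).differentiableAt (by simp)).hasFDerivAt
    have h1 := Complex.ofRealCLM.hasFDerivAt.comp q ((h _ (huV hq)).hasFDerivAt.comp q hd)
    have h2 := Complex.ofRealCLM.hasFDerivAt.comp q hd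
    rw [show (fun x => (g (u x) : ℂ)) = Complex.ofRealCLM ∘ g ∘ u from rfl, h1.fderiv,
      show (fun x => (u x : ℂ)) = Complex.ofRealCLM ∘ u from rfl, h2.fderiv]
    simp [mul_comm]
  have := jet_tower hU hp F (ofReal_smooth hu) (sm s0) (sm s1) (sm s2) (sm s3) (sm s4)
    (ch d0) (ch d1) (ch d2) (ch d3)
  exact this

/-- chain rule for a globally smooth real function -/
theorem jet_comp_smooth (hU : IsOpen U) (hp : p ∈ U) (F : Fr n) {u : E n → ℝ}
    (hu : ContDiffOn ℝ ∞ u U) {g : ℝ → ℝ} (hg : ContDiff ℝ ∞ g) :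
    jet F (fun x => (g (u x) : ℂ)) p =
      J.comp (g (u p)) ((deriv g (u p) : ℝ) : ℂ) ((deriv (deriv g) (u p) : ℝ) : ℂ)
        ((deriv (deriv (deriv g)) (u p) : ℝ) : ℂ)
        ((deriv (deriv (deriv (deriv g))) (u p) : ℝ) : ℂ) (jet F (fun x => (u x : ℂ)) p) := by
  have st : ∀ {g : ℝ → ℝ}, ContDiff ℝ ∞ g → ContDiff ℝ ∞ (deriv g) := fun h =>
    (contDiff_infty_iff_deriv.1 h).2
  have hd : ∀ {g : ℝ → ℝ}, ContDiff ℝ ∞ g → ∀ x ∈ Set.univ, HasDerivAt g (deriv g x) x :=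
    fun h x _ => ((contDiff_infty_iff_deriv.1 h).1 x).hasDerivAt
  exact jet_comp_real hU hp F hu (Set.mapsTo_univ _ _) hg.contDiffOn (st hg).contDiffOn
    (st (st hg)).contDiffOn (st (st (st hg))).contDiffOn (st (st (st (st hg)))).contDiffOn
    (hd hg) (hd (st hg)) (hd (st (st hg))) (hd (st (st (st hg))))

theorem jet_log (hU : IsOpen U) (hp : p ∈ U) (F : Fr n) {u : E n → ℝ}
    (hu : ContDiffOn ℝ ∞ u U) (hpos : ∀ x ∈ U, 0 < u x) :
    jet F (fun x => (Real.log (u x) : ℂ)) p =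
      J.comp (Real.log (u p)) (u p : ℂ)⁻¹ (-((u p : ℂ) ^ 2)⁻¹) (2 * ((u p : ℂ) ^ 3)⁻¹)
        (-6 * ((u p : ℂ) ^ 4)⁻¹) (jet F (fun x => (u x : ℂ)) p) := by
  have sm : ∀ k : ℕ, ContDiffOn ℝ ∞ (fun x : ℝ => (x ^ k)⁻¹) (Set.Ioi 0) := fun k =>
    (contDiffOn_id.pow k).inv fun x hx => pow_ne_zero _ (ne_of_gt hx)
  have := jet_comp_real hU hp F hu (V := Set.Ioi 0) hpos (g0 := Real.log) (g1 := fun x => x⁻¹)
    (g2 := fun x => -(x ^ 2)⁻¹) (g3 := fun x => 2 * (x ^ 3)⁻¹) (g4 := fun x => -6 * (x ^ 4)⁻¹)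
    (Real.contDiffOn_log.mono fun x hx => ne_of_gt hx) (by simpa using sm 1) (sm 2).neg
    (contDiffOn_const.mul (sm 3)) (contDiffOn_const.mul (sm 4))
    (fun x hx => Real.hasDerivAt_log (ne_of_gt hx)) (fun x hx => hasDerivAt_inv (ne_of_gt hx))
    (fun x hx => by
      have h0 : x ≠ 0 := ne_of_gt hx
      refine (((hasDerivAt_pow 2 x).fun_inv (pow_ne_zero 2 h0)).fun_neg).congr_deriv ?_
      norm_num
      field_simp)
    (fun x hx => by
      have h0 : x ≠ 0 := ne_of_gt hx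
      refine (((hasDerivAt_pow 3 x).fun_inv (pow_ne_zero 3 h0)).const_mul 2).congr_deriv ?_
      norm_num
      field_simp
      ring)
  simpa using this

end Crest.Agent.R245
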