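import Crest.Agent.R245.Jet

/-! Row 245: linearity, symmetry, conjugation and linear changes of variables for jets. -/

set_option autoImplicit false

open Complex
open scoped ContDiff ComplexConjugate Topology

namespace Crest.Agent.R245

variable {n m : ℕ} {U : Set (E n)} {f g : E n → ℂ} {p : E n}

/-! ### dependence on the direction -/

theorem fderiv_eq_dz_add_dzb (f : E n → ℂ) (p X : E n) :
    fderiv ℝ f p X = dz X f p + dzb X f p := by
  simp only [dz, dzb]; ring

theorem fderiv_smul_dir (f : E n → ℂ) (p X : E n) (a : ℂ) :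
    fderiv ℝ f p (a • X) = a.re * fderiv ℝ f p X + a.im * fderiv ℝ f p (I • X) := by
  have : a • X = a.re • X + a.im • (I • X) := by
    ext i; simp only [Pi.add_apply, Pi.smul_apply, smul_eq_mul, Complex.real_smul]
    conv_lhs => rw [← Complex.re_add_im a]
    ring
  rw [this, map_add, map_smul, map_smul]; simp

theorem dz_smul_dir (a : ℂ) (X : E n) (f : E n → ℂ) : dz (a • X) f = fun p => a * dz X f p := by
  ext p
  simp only [dz, smul_smul]
  rw [fderiv_smul_dir f p X a, fderiv_smul_dir f p X (I * a)]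
  conv_rhs => rw [← Complex.re_add_im a]
  simp only [mul_re, I_re, I_im, mul_im, zero_mul, one_mul, zero_sub, zero_add, ofReal_neg]
  linear_combination (a.im * fderiv ℝ f p (I • X) / 2 : ℂ) * I_mul_I

theorem dzb_smul_dir (a : ℂ) (X : E n) (f : E n → ℂ) :
    dzb (a • X) f = fun p => conj a * dzb X f p := by
  ext p
  simp only [dzb, smul_smul]
  rw [fderiv_smul_dir f p X a, fderiv_smul_dir f p X (I * a)]
  have : conj a = a.re - a.im * I := by apply Complex.ext <;> simp
  rw [this]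
  simp only [mul_re, I_re, I_im, mul_im, zero_mul, one_mul, zero_sub, zero_add, ofReal_neg]
  linear_combination (a.im * fderiv ℝ f p (I • X) / 2 : ℂ) * I_mul_I

theorem dz_add_dir (X Y : E n) (f : E n → ℂ) :
    dz (X + Y) f = fun p => dz X f p + dz Y f p := by
  ext p; simp only [dz, smul_add, map_add]; ring

theorem dzb_add_dir (X Y : E n) (f : E n → ℂ) :
    dzb (X + Y) f = fun p => dzb X f p + dzb Y f p := by
  ext p; simp only [dzb, smul_add, map_add]; ring

@[simp] theorem dz_zero_dir (f : E n → ℂ) : dz 0 f = fun _ => 0 := by ext p; simp [dz]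
@[simp] theorem dzb_zero_dir (f : E n → ℂ) : dzb 0 f = fun _ => 0 := by ext p; simp [dzb]
@[simp] theorem dz_const (a : ℂ) (X : E n) : dz X (fun _ => a) = fun _ => 0 := by
  rw [dz_eq_dd, dd_const]
@[simp] theorem dzb_const (a : ℂ) (X : E n) : dzb X (fun _ => a) = fun _ => 0 := dd_const _ _ _

theorem dz_neg_dir (X : E n) (f : E n → ℂ) : dz (-X) f = fun p => -dz X f p := by
  have := dz_smul_dir (-1) X f
  simpa using this

theorem dzb_neg_dir (X : E n) (f : E n → ℂ) : dzb (-X) f = fun p => -dzb X f p := by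
  have := dzb_smul_dir (-1) X f
  simpa using this

theorem dz_sum_dir {ι : Type} (s : Finset ι) (x : ι → ℂ) (X : ι → E n) (f : E n → ℂ) :
    dz (∑ i ∈ s, x i • X i) f = fun p => ∑ i ∈ s, x i * dz (X i) f p := by
  classical
  induction s using Finset.induction_on with
  | empty => simp
  | insert a s ha ih => simp only [Finset.sum_insert ha, dz_add_dir, dz_smul_dir, ih]

theorem dzb_sum_dir {ι : Type} (s : Finset ι) (x : ι → ℂ) (X : ι → E n) (f : E n → ℂ) :
    dzb (∑ i ∈ s, x i • X i) f = fun p => ∑ i ∈ s, conj (x i) * dzb (X i) f p := by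
  classical
  induction s using Finset.induction_on with
  | empty => simp
  | insert a s ha ih => simp only [Finset.sum_insert ha, dzb_add_dir, dzb_smul_dir, ih]

/-! ### dependence on the function -/

theorem dd_const_mul (a s : ℂ) (X : E n) (f : E n → ℂ) :
    dd s X (fun x => a * f x) = fun p => a * dd s X f p := by
  ext p
  have : fderiv ℝ (fun x => a * f x) p = a • fderiv ℝ f p := by
    have := congrFun (fderiv_const_smul_field (𝕜 := ℝ) (f := f) a) p
    simpa [Pi.smul_def] using this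
  simp only [dd, this, smul_apply, smul_eq_mul]; ring

theorem dz_const_mul (a : ℂ) (X : E n) (f : E n → ℂ) :
    dz X (fun x => a * f x) = fun p => a * dz X f p := by
  simp only [dz_eq_dd, dd_const_mul]

theorem dzb_const_mul (a : ℂ) (X : E n) (f : E n → ℂ) :
    dzb X (fun x => a * f x) = fun p => a * dzb X f p := dd_const_mul _ _ _ _

theorem dz_add (hf : DifferentiableAt ℝ f p) (hg : DifferentiableAt ℝ g p) (X : E n) :
    dz X (fun x => f x + g x) p = dz X f p + dz X g p := by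
  simp only [dz_eq_dd, dd_add hf hg]

theorem dzb_add (hf : DifferentiableAt ℝ f p) (hg : DifferentiableAt ℝ g p) (X : E n) :
    dzb X (fun x => f x + g x) p = dzb X f p + dzb X g p := dd_add hf hg _ _

theorem dz_mul (hf : DifferentiableAt ℝ f p) (hg : DifferentiableAt ℝ g p) (X : E n) :
    dz X (fun x => f x * g x) p = f p * dz X g p + g p * dz X f p := by
  simp only [dz_eq_dd, dd_mul hf hg]

theorem dzb_mul (hf : DifferentiableAt ℝ f p) (hg : DifferentiableAt ℝ g p) (X : E n) :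
    dzb X (fun x => f x * g x) p = f p * dzb X g p + g p * dzb X f p := dd_mul hf hg _ _

theorem dd_sum {ι : Type} (s : Finset ι) {f : ι → E n → ℂ}
    (hf : ∀ i ∈ s, DifferentiableAt ℝ (f i) p) (c : ℂ) (X : E n) :
    dd c X (fun x => ∑ i ∈ s, f i x) p = ∑ i ∈ s, dd c X (f i) p := by
  simp only [dd, fderiv_fun_sum hf, sum_apply, Finset.mul_sum,
    ← Finset.sum_add_distrib, Finset.sum_div]

theorem dz_sum {ι : Type} (s : Finset ι) {f : ι → E n → ℂ}
    (hf : ∀ i ∈ s, DifferentiableAt ℝ (f i) p) (X : E n) :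
    dz X (fun x => ∑ i ∈ s, f i x) p = ∑ i ∈ s, dz X (f i) p := by
  simp only [dz_eq_dd, dd_sum s hf]

theorem dzb_sum {ι : Type} (s : Finset ι) {f : ι → E n → ℂ}
    (hf : ∀ i ∈ s, DifferentiableAt ℝ (f i) p) (X : E n) :
    dzb X (fun x => ∑ i ∈ s, f i x) p = ∑ i ∈ s, dzb X (f i) p := dd_sum s hf _ _

/-! ### commutation -/

theorem fderiv_fderiv_comm (hU : IsOpen U) (hf : ContDiffOn ℝ ∞ f U) (hp : p ∈ U) (X Y : E n) :
    fderiv ℝ (fun q => fderiv ℝ f q Y) p X = fderiv ℝ (fun q => fderiv ℝ f q X) p Y := by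
  have h2 : ContDiffAt ℝ 2 f p := (hf.contDiffAt (hU.mem_nhds hp)).of_le (by
    exact WithTop.coe_le_coe.2 (le_top : (2 : ℕ∞) ≤ ⊤))
  have hs := h2.isSymmSndFDerivAt (by simp)
  have hd : DifferentiableAt ℝ (fderiv ℝ f) p :=
    (h2.fderiv_right (m := 1) (by norm_num)).differentiableAt (by simp)
  have e : ∀ Z W, fderiv ℝ (fun q => fderiv ℝ f q Z) p W = fderiv ℝ (fderiv ℝ f) p W Z := by
    intro Z W
    rw [fderiv_clm_apply hd (differentiableAt_const Z)]; simp
  rw [e, e, hs X Y]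

theorem dd_comm (hU : IsOpen U) (hf : ContDiffOn ℝ ∞ f U) (hp : p ∈ U) (s t : ℂ) (X Y : E n) :
    dd s X (dd t Y f) p = dd t Y (dd s X f) p := by
  have d : ∀ Z, DifferentiableAt ℝ (fun q => fderiv ℝ f q Z) p := fun Z =>
    diffAt hU (contDiffOn_fderiv_apply hU hf Z) hp
  have e : ∀ (t : ℂ) (Y V : E n), fderiv ℝ (dd t Y f) p V =
      (fderiv ℝ (fun q => fderiv ℝ f q Y) p V +
        t * fderiv ℝ (fun q => fderiv ℝ f q (I • Y)) p V) / 2 := by
    intro t Y V
    have h := (((d Y).hasFDerivAt.add ((d (I • Y)).hasFDerivAt.const_mul t))).mul_const (2 : ℂ)⁻¹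
    have e2 : dd t Y f = fun q => (fderiv ℝ f q Y + t * fderiv ℝ f q (I • Y)) * (2 : ℂ)⁻¹ := by
      ext q; simp [dd, div_eq_mul_inv]
    rw [e2]
    erw [h.fderiv]
    simp; ring
  simp only [dd, e]
  rw [fderiv_fderiv_comm hU hf hp X Y, fderiv_fderiv_comm hU hf hp X (I • Y),
    fderiv_fderiv_comm hU hf hp (I • X) Y, fderiv_fderiv_comm hU hf hp (I • X) (I • Y)]
  ring

theorem dz_dz_comm (hU : IsOpen U) (hf : ContDiffOn ℝ ∞ f U) (hp : p ∈ U) (X Y : E n) :
    dz X (dz Y f) p = dz Y (dz X f) p := by simp only [dz_eq_dd, dd_comm hU hf hp]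

theorem dzb_dzb_comm (hU : IsOpen U) (hf : ContDiffOn ℝ ∞ f U) (hp : p ∈ U) (X Y : E n) :
    dzb X (dzb Y f) p = dzb Y (dzb X f) p := dd_comm hU hf hp _ _ _ _

theorem dz_dzb_comm (hU : IsOpen U) (hf : ContDiffOn ℝ ∞ f U) (hp : p ∈ U) (X Y : E n) :
    dz X (dzb Y f) p = dzb Y (dz X f) p := by
  simp only [dz_eq_dd, dzb_eq_dd, dd_comm hU hf hp]

/-! ### conjugation -/

theorem fderiv_conj (f : E n → ℂ) (p X : E n) :
    fderiv ℝ (fun x => conj (f x)) p X = conj (fderiv ℝ f p X) := by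
  have := conjCLE.comp_fderiv (f := f) (x := p)
  have e : (fun x => conj (f x)) = conjCLE ∘ f := rfl
  rw [e, this]; rfl

theorem dz_conj (X : E n) (f : E n → ℂ) :
    dz X (fun x => conj (f x)) = fun p => conj (dzb X f p) := by
  ext p; simp only [dz, dzb, fderiv_conj, map_div₀, map_add, map_mul, conj_I, map_ofNat]; ring

theorem dzb_conj (X : E n) (f : E n → ℂ) :
    dzb X (fun x => conj (f x)) = fun p => conj (dz X f p) := by
  ext p; simp only [dz, dzb, fderiv_conj, map_div₀, map_sub, map_mul, conj_I, map_ofNat]; ring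

theorem dzb_real (X : E n) (u : E n → ℝ) :
    dzb X (fun x => (u x : ℂ)) = fun p => conj (dz X (fun x => (u x : ℂ)) p) := by
  rw [← dzb_conj]; simp

theorem dz_real (X : E n) (u : E n → ℝ) :
    dz X (fun x => (u x : ℂ)) = fun p => conj (dzb X (fun x => (u x : ℂ)) p) := by
  rw [← dz_conj]; simp

theorem op2b_real (X Y b : E n) (u : E n → ℝ) :
    op2b X Y b (fun x => (u x : ℂ)) = fun p => conj (op2 X Y b (fun x => (u x : ℂ)) p) := by
  ext p; simp only [op2b, op2, dzb_real Y, dzb_real b, dzb_conj, map_add]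

/-- the Levi form of a real function is Hermitian -/
theorem dz_dzb_real {u : E n → ℝ} (hU : IsOpen U) (hu : ContDiffOn ℝ ∞ u U) (hp : p ∈ U)
    (X Y : E n) : dz X (dzb Y (fun x => (u x : ℂ))) p =
      conj (dz Y (dzb X (fun x => (u x : ℂ))) p) := by
  rw [dz_dzb_comm hU (ofReal_smooth hu) hp Y X, dzb_real Y, dz_conj]

theorem ofReal_fderiv {u : E n → ℝ} (hu : DifferentiableAt ℝ u p) (X : E n) :
    fderiv ℝ (fun x => (u x : ℂ)) p X = (fderiv ℝ u p X : ℝ) := by
  have h2 := Complex.ofRealCLM.hasFDerivAt.comp p hu.hasFDerivAt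
  rw [show (fun x => (u x : ℂ)) = Complex.ofRealCLM ∘ u from rfl, h2.fderiv]; rfl

theorem fderiv_real_eq {u : E n → ℝ} (hu : DifferentiableAt ℝ u p) (X : E n) :
    fderiv ℝ u p X = 2 * (dz X (fun x => (u x : ℂ)) p).re := by
  have h := fderiv_eq_dz_add_dzb (fun x => (u x : ℂ)) p X
  rw [ofReal_fderiv hu, dzb_real] at h
  have := congrArg Complex.re h
  simp only [ofReal_re, add_re, conj_re] at this
  linarith

/-! ### affine changes of variables -/

/-- push a frame forward -/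
noncomputable def Fr.map (L : E n →L[ℂ] E m) (F : Fr n) : Fr m :=
  ⟨L F.X, L F.Y, L F.b, L F.Z, L F.W, L F.c⟩

theorem dd_affine (L : E n →L[ℂ] E m) (v : E m) {f : E m → ℂ}
    (hf : DifferentiableAt ℝ f (L p + v)) (s : ℂ) (X : E n) :
    dd s X (fun x => f (L x + v)) p = dd s (L X) f (L p + v) := by
  have h1 : HasFDerivAt (fun x => L x + v) (L.restrictScalars ℝ) p :=
    (L.restrictScalars ℝ).hasFDerivAt.add_const v
  have h2 := hf.hasFDerivAt.comp p h1
  have e : (fun x => f (L x + v)) = f ∘ fun x => L x + v := rfl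
  simp only [dd, e, h2.fderiv]
  simp

theorem dd_affine_ev (L : E n →L[ℂ] E m) (v : E m) {V : Set (E m)} (hV : IsOpen V) {f : E m → ℂ}
    (hf : ContDiffOn ℝ ∞ f V) (hp : L p + v ∈ V) (s : ℂ) (X : E n) :
    dd s X (fun x => f (L x + v)) =ᶠ[𝓝 p] fun x => dd s (L X) f (L x + v) := by
  have : ∀ᶠ x in 𝓝 p, L x + v ∈ V :=
    (L.continuous.add continuous_const).continuousAt.preimage_mem_nhds (hV.mem_nhds hp)
  filter_upwards [this] with x hx using dd_affine L v (diffAt hV hf hx) s X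

theorem op2b_smooth (hU : IsOpen U) (hf : ContDiffOn ℝ ∞ f U) (X Y b : E n) :
    ContDiffOn ℝ ∞ (op2b X Y b f) U :=
  (dzb_smooth hU (dzb_smooth hU hf Y) X).add (dzb_smooth hU hf b)

theorem op2_smooth (hU : IsOpen U) (hf : ContDiffOn ℝ ∞ f U) (X Y b : E n) :
    ContDiffOn ℝ ∞ (op2 X Y b f) U :=
  (dz_smooth hU (dz_smooth hU hf Y) X).add (dz_smooth hU hf b)

theorem jet_affine (L : E n →L[ℂ] E m) (v : E m) {V : Set (E m)} (hV : IsOpen V) {f : E m → ℂ}
    (hf : ContDiffOn ℝ ∞ f V) (hp : L p + v ∈ V) (F : Fr n) :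
    jet F (fun x => f (L x + v)) p = jet (F.map L) f (L p + v) := by
  have a1 : ∀ {f : E m → ℂ}, ContDiffOn ℝ ∞ f V → ∀ X,
      dz X (fun x => f (L x + v)) =ᶠ[𝓝 p] fun x => dz (L X) f (L x + v) := fun hf X => by
    simp only [dz_eq_dd]; exact dd_affine_ev L v hV hf hp _ X
  have a2 : ∀ {f : E m → ℂ}, ContDiffOn ℝ ∞ f V → ∀ X,
      dzb X (fun x => f (L x + v)) =ᶠ[𝓝 p] fun x => dzb (L X) f (L x + v) := fun hf X =>
    dd_affine_ev L v hV hf hp _ X
  have a3 : ∀ {f : E m → ℂ}, ContDiffOn ℝ ∞ f V → ∀ X Y b,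
      op2 X Y b (fun x => f (L x + v)) =ᶠ[𝓝 p] fun x => op2 (L X) (L Y) (L b) f (L x + v) := by
    intro f hf X Y b
    filter_upwards [(dz_congr_ev (a1 hf Y) X).trans (a1 (dz_smooth hV hf _) X), a1 hf b] with
      x h1 h2
    simp only [op2, h1, h2]
  have a4 : ∀ X Y b,
      op2b X Y b (fun x => f (L x + v)) =ᶠ[𝓝 p] fun x => op2b (L X) (L Y) (L b) f (L x + v) := by
    intro X Y b
    filter_upwards [(dzb_congr_ev (a2 hf Y) X).trans (a2 (dzb_smooth hV hf _) X), a2 hf b] with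
      x h1 h2
    simp only [op2b, h1, h2]
  have b1 := fun X Z => ((dz_congr_ev (a2 hf Z) X).trans (a1 (dzb_smooth hV hf _) X)).eq_of_nhds
  have b2 := fun X Z W c =>
    ((dz_congr_ev (a4 Z W c) X).trans (a1 (op2b_smooth hV hf _ _ _) X)).eq_of_nhds
  have b3 := fun X Y b Z =>
    ((op2_congr_ev (a2 hf Z) X Y b).trans (a3 (dzb_smooth hV hf _) X Y b)).eq_of_nhds
  have b4 := fun X Y b Z W c =>
    ((op2_congr_ev (a4 Z W c) X Y b).trans (a3 (op2b_smooth hV hf _ _ _) X Y b)).eq_of_nhds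
  simp only [jet, Fr.map, b1, b2, b3, b4, (a1 hf _).eq_of_nhds, (a2 hf _).eq_of_nhds,
    (a3 hf _ _ _).eq_of_nhds, (a4 _ _ _).eq_of_nhds]

theorem jet_linear (L : E n →L[ℂ] E m) {V : Set (E m)} (hV : IsOpen V) {f : E m → ℂ}
    (hf : ContDiffOn ℝ ∞ f V) (hp : L p ∈ V) (F : Fr n) :
    jet F (fun x => f (L x)) p = jet (F.map L) f (L p) := by
  simpa using jet_affine L 0 hV hf (by simpa using hp) F

/-! ### linear functionals -/

theorem dz_clm (l : E n →L[ℂ] ℂ) (X : E n) : dz X (fun x => l x) = fun _ => l X := by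
  ext p
  have : fderiv ℝ (fun x => l x) p = l.restrictScalars ℝ := (l.restrictScalars ℝ).fderiv
  simp only [dz, this, ContinuousLinearMap.coe_restrictScalars', map_smul, smul_eq_mul]
  linear_combination (-l X / 2) * I_mul_I

theorem dzb_clm (l : E n →L[ℂ] ℂ) (X : E n) : dzb X (fun x => l x) = fun _ => 0 := by
  ext p
  have : fderiv ℝ (fun x => l x) p = l.restrictScalars ℝ := (l.restrictScalars ℝ).fderiv
  simp only [dzb, this, ContinuousLinearMap.coe_restrictScalars', map_smul, smul_eq_mul]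
  linear_combination (l X / 2) * I_mul_I

theorem jet_clm (l : E n →L[ℂ] ℂ) (F : Fr n) (p : E n) :
    jet F (fun x => l x) p = J.hol (l p) (l F.X) (l F.Y) (l F.b) := by
  have h3 : op2b F.Z F.W F.c (fun x => l x) = fun _ => 0 := by ext q; simp [op2b, dzb_clm]
  ext <;> simp [jet, dz_clm, dzb_clm, h3, op2]

theorem jet_conj_clm (l : E n →L[ℂ] ℂ) (F : Fr n) (p : E n) :
    jet F (fun x => conj (l x)) p =
      J.anti (conj (l p)) (conj (l F.Z)) (conj (l F.W)) (conj (l F.c)) := by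
  have h1 : ∀ X, dz X (fun x => conj (l x)) = fun _ => 0 := fun X => by
    rw [dz_conj, dzb_clm]; simp
  have h2 : ∀ X, dzb X (fun x => conj (l x)) = fun _ => conj (l X) := fun X => by
    rw [dzb_conj, dz_clm]
  have h3 : op2b F.Z F.W F.c (fun x => conj (l x)) = fun _ => conj (l F.c) := by
    ext q; simp [op2b, h2]
  ext <;> simp [jet, h1, h2, h3, op2]

theorem jet_coord (i : Fin n) (F : Fr n) (p : E n) :
    jet F (fun x => x i) p = J.hol (p i) (F.X i) (F.Y i) (F.b i) :=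
  jet_clm (ContinuousLinearMap.proj i) F p

theorem jet_conj_coord (i : Fin n) (F : Fr n) (p : E n) :
    jet F (fun x => conj (x i)) p =
      J.anti (conj (p i)) (conj (F.Z i)) (conj (F.W i)) (conj (F.c i)) :=
  jet_conj_clm (ContinuousLinearMap.proj i) F p

/-! ### scaling the frame -/

/-- scale a frame by a real number -/
noncomputable def Fr.scale (r : ℝ) (F : Fr n) : Fr n :=
  ⟨(r : ℂ) • F.X, (r : ℂ) • F.Y, ((r : ℂ) ^ 2) • F.b, (r : ℂ) • F.Z, (r : ℂ) • F.W,
    ((r : ℂ) ^ 2) • F.c⟩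

/-- scale a jet -/
noncomputable def J.scale (r : ℂ) (j : J) : J :=
  J.mk16 j.oo (r * j.oz) (r * j.ow) (r ^ 2 * j.oe) (r * j.xo) (r ^ 2 * j.xz) (r ^ 2 * j.xw)
    (r ^ 3 * j.xe) (r * j.yo) (r ^ 2 * j.yz) (r ^ 2 * j.yw) (r ^ 3 * j.ye) (r ^ 2 * j.dO)
    (r ^ 3 * j.dz) (r ^ 3 * j.dw) (r ^ 4 * j.de)

theorem jet_scale (r : ℝ) (F : Fr n) (f : E n → ℂ) (p : E n) :
    jet (F.scale r) f p = J.scale r (jet F f p) := by
  have h1 : ∀ (X Y b : E n) (f : E n → ℂ), op2 ((r : ℂ) • X) ((r : ℂ) • Y) ((r : ℂ) ^ 2 • b) f =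
      fun p => (r : ℂ) ^ 2 * op2 X Y b f p := by
    intro X Y b f; ext p; simp only [op2, dz_smul_dir, dz_const_mul]; ring
  have h2 : ∀ (X Y b : E n) (f : E n → ℂ), op2b ((r : ℂ) • X) ((r : ℂ) • Y) ((r : ℂ) ^ 2 • b) f =
      fun p => (r : ℂ) ^ 2 * op2b X Y b f p := by
    intro X Y b f; ext p
    simp only [op2b, dzb_smul_dir, dzb_const_mul, map_pow, conj_ofReal]; ring
  have h3 : ∀ (a : ℂ) (X Y b : E n) (f : E n → ℂ), op2 X Y b (fun x => a * f x) =
      fun p => a * op2 X Y b f p := by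
    intro a X Y b f; ext p; simp only [op2, dz_const_mul]; ring
  ext <;> simp only [jet, Fr.scale, J.scale, J.mk16, h1, h2, h3, dz_smul_dir, dzb_smul_dir,
    dz_const_mul, conj_ofReal] <;> ring

end Crest.Agent.R245
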