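import Crest.Agent.R245.KillB

/-! Row 245: the wells kill the weighted holomorphic functions. -/

set_option autoImplicit false

open Complex Crest.GeometryTopology Metric Filter
open scoped ContDiff ComplexConjugate Topology

namespace Crest.Agent.R245

namespace KillAux

variable (W : Wells)

/-- radius of the region at level `j` -/
noncomputable def rr (j : ℕ) : ℝ := 1 / 10 - 6 * s W j

theorem rr_le (j : ℕ) : rr W j ≤ 1 / 10 := by
  have := s_pos W j
  unfold rr
  linarith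

theorem rr_succ (j : ℕ) : rr W j + 3 * s W j ≤ rr W (j + 1) := by
  have := s_succ W j
  unfold rr
  linarith

theorem mem_Vcap {x : E 2} (h1 : 0 < hh x) (h2 : nr (x - q0) ≤ 1 / 10) : x ∈ Vcap :=
  ⟨mem_Bl_of_hh h1, (nsq_le_of h2).trans_lt (by norm_num)⟩

/-- the weight without the wells of generation `≥ j` -/
noncomputable def Ph (A : E 2 → ℝ) (j : ℕ) (p : E 2) : ℝ :=
  A p + ∑ i ∈ Finset.range j, W.Psij i p

theorem exists_star {ξ : ℂ} (h1 : -2 ≤ ξ.re) (h2 : ξ.re ≤ 0) :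
    ∃ (m : ℤ) (ζ : ℂ), ‖ζ‖ ≤ 4 ∧ ξ + ζ = 2 * Real.pi * I * m := by
  have hπ := Real.pi_pos
  refine ⟨round (ξ.im / (2 * Real.pi)), 2 * Real.pi * I * round (ξ.im / (2 * Real.pi)) - ξ, ?_,
    by ring⟩
  set m := round (ξ.im / (2 * Real.pi)) with hm
  have h3 := abs_sub_round (ξ.im / (2 * Real.pi))
  rw [← hm] at h3
  have h4 : |ξ.im - 2 * Real.pi * m| ≤ Real.pi := by
    have : ξ.im - 2 * Real.pi * m = 2 * Real.pi * (ξ.im / (2 * Real.pi) - m) := by
      field_simp
    rw [this, abs_mul, abs_of_pos (by positivity : 0 < 2 * Real.pi)]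
    nlinarith
  refine le_of_sq_le_sq ?_ (by norm_num)
  rw [← Complex.normSq_eq_norm_sq, Complex.normSq_apply]
  have e1 : (2 * Real.pi * I * m - ξ).re = -ξ.re := by simp
  have e2 : (2 * Real.pi * I * m - ξ).im = 2 * Real.pi * m - ξ.im := by simp
  rw [e1, e2]
  have h5 := abs_le.1 h4
  have h6 := Real.pi_lt_d2
  nlinarith

/-- one step of the induction -/
theorem step {A : E 2 → ℝ} {k : ℕ} (hk : 1 ≤ k) {cA : ℝ} (hb : cA + 6 ≤ W.b) {j : ℕ}
    (hΘ : 128 * Real.exp (k * (cA + 2) / 2) ≤ W.Θ j)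
    (hA : ∀ p x : E 2, nsq (p - q0) ≤ 1 / 16 → nsq (x - q0) ≤ 1 / 16 → W.Shell j p →
      W.Shell (j + 1) x → A x - A p ≤ cA)
    {a : E 2 → ℂ} (ha : LineHol a Vcap) {K : ℝ} (hK : 0 ≤ K)
    (ih : ∀ x, W.Shell (j + 1) x → nr (x - q0) ≤ rr W (j + 1) →
      ‖a x‖ ≤ K * Real.exp (k * Ph W A (j + 1) x / 2))
    {p : E 2} (hp : W.Shell j p) (hq : nr (p - q0) ≤ rr W j) :
    ‖a p‖ ≤ K / 2 * Real.exp (k * Ph W A j p / 2) := by
  obtain ⟨α, hα, v, w, g1, g2, g3, g4, g5, g6⟩ := geom W hp (hq.trans (rr_le W j))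
  have hN := W.N_pos j
  have hΘ0 := W.Θ_ge j
  have hk0 : (1 : ℝ) ≤ k := by exact_mod_cast hk
  have hp0 : 0 < hh p := (shell_nonneg W j).trans_le hp.1
  have h' := shell_nonneg W (j + 1)
  set M' := K * Real.exp (k * Ph W A j p / 2) with hM'
  have hM0 : 0 ≤ M' := by positivity
  have hip : ∀ ζ ζ' : ℂ, 2 * W.N j * ip (p + ζ • v + ζ' • w - p) α = ζ := by
    intro ζ ζ'
    have : p + ζ • v + ζ' • w - p = ζ • v + ζ' • w := by abel
    rw [this, ip_add_left, ip_smul_left, ip_smul_left, g5]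
    linear_combination ζ * g4
  have hxi : ∀ ζ ζ' : ℂ, xi (W.N j) (W.Θ j) α (p + ζ • v + ζ' • w) =
      xi (W.N j) (W.Θ j) α p + ζ := by
    intro ζ ζ'
    have := xi_sub (W.N j) (W.Θ j) α (p + ζ • v + ζ' • w) p
    rw [hip] at this
    linear_combination this
  have near : ∀ x, nr (x - p) ≤ 3 * s W j → nr (x - q0) ≤ rr W (j + 1) := fun x hx => by
    linarith [nr_tri x p q0, rr_succ W j]
  -- membership in the cap
  have hV : ∀ ζ : ℂ, ‖ζ‖ ≤ W.Θ j / 4 → p + ζ • v ∈ Vcap := by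
    intro ζ hζ
    obtain ⟨c, ρ, -, r1, r2, -⟩ := g6 ζ hζ
    have := r2 0 (by simpa using r1)
    rw [zero_smul, add_zero] at this
    exact mem_Vcap (h'.trans_le this.1) ((near _ this.2).trans (rr_le W _))
  -- the maximum principle on the leaves
  have leaf : ∀ ζ : ℂ, ‖ζ‖ ≤ W.Θ j / 4 → ∀ B : ℝ,
      (∀ ζ' : ℂ, 0 ≤ hh (p + ζ • v + ζ' • w) → W.Psij j (p + ζ • v + ζ' • w) ≤ B) →
      ‖a (p + ζ • v)‖ ≤ M' * Real.exp (k * (cA + 1 + B) / 2) := by
    intro ζ hζ B hB
    obtain ⟨c, ρ, r0, r1, r2, r3⟩ := g6 ζ hζ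
    have hd : DiffContOnCl ℂ (fun ζ' : ℂ => a (p + ζ • v + ζ' • w)) (ball c ρ) := by
      refine (ha (p + ζ • v) w).diffContOnCl_ball fun ζ' hζ' => ?_
      have := r2 ζ' (mem_closedBall_iff_norm.1 hζ')
      exact mem_Vcap (h'.trans_le this.1) ((near _ this.2).trans (rr_le W _))
    have := Complex.norm_le_of_forall_mem_frontier_norm_le isBounded_ball hd
      (C := M' * Real.exp (k * (cA + 1 + B) / 2)) (z := 0) ?_ ?_
    · simpa using this
    · intro ζ' hζ'
      rw [frontier_ball c r0.ne', mem_sphere_iff_norm] at hζ'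
      obtain ⟨t1, t2⟩ := r2 ζ' hζ'.le
      have t3 := r3 ζ' hζ'
      have t4 := hip ζ ζ'
      have t5 := hB ζ'
      set x := p + ζ • v + ζ' • w with hx
      have hx0 : 0 ≤ hh x := h'.le.trans t1
      have sh : W.Shell (j + 1) x := ⟨t1, t3.le.trans (shell_le' W (j + 1))⟩
      have t6 := near x t2
      have t7 := hA p x ((nsq_le_of (hq.trans (rr_le W j))).trans (by norm_num))
        ((nsq_le_of (t6.trans (rr_le W _))).trans (by norm_num)) hp sh
      have t8 : ‖ip (x - p) α‖ ≤ s W j ^ 2 / 8 := by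
        have e := congrArg norm t4
        rw [norm_mul, norm_mul, Complex.norm_real, Real.norm_of_nonneg hN.le,
          Complex.norm_two] at e
        have hNs : W.N j * s W j ^ 2 = W.Θ j + 3 := by rw [s_sq, ell_mul]
        refine le_of_mul_le_mul_left ?_ hN
        rw [← mul_div_assoc, hNs]
        linarith
      have t9 := lower_le W hp0.le hx0 t2 g1 t8
      have t10 : Ph W A (j + 1) x ≤ Ph W A j p + (cA + 1 + B) := by
        unfold Ph
        rw [Finset.sum_range_succ]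
        linarith [t5 hx0]
      refine (ih x sh t6).trans ?_
      rw [hM', mul_assoc, ← Real.exp_add]
      refine mul_le_mul_of_nonneg_left (Real.exp_le_exp.2 ?_) hK
      have := mul_le_mul_of_nonneg_left t10 (by linarith : (0 : ℝ) ≤ k)
      linarith
    · rw [closure_ball c r0.ne', mem_closedBall_iff_norm]
      simpa using r1
  set e := Real.exp (k * (cA + 2) / 2) with he
  have he0 : 0 < e := Real.exp_pos _
  have b1 : ∀ ζ : ℂ, ‖ζ‖ ≤ W.Θ j / 4 → ‖a (p + ζ • v)‖ ≤ M' * e := by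
    intro ζ hζ
    have := leaf ζ hζ 1 fun ζ' h0 => Psij_le_one W j h0
    rwa [show cA + 1 + 1 = cA + 2 by ring] at this
  obtain ⟨m, ζ0, z1, z2⟩ := exists_star g2 g3
  have b2 : ‖a (p + ζ0 • v)‖ ≤ M' / 4 := by
    have := leaf ζ0 (by linarith) (1 - W.b) fun ζ' h0 =>
      Psij_le_well W h0 hα ((hxi ζ0 ζ').trans z2)
    refine this.trans ?_
    have e1 : Real.exp (k * (cA + 1 + (1 - W.b)) / 2) ≤ Real.exp (-1) * Real.exp (-1) := by
      rw [← Real.exp_add]
      refine Real.exp_le_exp.2 ?_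
      nlinarith
    have e2 : Real.exp (-1) ≤ 1 / 2 := by
      rw [Real.exp_neg, one_div]
      exact inv_anti₀ (by norm_num) (by linarith [Real.add_one_le_exp 1])
    have e3 : Real.exp (-1) * Real.exp (-1) ≤ 1 / 2 * (1 / 2) :=
      mul_le_mul e2 e2 (Real.exp_pos _).le (by norm_num)
    calc _ ≤ M' * (1 / 2 * (1 / 2)) := mul_le_mul_of_nonneg_left (e1.trans e3) hM0
      _ = M' / 4 := by ring
  -- Schwarz lemma
  have hd : DifferentiableOn ℂ (fun ζ : ℂ => a (p + ζ • v)) (ball 0 (W.Θ j / 4)) :=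
    (ha p v).mono fun ζ hζ => hV ζ (mem_ball_zero_iff.1 hζ).le
  have hmaps : Set.MapsTo (fun ζ : ℂ => a (p + ζ • v)) (ball 0 (W.Θ j / 4))
      (closedBall (a (p + (0 : ℂ) • v)) (2 * (M' * e))) := by
    intro ζ hζ
    rw [mem_closedBall_iff_norm]
    have c1 := b1 ζ (mem_ball_zero_iff.1 hζ).le
    have c2 := b1 0 (by rw [norm_zero]; linarith)
    linarith [norm_sub_le (a (p + ζ • v)) (a (p + (0 : ℂ) • v))]
  have sch := Complex.dist_le_div_mul_dist_of_mapsTo_ball hd hmaps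
    (z := ζ0) (mem_ball_zero_iff.2 (by linarith))
  rw [dist_eq_norm, dist_zero_right, zero_smul, add_zero] at sch
  have b3 : 2 * (M' * e) / (W.Θ j / 4) * ‖ζ0‖ ≤ M' / 4 := by
    have c1 : 2 * (M' * e) / (W.Θ j / 4) ≤ M' / 16 := by
      rw [div_le_iff₀ (by linarith)]
      nlinarith [mul_le_mul_of_nonneg_left hΘ hM0]
    calc _ ≤ M' / 16 * 4 := mul_le_mul c1 z1 (norm_nonneg _) (by positivity)
      _ = M' / 4 := by ring
  have b4 : ‖a p‖ ≤ ‖a (p + ζ0 • v)‖ + ‖a (p + ζ0 • v) - a p‖ := by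
    have := norm_sub_le (a (p + ζ0 • v)) (a (p + ζ0 • v) - a p)
    rwa [sub_sub_cancel] at this
  calc ‖a p‖ ≤ M' / 2 := by linarith
    _ = _ := by rw [hM']; ring

end KillAux

open KillAux

theorem kill : KillStmt := by
  intro W A k hk ⟨cA, j0, hb, hΘ, hA⟩ a M ha hM
  have hk0 : (0 : ℝ) ≤ k := Nat.cast_nonneg k
  have P : ∀ n : ℕ, ∀ j, j0 ≤ j → ∀ p, W.Shell j p → nr (p - q0) ≤ rr W j →
      ‖a p‖ ≤ |M| * Real.exp (k / 2) * (1 / 2) ^ n * Real.exp (k * Ph W A j p / 2) := by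
    intro n
    induction n with
    | zero =>
      intro j _ p hp hq
      have hp0 : 0 < hh p := (shell_nonneg W j).trans_le hp.1
      have h1 := hM p (mem_Vcap hp0 (hq.trans (rr_le W j)))
      have h2 : W.ell (j + 1) ≤ hh p := by
        linarith [W.ell_succ_le j, ell_lt W j, hp.1, W.ell_pos (j + 1)]
      have h3 : A p + W.Psi p ≤ 1 + Ph W A j p := by
        rw [Psi_eq W h2, Finset.sum_range_succ, Ph]
        linarith [Psij_le_one W j hp0.le]
      rw [pow_zero, mul_one, mul_assoc, ← Real.exp_add]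
      refine h1.trans (mul_le_mul (le_abs_self M) (Real.exp_le_exp.2 ?_) (Real.exp_pos _).le
        (abs_nonneg M))
      have := mul_le_mul_of_nonneg_left h3 hk0
      linarith
    | succ n ih =>
      intro j hj p hp hq
      refine (step W hk hb (hΘ j hj) (hA j hj) ha (by positivity)
        (ih (j + 1) (by omega)) hp hq).trans_eq ?_
      ring
  have Z : ∀ p, W.Shell j0 p → nr (p - q0) ≤ rr W j0 → a p = 0 := by
    intro p hp hq
    have lim : Tendsto (fun n : ℕ => |M| * Real.exp (k / 2) * (1 / 2 : ℝ) ^ n *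
        Real.exp (k * Ph W A j0 p / 2)) atTop
        (𝓝 (|M| * Real.exp (k / 2) * 0 * Real.exp (k * Ph W A j0 p / 2))) :=
      ((tendsto_pow_atTop_nhds_zero_of_lt_one (by norm_num) (by norm_num)).const_mul _).mul_const _
    rw [mul_zero, zero_mul] at lim
    exact norm_le_zero_iff.1 (ge_of_tendsto' lim fun n => P n j0 le_rfl p hp hq)
  have hN := W.N_pos j0
  refine ⟨{z | W.Θ j0 / W.N j0 < hh z} ∩ ({z | hh z < (W.Θ j0 + 1) / W.N j0} ∩
    {z | nr (z - q0) < rr W j0}), ?_, ?_, ?_, ?_⟩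
  · refine (isOpen_lt continuous_const contDiff_hh.continuous).inter
      ((isOpen_lt contDiff_hh.continuous continuous_const).inter (isOpen_lt ?_ continuous_const))
    exact (continuous_nsq.comp (continuous_id.sub continuous_const)).sqrt
  · set η := (W.Θ j0 + 1 / 2) / W.N j0 with hη
    have e1 : W.Θ j0 / W.N j0 < η := div_lt_div_of_pos_right (by linarith) hN
    have e2 : η < (W.Θ j0 + 1) / W.N j0 := div_lt_div_of_pos_right (by linarith) hN
    have e3 : η ≤ 1 / 10000 := e2.le.trans ((shell_le W j0).trans (W.ell_le j0))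
    have e4 : 0 < η := (shell_nonneg W j0).trans e1
    set t := √(1 - η) with ht
    have t0 : 0 ≤ t := Real.sqrt_nonneg _
    have t2 : t ^ 2 = 1 - η := Real.sq_sqrt (by linarith)
    have t1 : t ≤ 1 := le_of_sq_le_sq (by rw [t2]; linarith) zero_le_one
    have hhp : hh ![(t : ℂ), 0] = η := by
      rw [hh, nsq_two]
      simp [t2]
    have hnr : nr (![(t : ℂ), 0] - q0) ≤ 1 - t := by
      refine nr_le_of (by linarith) (le_of_eq ?_)
      rw [nsq_two]
      have : (t : ℂ) - 1 = ((t - 1 : ℝ) : ℂ) := by push_cast; ring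
      simp only [q0, Pi.sub_apply, Matrix.cons_val_zero, Matrix.cons_val_one, sub_self, norm_zero,
        this, Complex.norm_real, Real.norm_eq_abs, sq_abs]
      ring
    refine ⟨![(t : ℂ), 0], ?_, ?_, ?_⟩
    · show _ < hh _
      rwa [hhp]
    · show hh _ < _
      rwa [hhp]
    · show nr _ < rr W j0
      have := s_le W j0
      unfold rr
      nlinarith
  · rintro z ⟨h1, -, h3⟩
    exact mem_Vcap ((shell_nonneg W j0).trans h1) ((le_of_lt h3).trans (rr_le W j0))
  · rintro z ⟨h1, h2, h3⟩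
    exact Z z ⟨le_of_lt h1, le_of_lt h2⟩ (le_of_lt h3)

end Crest.Agent.R245
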