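import Crest.Agent.R245.Main

/-! Row 245: sums of wells (auxiliary file for `Kill.lean`). -/

set_option autoImplicit false

open Complex Crest.GeometryTopology
open scoped ContDiff ComplexConjugate Topology

namespace Crest.Agent.R245.KillAux

/-- the Euclidean norm -/
noncomputable def nr (v : E 2) : ℝ := √(nsq v)

theorem nr_nonneg (v : E 2) : 0 ≤ nr v := Real.sqrt_nonneg _

theorem nr_sq (v : E 2) : nr v ^ 2 = nsq v := Real.sq_sqrt (nsq_nonneg v)

theorem nr_add_le (x y : E 2) : nr (x + y) ≤ nr x + nr y := sqrt_nsq_add_le x y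

theorem nr_smul (c : ℂ) (x : E 2) : nr (c • x) = ‖c‖ * nr x := by
  rw [nr, nsq_smul, Real.sqrt_mul (sq_nonneg _), Real.sqrt_sq (norm_nonneg _), nr]

theorem nr_sub_comm (x y : E 2) : nr (x - y) = nr (y - x) := by rw [nr, nsq_sub_comm, nr]

theorem nr_tri (x y z : E 2) : nr (x - z) ≤ nr (x - y) + nr (y - z) := by
  have := nr_add_le (x - y) (y - z)
  rwa [sub_add_sub_cancel] at this

theorem ip_le (x y : E 2) : ‖ip x y‖ ≤ nr x * nr y := norm_ip_le x y

theorem nr_le_of {v : E 2} {r : ℝ} (hr : 0 ≤ r) (h : nsq v ≤ r ^ 2) : nr v ≤ r :=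
  le_of_sq_le_sq (by rwa [nr_sq]) hr

theorem nsq_le_of {v : E 2} {r : ℝ} (h : nr v ≤ r) : nsq v ≤ r ^ 2 := by
  rw [← nr_sq]
  exact pow_le_pow_left₀ (nr_nonneg v) h 2

theorem nr_q0 : nr q0 = 1 := by
  rw [nr, nsq_two]
  simp [q0]

theorem re_xi (N Θ : ℝ) (a z : E 2) : (xi N Θ a z).re = Θ - N * (hh z + nsq (z - a)) := by
  rw [nsq_sub, hh]
  simp [xi]
  ring

theorem xi_sub (N Θ : ℝ) (a x p : E 2) : xi N Θ a x - xi N Θ a p = 2 * N * ip (x - p) a := by
  rw [ip_sub_left, xi, xi]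
  ring

variable (W : Wells)

theorem ell_mul (j : ℕ) : W.N j * W.ell j = W.Θ j + 3 := by
  rw [Wells.ell, mul_div_cancel₀ _ (W.N_pos j).ne']

theorem ell_anti : Antitone W.ell := antitone_nat_of_succ_le fun j => by
  have := W.ell_succ_le j
  have := W.ell_pos (j + 1)
  linarith

theorem re_xi_le (j : ℕ) (a : E 2) {z : E 2} (hz : 0 ≤ hh z) :
    (xi (W.N j) (W.Θ j) a z).re ≤ W.Θ j := by
  rw [re_xi]
  have := mul_nonneg (W.N_pos j).le (add_nonneg hz (nsq_nonneg (z - a)))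
  linarith

theorem Psij_eq_zero {j : ℕ} {z : E 2} (h : W.ell j ≤ hh z) : W.Psij j z = 0 := by
  refine Finset.sum_eq_zero fun a _ => (W.prof j).zero _ ?_
  rw [re_xi]
  have h1 := mul_le_mul_of_nonneg_left h (W.N_pos j).le
  have h2 := mul_nonneg (W.N_pos j).le (nsq_nonneg (z - a))
  rw [ell_mul] at h1
  linarith

theorem Psi_eq {J : ℕ} {z : E 2} (h : W.ell J ≤ hh z) :
    W.Psi z = ∑ i ∈ Finset.range J, W.Psij i z :=
  tsum_eq_sum fun _ hi =>
    Psij_eq_zero W ((ell_anti W (not_lt.1 fun h' => hi (Finset.mem_range.2 h'))).trans h)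

theorem inactive {j : ℕ} {a z : E 2} (hz : 0 ≤ hh z) (h : ¬ W.N j * nsq (z - a) < W.Θ j + 3) :
    W.G j (xi (W.N j) (W.Θ j) a z) = 0 := by
  refine (W.prof j).zero _ ?_
  rw [re_xi]
  have := mul_nonneg (W.N_pos j).le hz
  linarith [not_lt.1 h]

theorem Ov_pos (j : ℕ) : 0 < Ov (W.Θ j) := by
  have := W.Θ_ge j
  unfold Ov
  positivity

theorem sum_le_one {j : ℕ} {z : E 2} (hz : 0 ≤ hh z) {T : Finset (E 2)} (hT : T ⊆ W.Λ j) :
    ∑ a ∈ T, W.G j (xi (W.N j) (W.Θ j) a z) ≤ 1 := by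
  classical
  set S := T.filter fun a => W.N j * nsq (z - a) < W.Θ j + 3 with hS
  have h1 : ∑ a ∈ T, W.G j (xi (W.N j) (W.Θ j) a z) =
      ∑ a ∈ S, W.G j (xi (W.N j) (W.Θ j) a z) := by
    refine (Finset.sum_subset (Finset.filter_subset _ _) fun a ha ha' => ?_).symm
    exact inactive W hz fun h => ha' (Finset.mem_filter.2 ⟨ha, h⟩)
  have h2 : (S.card : ℝ) ≤ Ov (W.Θ j) :=
    (W.net j).overlap (W.Θ j) z S (by linarith [W.Θ_ge j])
      ((Finset.filter_subset _ _).trans hT) fun a ha => (Finset.mem_filter.1 ha).2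
  have h3 := Finset.sum_le_card_nsmul S (fun a => W.G j (xi (W.N j) (W.Θ j) a z))
    (1 / Ov (W.Θ j)) fun a _ => (W.prof j).le _ (re_xi_le W j a hz)
  rw [nsmul_eq_mul, mul_one_div] at h3
  rw [h1]
  exact h3.trans ((div_le_one (Ov_pos W j)).2 h2)

theorem Psij_le_one (j : ℕ) {z : E 2} (hz : 0 ≤ hh z) : W.Psij j z ≤ 1 :=
  sum_le_one W hz subset_rfl

theorem Psij_le_well {j : ℕ} {z α : E 2} (hz : 0 ≤ hh z) (hα : α ∈ W.Λ j) {m : ℤ}
    (h : xi (W.N j) (W.Θ j) α z = 2 * Real.pi * I * m) : W.Psij j z ≤ 1 - W.b := by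
  classical
  have h1 := Finset.add_sum_erase (W.Λ j) (fun a => W.G j (xi (W.N j) (W.Θ j) a z)) hα
  have h2 := sum_le_one W hz (Finset.erase_subset α (W.Λ j))
  have h3 := (W.prof j).well m
  rw [← h] at h3
  unfold Wells.Psij
  linarith

theorem Psij_sub_le {i : ℕ} {p x : E 2} (hp : 0 ≤ hh p) (hx : 0 ≤ hh x) {D : ℝ} (hD : 0 ≤ D)
    (h : ∀ a ∈ W.Λ i, (W.N i * nsq (p - a) < W.Θ i + 3 ∨ W.N i * nsq (x - a) < W.Θ i + 3) →
      ‖xi (W.N i) (W.Θ i) a x - xi (W.N i) (W.Θ i) a p‖ ≤ D) :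
    W.Psij i x - W.Psij i p ≤ 2 * Ov (W.Θ i) * W.Γ i * D := by
  classical
  set S1 := (W.Λ i).filter fun a => W.N i * nsq (p - a) < W.Θ i + 3 with hS1
  set S2 := (W.Λ i).filter fun a => W.N i * nsq (x - a) < W.Θ i + 3 with hS2
  have hΘ : 0 ≤ W.Θ i := by linarith [W.Θ_ge i]
  have hΓ : 0 ≤ W.Γ i := by linarith [(W.prof i).one_le]
  have c1 : (S1.card : ℝ) ≤ Ov (W.Θ i) := (W.net i).overlap (W.Θ i) p S1 hΘ
    (Finset.filter_subset _ _) fun a ha => (Finset.mem_filter.1 ha).2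
  have c2 : (S2.card : ℝ) ≤ Ov (W.Θ i) := (W.net i).overlap (W.Θ i) x S2 hΘ
    (Finset.filter_subset _ _) fun a ha => (Finset.mem_filter.1 ha).2
  have c3 : ((S1 ∪ S2).card : ℝ) ≤ 2 * Ov (W.Θ i) := by
    have : ((S1 ∪ S2).card : ℝ) ≤ S1.card + S2.card := by
      exact_mod_cast Finset.card_union_le S1 S2
    linarith
  have hsub : S1 ∪ S2 ⊆ W.Λ i :=
    Finset.union_subset (Finset.filter_subset _ _) (Finset.filter_subset _ _)
  have h1 : W.Psij i x - W.Psij i p = ∑ a ∈ S1 ∪ S2,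
      (W.G i (xi (W.N i) (W.Θ i) a x) - W.G i (xi (W.N i) (W.Θ i) a p)) := by
    rw [Wells.Psij, Wells.Psij, ← Finset.sum_sub_distrib]
    refine (Finset.sum_subset hsub fun a ha ha' => ?_).symm
    rw [inactive W hp fun h => ha' (Finset.mem_union_left _ (Finset.mem_filter.2 ⟨ha, h⟩)),
      inactive W hx fun h => ha' (Finset.mem_union_right _ (Finset.mem_filter.2 ⟨ha, h⟩)),
      sub_self]
  have h3 := Finset.sum_le_card_nsmul (S1 ∪ S2)
    (fun a => W.G i (xi (W.N i) (W.Θ i) a x) - W.G i (xi (W.N i) (W.Θ i) a p)) (W.Γ i * D)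
    fun a ha => by
      refine (le_abs_self _).trans (((W.prof i).lip _ _ (re_xi_le W i a hx)
        (re_xi_le W i a hp)).trans (mul_le_mul_of_nonneg_left (h a (hsub ha) ?_) hΓ))
      rcases Finset.mem_union.1 ha with ha | ha
      · exact Or.inl (Finset.mem_filter.1 ha).2
      · exact Or.inr (Finset.mem_filter.1 ha).2
  rw [nsmul_eq_mul] at h3
  rw [h1]
  calc _ ≤ _ := h3
    _ ≤ 2 * Ov (W.Θ i) * (W.Γ i * D) := mul_le_mul_of_nonneg_right c3 (mul_nonneg hΓ hD)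
    _ = _ := by ring

/-- `s j = √(ell j)` -/
noncomputable def s (j : ℕ) : ℝ := √(W.ell j)

theorem s_pos (j : ℕ) : 0 < s W j := Real.sqrt_pos.2 (W.ell_pos j)

theorem s_sq (j : ℕ) : s W j ^ 2 = W.ell j := Real.sq_sqrt (W.ell_pos j).le

theorem s_le (j : ℕ) : s W j ≤ 1 / 100 :=
  le_of_sq_le_sq (by rw [s_sq]; linarith [W.ell_le j]) (by norm_num)

theorem s_succ (j : ℕ) : 2 * s W (j + 1) ≤ s W j :=
  le_of_sq_le_sq (by rw [mul_pow, s_sq, s_sq]; linarith [W.ell_succ_le j]) (s_pos W j).le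

theorem s_lt {i j : ℕ} (h : i < j) : 2 * s W j ≤ s W i := by
  have : s W j ≤ s W (i + 1) := Real.sqrt_le_sqrt (ell_anti W h)
  linarith [s_succ W i]

theorem Gam_s (j : ℕ) : 2 * W.Gam j * s W (j + 1) ≤ s W j := by
  refine le_of_sq_le_sq ?_ (s_pos W j).le
  have h1 : 4 * W.Gam j ^ 2 * W.ell (j + 1) ≤ W.ell j := W.dec j
  rw [mul_pow, mul_pow, s_sq, s_sq]
  linarith

theorem sum_Gam (j : ℕ) : ∑ i ∈ Finset.range j, W.Gam i * (s W j / s W i) ≤ 1 := by
  induction j with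
  | zero => simp
  | succ j ih =>
    rw [Finset.sum_range_succ]
    have h1 : W.Gam j * (s W (j + 1) / s W j) ≤ 1 / 2 := by
      rw [← mul_div_assoc, div_le_iff₀ (s_pos W j)]
      linarith [Gam_s W j]
    have h2 : ∑ i ∈ Finset.range j, W.Gam i * (s W (j + 1) / s W i) ≤
        ∑ i ∈ Finset.range j, W.Gam i * (s W j / s W i) / 2 := by
      refine Finset.sum_le_sum fun i _ => ?_
      rw [mul_div_assoc]
      refine mul_le_mul_of_nonneg_left ?_ (by linarith [W.one_le_Gam i])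
      rw [div_right_comm]
      exact div_le_div_of_nonneg_right (by linarith [s_succ W j]) (s_pos W i).le
    rw [← Finset.sum_div] at h2
    linarith

/-- the wells of lower generations hardly change along a leaf -/
theorem lower_le {j : ℕ} {p x α : E 2} (hp : 0 ≤ hh p) (hx : 0 ≤ hh x)
    (hd : nr (x - p) ≤ 3 * s W j) (hα : nr (p - α) ≤ s W j / 6)
    (hi : ‖ip (x - p) α‖ ≤ s W j ^ 2 / 8) :
    ∑ i ∈ Finset.range j, W.Psij i x ≤ ∑ i ∈ Finset.range j, W.Psij i p + 1 := by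
  have key : ∀ i ∈ Finset.range j, W.Psij i x - W.Psij i p ≤ W.Gam i * (s W j / s W i) := by
    intro i hi'
    have hij := s_lt W (Finset.mem_range.1 hi')
    have hsi := s_pos W i
    have hsj := s_pos W j
    have hΘ := W.Θ_ge i
    have hN := W.N_pos i
    have hD : 0 ≤ 25 * (W.Θ i + 3) * (s W j / s W i) := by positivity
    refine (Psij_sub_le W hp hx hD fun a _ ha => ?_).trans_eq (by unfold Wells.Gam; ring)
    have act : ∀ y : E 2, W.N i * nsq (y - a) < W.Θ i + 3 → nr (y - a) ≤ s W i := by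
      intro y hy
      refine nr_le_of hsi.le ?_
      rw [← ell_mul] at hy
      rw [s_sq]
      exact (lt_of_mul_lt_mul_left hy hN.le).le
    have h1 : nr (a - p) ≤ 5 / 2 * s W i := by
      rcases ha with ha | ha
      · rw [nr_sub_comm]
        linarith [act p ha]
      · have := nr_tri a x p
        rw [nr_sub_comm a x] at this
        linarith [act x ha]
    have h2 : ip (x - p) a = ip (x - p) (a - p) + ip (x - p) (p - α) + ip (x - p) α := by
      rw [ip_sub_right, ip_sub_right]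
      ring
    have h3 : ‖ip (x - p) (a - p)‖ ≤ 3 * s W j * (5 / 2 * s W i) :=
      (ip_le _ _).trans (mul_le_mul hd h1 (nr_nonneg _) (by positivity))
    have h4 : ‖ip (x - p) (p - α)‖ ≤ 3 * s W j * (s W j / 6) :=
      (ip_le _ _).trans (mul_le_mul hd hα (nr_nonneg _) (by positivity))
    have h5 : ‖ip (x - p) a‖ ≤ 8 * (s W j * s W i) := by
      rw [h2]
      have := norm_add₃_le (a := ip (x - p) (a - p)) (b := ip (x - p) (p - α))
        (c := ip (x - p) α)
      nlinarith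
    have h6 : W.Θ i + 3 = W.N i * s W i ^ 2 := by rw [s_sq, ell_mul]
    rw [xi_sub, norm_mul, norm_mul, Complex.norm_real, Real.norm_of_nonneg hN.le,
      Complex.norm_two, h6]
    have h7 : 25 * (W.N i * s W i ^ 2) * (s W j / s W i) = 25 * (W.N i * (s W j * s W i)) := by
      field_simp
    rw [h7]
    have h8 := mul_le_mul_of_nonneg_left h5 hN.le
    have h9 : 0 ≤ W.N i * (s W j * s W i) := by positivity
    nlinarith
  have := Finset.sum_le_sum key
  rw [Finset.sum_sub_distrib] at this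
  linarith [sum_Gam W j]

end Crest.Agent.R245.KillAux
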