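import Crest.Agent.R245.KillA

/-! Row 245: the geometry of one step (auxiliary file for `Kill.lean`). -/

set_option autoImplicit false

open Complex Crest.GeometryTopology
open scoped ContDiff ComplexConjugate Topology

namespace Crest.Agent.R245.KillAux

theorem exists_orth {α : E 2} (hα : 0 < nr α) : ∃ w : E 2, nsq w = 1 ∧ ip w α = 0 := by
  refine ⟨(((nr α)⁻¹ : ℝ) : ℂ) • ![-conj (α 1), conj (α 0)], ?_, ?_⟩
  · have : nsq (![-conj (α 1), conj (α 0)] : E 2) = nr α ^ 2 := by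
      rw [nr_sq, nsq_two, nsq_two]
      simp [add_comm]
    rw [nsq_smul, this, Complex.norm_real, Real.norm_of_nonneg (inv_nonneg.2 hα.le), ← mul_pow,
      inv_mul_cancel₀ hα.ne', one_pow]
  · rw [ip_smul_left, ip_two]
    simp [mul_comm]

theorem hh_leaf (x : E 2) {w : E 2} (hw : nsq w = 1) (ζ : ℂ) :
    hh (x + ζ • w) = hh x + ‖ip x w‖ ^ 2 - ‖ζ - -ip x w‖ ^ 2 := by
  rw [hh, hh, nsq_add, nsq_smul, hw, ip_smul_right, sub_neg_eq_add]
  simp only [← Complex.normSq_eq_norm_sq, Complex.normSq_apply, mul_re, conj_re, conj_im, add_re,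
    add_im]
  ring

variable (W : Wells)

theorem shell_nonneg (j : ℕ) : 0 < W.Θ j / W.N j :=
  div_pos (by linarith [W.Θ_ge j]) (W.N_pos j)

theorem shell_le (j : ℕ) : (W.Θ j + 1) / W.N j ≤ W.ell j :=
  div_le_div_of_nonneg_right (by linarith) (W.N_pos j).le

theorem shell_le' (j : ℕ) : W.Θ j / W.N j ≤ (W.Θ j + 1) / W.N j :=
  div_le_div_of_nonneg_right (by linarith) (W.N_pos j).le

theorem ell_lt (j : ℕ) : W.ell j < 2 * (W.Θ j / W.N j) := by
  rw [← mul_div_assoc]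
  exact div_lt_div_of_pos_right (by linarith [W.Θ_ge j]) (W.N_pos j)

theorem geom {j : ℕ} {p : E 2} (hp : W.Shell j p) (hq : nr (p - q0) ≤ 1 / 10) :
    ∃ α ∈ W.Λ j, ∃ v w : E 2, nr (p - α) ≤ s W j / 6 ∧ -2 ≤ (xi (W.N j) (W.Θ j) α p).re ∧
      (xi (W.N j) (W.Θ j) α p).re ≤ 0 ∧ 2 * W.N j * ip v α = 1 ∧ ip w α = 0 ∧
      ∀ ζ : ℂ, ‖ζ‖ ≤ W.Θ j / 4 → ∃ (c : ℂ) (ρ : ℝ), 0 < ρ ∧ ‖c‖ ≤ ρ ∧
        (∀ ζ' : ℂ, ‖ζ' - c‖ ≤ ρ → W.Θ (j + 1) / W.N (j + 1) ≤ hh (p + ζ • v + ζ' • w) ∧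
          nr (p + ζ • v + ζ' • w - p) ≤ 3 * s W j) ∧
        ∀ ζ' : ℂ, ‖ζ' - c‖ = ρ → hh (p + ζ • v + ζ' • w) = W.Θ (j + 1) / W.N (j + 1) := by
  obtain ⟨α, hα, hc⟩ := (W.net j).cover p (by simpa using (nsq_le_of hq).trans_eq (by norm_num))
  have hN := W.N_pos j
  have hΘ := W.Θ_ge j
  have hs := s_pos W j
  have hs1 := s_le W j
  have hNs : W.N j * s W j ^ 2 = W.Θ j + 3 := by rw [s_sq, ell_mul]
  have h1 : nr (p - α) ≤ s W j / 6 := by
    refine nr_le_of (by positivity) (le_of_mul_le_mul_left ?_ hN)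
    rw [div_pow, ← mul_div_assoc, hNs]
    linarith
  have h2 : 7 / 8 ≤ nr α := by
    have a1 : nr (α - q0) ≤ 1 / 8 := nr_le_of (by norm_num) (((W.net j).near α hα).trans_eq
      (by norm_num))
    have a2 := nr_add_le (q0 - α) α
    rw [sub_add_cancel, nr_q0, nr_sub_comm] at a2
    linarith
  have h2' : 0 < nr α := by linarith
  obtain ⟨w, hw1, hw2⟩ := exists_orth h2'
  have hp1 : W.Θ j ≤ W.N j * hh p := by
    have := hp.1
    rwa [div_le_iff₀' hN] at this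
  have hp2 : W.N j * hh p ≤ W.Θ j + 1 := by
    have := hp.2
    rwa [le_div_iff₀' hN] at this
  have hc0 := mul_nonneg hN.le (nsq_nonneg (p - α))
  set c0 : ℝ := (2 * W.N j * nr α ^ 2)⁻¹ with hc0def
  have hc0pos : 0 < c0 := by positivity
  refine ⟨α, hα, (c0 : ℂ) • α, w, h1, by rw [re_xi]; linarith, by rw [re_xi]; linarith, ?_, hw2,
    fun ζ hζ => ?_⟩
  · rw [ip_smul_left, ip_self, ← nr_sq]
    have : 2 * W.N j * (c0 * nr α ^ 2) = 1 := by
      rw [hc0def]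
      field_simp
    exact_mod_cast this
  set u := W.Θ j / W.N j with hu
  set y := ζ • (c0 : ℂ) • α with hy
  set x := p + y with hx
  have hu0 : 0 < u := shell_nonneg W j
  have hu1 : u ≤ s W j ^ 2 := by rw [s_sq]; exact (shell_le' W j).trans (shell_le W j)
  have hp3 : hh p ≤ s W j ^ 2 := by rw [s_sq]; exact hp.2.trans (shell_le W j)
  have hp4 : u ≤ hh p := hp.1
  have hss : s W j ^ 2 ≤ s W j / 100 := by nlinarith
  have hy1 : nr y ≤ u / 7 := by
    rw [hy, nr_smul, nr_smul, Complex.norm_real, Real.norm_of_nonneg hc0pos.le]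
    have a1 : c0 * nr α ≤ 4 / (7 * W.N j) := by
      rw [hc0def, le_div_iff₀ (by positivity)]
      have : (2 * W.N j * nr α ^ 2)⁻¹ * nr α * (7 * W.N j) = 7 / (2 * nr α) := by
        field_simp
      rw [this, div_le_iff₀ (by positivity)]
      linarith
    calc ‖ζ‖ * (c0 * nr α) ≤ W.Θ j / 4 * (4 / (7 * W.N j)) :=
          mul_le_mul hζ a1 (by positivity) (by positivity)
      _ = u / 7 := by rw [hu]; field_simp
  have hy0 := nr_nonneg y
  have hpn : nr p ≤ 1 := nr_le_of zero_le_one (by unfold hh at hp4; linarith)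
  have hipy : |(ip p y).re| ≤ u / 7 :=
    (Complex.abs_re_le_norm _).trans ((ip_le p y).trans (by
      calc nr p * nr y ≤ 1 * (u / 7) := mul_le_mul hpn hy1 hy0 zero_le_one
        _ = u / 7 := one_mul _))
  have hyy : nsq y ≤ u / 7 := by
    rw [← nr_sq]
    nlinarith
  have hhx : hh x = hh p - 2 * (ip p y).re - nsq y := by
    rw [hx, hh, hh, nsq_add]
    ring
  have hx1 : u / 2 ≤ hh x := by
    have := (abs_le.1 hipy).2
    linarith
  have hx2 : hh x ≤ 2 * s W j ^ 2 := by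
    have := (abs_le.1 hipy).1
    have := nsq_nonneg y
    linarith
  set h' := W.Θ (j + 1) / W.N (j + 1) with hh'
  have hh0 : 0 < h' := shell_nonneg W (j + 1)
  have hh1 : h' < u / 2 := by
    have a1 : h' ≤ W.ell (j + 1) := (shell_le' W (j + 1)).trans (shell_le W (j + 1))
    have a2 := W.ell_succ_le j
    have a3 := ell_lt W j
    linarith
  set κ := ip x w with hκ
  have hκ1 : ‖κ‖ ≤ s W j / 6 := by
    have a1 : ip α w = 0 := by rw [← ip_conj, hw2, map_zero]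
    have a2 : κ = ip (p - α) w := by
      rw [hκ, hx, hy, ip_add_left, ip_smul_left, ip_smul_left, ip_sub_left, a1]
      ring
    have a3 : nr w = 1 := by rw [nr, hw1, Real.sqrt_one]
    rw [a2]
    refine (ip_le _ _).trans ?_
    rwa [a3, mul_one]
  have hκ0 := norm_nonneg κ
  have hR : 0 < hh x + ‖κ‖ ^ 2 - h' := by nlinarith
  set ρ := √(hh x + ‖κ‖ ^ 2 - h') with hρ
  have hρ0 : 0 < ρ := Real.sqrt_pos.2 hR
  have hρ2 : ρ ^ 2 = hh x + ‖κ‖ ^ 2 - h' := Real.sq_sqrt hR.le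
  have hρ3 : ρ ≤ 3 / 2 * s W j := le_of_sq_le_sq (by rw [hρ2]; nlinarith) (by positivity)
  refine ⟨-κ, ρ, hρ0, ?_, fun ζ' hζ' => ⟨?_, ?_⟩, fun ζ' hζ' => ?_⟩
  · rw [norm_neg]
    exact le_of_sq_le_sq (by rw [hρ2]; linarith) hρ0.le
  · rw [hh_leaf x hw1, ← hκ]
    have := pow_le_pow_left₀ (norm_nonneg _) hζ' 2
    linarith
  · have a1 : x + ζ' • w - p = y + ζ' • w := by rw [hx]; abel
    have a3 : nr w = 1 := by rw [nr, hw1, Real.sqrt_one]
    have a2 := nr_add_le y (ζ' • w)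
    rw [nr_smul ζ' w, a3, mul_one] at a2
    have a4 : ‖ζ'‖ ≤ ‖ζ' - -κ‖ + ‖κ‖ := by
      have := norm_sub_le (ζ' - -κ) κ
      rwa [show ζ' - -κ - κ = ζ' by ring] at this
    rw [a1]
    linarith
  · rw [hh_leaf x hw1, ← hκ, hζ', hρ2]
    ring

end Crest.Agent.R245.KillAux
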