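import Crest.Agent.R245.Basic

/-! Row 245: the two theorems from the statements of the pieces. -/

set_option autoImplicit false

open Complex Crest.GeometryTopology
open scoped ContDiff ComplexConjugate Topology

namespace Crest.Agent.R245

theorem rot_rot_neg (i : Fin 3) (v : E 3) : rot i (rot (-i) v) = v := by
  ext j; simp

theorem rot_neg_rot (i : Fin 3) (v : E 3) : rot (-i) (rot i v) = v := by
  ext j; simp

theorem LocAt.transport {c0 C0 lam : ℝ} {Φ ρ : E 3 → ℝ} {D : Base} {i : Fin 3} {p : E 3}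
    (hp : rot i p ∈ U0 D) (hΦ : Φ =ᶠ[𝓝 p] fun x => Phi0 D (rot i x))
    (hρ : ρ =ᶠ[𝓝 p] fun x => rho0 D (rot i x))
    (h : LocAt c0 C0 (Phi0 D) (rho0 D) lam (rot i p)) : LocAt c0 C0 Φ ρ lam p := by
  obtain ⟨X, b, hX, hb, hd, hG⟩ := h
  have key : ∀ {f : E 3 → ℝ} {f0 : E 3 → ℝ}, ContDiffOn ℝ ∞ f0 (U0 D) →
      (f =ᶠ[𝓝 p] fun x => f0 (rot i x)) →
      arr (fun j => rot (-i) (X j)) (fun j k => rot (-i) (b j k)) (cx f) p =
        arr X b (cx f0) (rot i p) := by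
    intro f f0 h0 hf
    refine Arr.ext_toJ 0 fun a k j l => ?_
    rw [← jet_frm, ← jet_frm, jet_congr _ (g := fun x => cx f0 (rot i x))
      (hf.mono fun x hx => by simp only [cx, hx]),
      jet_linear (rot i) (isOpen_U0 D) (ofReal_smooth h0) hp]
    simp only [Fr.map, frm, rot_rot_neg]
  refine ⟨fun j => rot (-i) (X j), fun j k => rot (-i) (b j k), fun V => ?_,
    fun j k => congrArg _ (hb j k), fun j => ?_, by rw [key (Phi0_smooth D) hΦ]; exact hG⟩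
  · obtain ⟨v, hv⟩ := hX (rot i V)
    refine ⟨v, ?_⟩
    rw [← rot_neg_rot i V, hv]
    simp only [map_sum, map_smul]
  · have := congrArg (fun a => a.x j) (key (rho0_smooth D) hρ)
    simp only [arr] at this
    rw [this]; exact hd j

/-- everything about the glued domain -/
theorem glued (hM : MetricStmt) (hC : CompleteStmt) (hT : TopStmt) (hP : PotStmt) (D : Base)
    {c0 C0 : ℝ} (h0 : 0 < c0) (h1 : c0 ≤ 1)
    (hloc : ∀ x ∈ U0 D, LocAt c0 C0 (Phi0 D) (rho0 D) (D.lam (pr 0 x)) x) :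
    ∃ g : HermitianMetricOn 3 (Omega D), g.IsKahler ∧ g.IsComplete ∧
      (∀ p ∈ Omega D, ∀ X Y, g.riem p X X * g.riem p Y Y - g.riem p X Y ^ 2 ≠ 0 →
        -(C0 / c0 / lamG D p) ≤ g.sectional p X Y ∧ g.sectional p X Y ≤ -1) ∧
      (∀ p ∈ Omega D, ∃ X Y, g.riem p X X * g.riem p Y Y - g.riem p X Y ^ 2 ≠ 0 ∧
        g.sectional p X Y ≤ -(1 / lamG D p)) := by
  obtain ⟨hO, ⟨F, G, hF, hG, hr, hGF⟩, hK⟩ := hT D
  obtain ⟨-, -, hl⟩ := hP D
  have sm : ∀ {f f0 : E 3 → ℝ}, ContDiffOn ℝ ∞ f0 (U0 D) →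
      (∀ p ∈ Omega D, ∃ i, rot i p ∈ U0 D ∧ f =ᶠ[𝓝 p] fun x => f0 (rot i x)) →
      ContDiffOn ℝ ∞ f (Omega D) := by
    intro f f0 hf h p hp
    obtain ⟨i, hi, he⟩ := h p hp
    exact (((hf.contDiffAt ((isOpen_U0 D).mem_nhds hi)).comp p
      (contDiff_rot i).contDiffAt).congr_of_eventuallyEq he).contDiffWithinAt
  have s1 : ContDiffOn ℝ ∞ (Pot D) (Omega D) := sm (Phi0_smooth D) fun p hp => by
    obtain ⟨i, a, -, b, -⟩ := hl p hp; exact ⟨i, a, b⟩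
  have s2 : ContDiffOn ℝ ∞ (rhoG D) (Omega D) := sm (rho0_smooth D) fun p hp => by
    obtain ⟨i, a, -, -, b⟩ := hl p hp; exact ⟨i, a, b⟩
  obtain ⟨g, gK, ⟨C, gL⟩, g1, g2⟩ := hM c0 C0 h0 h1 _ hO (Pot D) (rhoG D) (lamG D) s1 s2
    fun p hp => by
      obtain ⟨i, a, e, b, c⟩ := hl p hp
      rw [e]
      exact ⟨D.lam_pos _ a.1, (hloc _ a).transport a b c⟩
  refine ⟨g, gK, hC 3 _ hO g (rhoG D) C s2 gL hK ?_, g1, g2⟩
  intro p hp q hq
  rw [← hr] at hp hq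
  obtain ⟨x, rfl⟩ := hp
  obtain ⟨y, rfl⟩ := hq
  refine ⟨fun t => F (x + t • (y - x)), ?_, by simp, by simp, fun t _ => hr ▸ ⟨_, rfl⟩⟩
  exact (hF.of_le (by simp)).comp (contDiff_const.add (contDiff_id.smul contDiff_const))

/-- the base data -/
noncomputable def mkBase (hW : WellsJetStmt) {η σ : ℝ} (hη : 0 ≤ η) (h0 : 0 ≤ σ) (h1 : σ ≤ 1)
    (W : Wells) : Base where
  A := Afun η σ
  φ := fun z => Afun η σ z + W.Psi z
  lam := lamf η σ
  smA := Afun_smooth hη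
  smφ := (Afun_smooth hη).add (hW W).1
  smlam := lamf_smooth hη
  out z hz h := by
    have hb := beta_eq_zero h
    have hy : yy z = 0 := by simp [yy, hb]
    have hA : Afun η σ z = psi0 z := by simp [Afun, hy, hb, chi, psi0]
    refine ⟨hA, ?_, by simp [lamf, hy, sig]⟩
    rw [hA, ((hW W).2 z hz).1 (by linarith), add_zero]
  lam_pos z hz := pow_pos (sig_pos hη h0 h1 (yy_nonneg hz)) _
  lam_le z hz := pow_le_one₀ (sig_pos hη h0 h1 (yy_nonneg hz)).le (sig_le_one hη h1 (yy_nonneg hz))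

theorem Wells.ell_pos (W : Wells) (j : ℕ) : 0 < W.ell j :=
  div_pos (by linarith [W.Θ_ge j]) (W.N_pos j)

theorem Wells.one_le_Gam (W : Wells) (j : ℕ) : 1 ≤ W.Gam j := by
  have h1 := W.Θ_ge j
  have h2 := (W.prof j).one_le
  have h3 : 1 ≤ Ov (W.Θ j) := one_le_pow₀ (by linarith)
  have h4 : 1 ≤ Ov (W.Θ j) * W.Γ j := one_le_mul_of_one_le_of_one_le h3 h2
  unfold Wells.Gam
  nlinarith

theorem Wells.ell_succ_le (W : Wells) (j : ℕ) : 4 * W.ell (j + 1) ≤ W.ell j := by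
  have h1 : 4 * W.Gam j ^ 2 * W.ell (j + 1) ≤ W.ell j := W.dec j
  have h2 : 1 ≤ W.Gam j ^ 2 := one_le_pow₀ (W.one_le_Gam j)
  have := W.ell_pos (j + 1)
  nlinarith

theorem Wells.ell_le (W : Wells) (j : ℕ) : W.ell j ≤ 1 / 10000 := by
  induction j with
  | zero => exact W.l0
  | succ j ih => have := W.ell_succ_le j; have := W.ell_pos (j + 1); linarith

theorem baseJ_of {ε η σ : ℝ} (hW : WellsJetStmt) (hη : 0 ≤ η) (h0 : 0 ≤ σ) (h1 : σ ≤ 1)
    (hB : ∀ Ψ : E 2 → ℝ,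
      ContDiffOn ℝ ∞ Ψ (Bl 2) → ∀ z ∈ Bl 2, ∀ K : ℝ, 0 ≤ K →
      (∀ X, 0 ≤ (dz X (dzb X (cx Ψ)) z).re) → JetLe z K (fun F => jet F (cx Ψ) z) →
      4 * sig η σ (yy z) * K * (1 + 4 * K) ≤ ε ^ 2 →
      BaseJ ε (Afun η σ) (fun x => Afun η σ x + Ψ x) (lamf η σ) z) (W : Wells)
    (hj : ∀ j, 72 * W.Gam j ^ 2 * sig η σ (Real.log (1 / W.ell j)) ≤ ε ^ 2) {z : E 2}
    (hz : z ∈ Bl 2) : BaseJ ε (Afun η σ) (fun x => Afun η σ x + W.Psi x) (lamf η σ) z := by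
  obtain ⟨-, hpsh, K, hK, hJ⟩ := (hW W).2 z hz
  rcases hK with rfl | ⟨j, hh1, hq, rfl⟩
  · exact hB _ (hW W).1 z hz 0 le_rfl hpsh hJ (by simpa using sq_nonneg ε)
  · have hG := W.one_le_Gam j
    refine hB _ (hW W).1 z hz _ (by linarith) hpsh hJ (le_trans ?_ (hj j))
    have hl := W.ell_pos j
    have hl' := W.ell_le j
    have hp := hh_pos hz
    have e0 : 0 ≤ Real.log (1 / W.ell j) :=
      Real.log_nonneg (by rw [le_div_iff₀ hl]; linarith)
    have e1 : Real.log (1 / W.ell j) ≤ yy z := by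
      rw [yy, beta_eq_one hq, ← Real.log_div (by linarith) hp.ne']
      refine Real.log_le_log (by positivity) ?_
      rw [div_le_div_iff₀ hl hp]; nlinarith
    have e2 := sig_anti hη h1 e0 e1
    have e3 := sig_pos hη h0 h1 (yy_nonneg hz)
    have e4 : 4 * (2 * W.Gam j) * (1 + 4 * (2 * W.Gam j)) ≤ 72 * W.Gam j ^ 2 := by nlinarith
    calc _ = 4 * (2 * W.Gam j) * (1 + 4 * (2 * W.Gam j)) * sig η σ (yy z) := by ring
      _ ≤ _ := by gcongr

theorem main78 (hM : MetricStmt) (hC : CompleteStmt) (hT : TopStmt) (hP : PotStmt)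
    (hH : HartStmt) (hB : BaseJetStmt) (hW : WellsJetStmt) (hK : KillStmt) (hD : DetStmt)
    (hPa : Param78Stmt) :
    ∃ U : Set (Fin 3 → ℂ), IsOpen U ∧ IsConnected U ∧ ContractibleSpace U ∧
      ∃ g : Crest.GeometryTopology.HermitianMetricOn 3 U, g.IsKahler ∧ g.IsComplete ∧
        (∃ A B : ℝ, 0 < A ∧ A ≤ B ∧ ∀ p ∈ U, ∀ X Y : (Fin 3 → ℂ),
          g.riem p X X * g.riem p Y Y - g.riem p X Y ^ 2 ≠ 0 →
            -B ≤ g.sectional p X Y ∧ g.sectional p X Y ≤ -A) ∧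
        ∀ F : (Fin 3 → ℂ) → (Fin 3 → ℂ), DifferentiableOn ℂ F U → Bornology.IsBounded (F '' U) →
          ∃ p ∈ U, (fderiv ℂ F p).det = 0 := by
  obtain ⟨ε, c0, C0, hε, hε1, h0, h1, hC0, hH⟩ := hH
  obtain ⟨η, hη, hη1, hB⟩ := hB ε hε
  obtain ⟨σ, W, hσ, hσ1, hj, hkill⟩ := hPa ε η hε hε1 hη hη1
  set D := mkBase hW hη.le hσ.le hσ1 W with hD'
  obtain ⟨g, gK, gC, g1, -⟩ := glued hM hC hT hP D h0 h1 fun x hx =>
    hH D x hx (baseJ_of hW hη.le hσ.le hσ1 (hB σ hσ.le hσ1) W hj hx.1)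
  obtain ⟨hO, ⟨F, G, hF, hG, hr, hGF⟩, -⟩ := hT D
  obtain ⟨hmem, -, hl⟩ := hP D
  refine ⟨Omega D, hO, hr ▸ isConnected_range hF.continuous, ?_, g, gK, gC,
    ⟨1, C0 / c0 / σ ^ 16, one_pos, ?_, fun p hp X Y h => ⟨le_trans ?_ (g1 p hp X Y h).1,
      (g1 p hp X Y h).2⟩⟩,
    hD D.φ _ D.smφ.continuousOn hO hmem (hK W _ 1 le_rfl hkill)⟩
  · let e : E 3 ≃ₜ Omega D :=
      { toFun := fun x => ⟨F x, hr ▸ ⟨x, rfl⟩⟩
        invFun := fun y => G y
        left_inv := hGF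
        right_inv := fun y => by
          obtain ⟨y, hy⟩ := y
          rw [← hr] at hy
          obtain ⟨x, rfl⟩ := hy
          simp [hGF]
        continuous_toFun := hF.continuous.subtype_mk _
        continuous_invFun := hG.continuousOn.domRestrict }
    exact e.symm.contractibleSpace
  · rw [le_div_iff₀ (by positivity), le_div_iff₀ h0]
    have : σ ^ 16 ≤ 1 := pow_le_one₀ hσ.le hσ1
    nlinarith
  · obtain ⟨i, a, e, -, -⟩ := hl p hp
    have : σ ^ 16 ≤ lamG D p := by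
      rw [e]; exact pow_le_pow_left₀ hσ.le (le_sig hη.le hσ1 (yy_nonneg a.1)) 16
    rw [neg_le_neg_iff]
    gcongr

theorem main79 (hM : MetricStmt) (hC : CompleteStmt) (hT : TopStmt) (hP : PotStmt)
    (hH : HartStmt) (hB : BaseJetStmt) (hW : WellsJetStmt) (hK : KillStmt) (hD : ConstStmt)
    (hPa : Param79Stmt) :
    ∃ m : ℕ, 2 ≤ m ∧ ∃ U : Set (Fin m → ℂ), IsOpen U ∧
      (∃ Φ Ψ : (Fin m → ℂ) → (Fin m → ℂ), ContDiff ℝ ∞ Φ ∧ ContDiffOn ℝ ∞ Ψ U ∧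
        Set.range Φ = U ∧ ∀ x, Ψ (Φ x) = x) ∧
      ∃ g : Crest.GeometryTopology.HermitianMetricOn m U, g.IsKahler ∧ g.IsComplete ∧
        (∀ p ∈ U, ∀ X Y : (Fin m → ℂ), g.riem p X X * g.riem p Y Y - g.riem p X Y ^ 2 ≠ 0 →
          g.sectional p X Y ≤ -1) ∧
        (∀ B : ℝ, ∃ p ∈ U, ∃ X Y : (Fin m → ℂ),
          g.riem p X X * g.riem p Y Y - g.riem p X Y ^ 2 ≠ 0 ∧ g.sectional p X Y < B) ∧
        ∀ f : (Fin m → ℂ) → ℂ, DifferentiableOn ℂ f U → Bornology.IsBounded (f '' U) →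
          ∀ p ∈ U, ∀ q ∈ U, f p = f q := by
  obtain ⟨ε, c0, C0, hε, hε1, h0, h1, hC0, hH⟩ := hH
  obtain ⟨η, hη, hη1, hB⟩ := hB ε hε
  obtain ⟨W, hj, hkill⟩ := hPa ε η hε hε1 hη hη1
  set D := mkBase hW hη.le le_rfl zero_le_one W with hD'
  obtain ⟨g, gK, gC, g1, g2⟩ := glued hM hC hT hP D h0 h1 fun x hx =>
    hH D x hx (baseJ_of hW hη.le le_rfl zero_le_one (hB 0 le_rfl zero_le_one) W hj hx.1)
  obtain ⟨hO, hFG, -⟩ := hT D
  obtain ⟨hmem, hlam, -⟩ := hP D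
  refine ⟨3, by norm_num, Omega D, hO, hFG, g, gK, gC, fun p hp X Y h => (g1 p hp X Y h).2,
    fun B => ?_, hD D.φ _ D.smφ.continuousOn hO ?_ hmem fun k hk => hK W _ k hk (hkill k hk)⟩
  · -- a point `(0, t, 0)` with `h = 1 - t²` tiny
    set T : ℝ := 3 + |B| / η with hT'
    have hT3 : 3 ≤ T := le_add_of_nonneg_right (by positivity)
    have hδ : Real.exp (-T) ≤ 1 / 16 := by
      have : (16 : ℝ) ≤ Real.exp T := by
        have h1 := Real.exp_one_gt_d9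
        calc (16 : ℝ) ≤ 2.7182818283 ^ 3 := by norm_num
          _ ≤ Real.exp 1 ^ 3 := by gcongr
          _ = Real.exp 3 := by rw [← Real.exp_nat_mul]; norm_num
          _ ≤ _ := Real.exp_le_exp.2 hT3
      rw [Real.exp_neg, ← one_div]
      exact one_div_le_one_div_of_le (by norm_num) this
    have hδ0 := Real.exp_pos (-T)
    set t := Real.sqrt (1 - Real.exp (-T)) with ht
    have ht0 : 0 ≤ t := Real.sqrt_nonneg _
    have ht2 : t ^ 2 = 1 - Real.exp (-T) := Real.sq_sqrt (by linarith)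
    have ht1 : t < 1 := by nlinarith
    have hz : hh ![(t : ℂ), 0] = Real.exp (-T) := by
      simp [hh, nsq_two, ht2]
    have hzB : ![(t : ℂ), 0] ∈ Bl 2 := mem_Bl_of_hh (hz ▸ hδ0)
    have hpr : pr 0 ![0, (t : ℂ), 0] = ![(t : ℂ), 0] := by rw [pr_apply]; rfl
    have hp : ![0, (t : ℂ), 0] ∈ Omega D :=
      hmem 0 _ (hpr ▸ hzB) (Or.inr ⟨by simp, by
        have : (0 : Fin 3) + 2 = 2 := rfl
        rw [this]; simp⟩) (by simp)
    obtain ⟨X, Y, a, b⟩ := g2 _ hp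
    refine ⟨_, hp, X, Y, a, b.trans_lt ?_⟩
    rw [hlam t ht0 ht1]
    have hq : nsq (![(t : ℂ), 0] - q0) ≤ 1 / 16 := by
      have : ‖(t : ℂ) - 1‖ ^ 2 = (1 - t) ^ 2 := by
        rw [← Complex.ofReal_one, ← Complex.ofReal_sub, Complex.norm_real, Real.norm_eq_abs, sq_abs]
        ring
      simp only [nsq_two, q0, Pi.sub_apply, Matrix.cons_val_zero, Matrix.cons_val_one, this]
      simp only [sub_self, norm_zero]
      nlinarith
    have hy : T ≤ yy ![(t : ℂ), 0] := by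
      rw [yy, beta_eq_one hq, hz, Real.log_exp]
      have := Real.log_nonneg (by linarith : 1 ≤ Real.exp (-T) + 1)
      linarith
    have hs : sig η 0 (yy ![(t : ℂ), 0]) ≤ 1 / (1 + η * T) := by
      have := sig_anti (σ := 0) hη.le zero_le_one (by linarith) hy
      simpa [sig] using this
    have hs0 := sig_pos (σ := 0) hη.le le_rfl zero_le_one (yy_nonneg hzB)
    have hs1 := sig_le_one (σ := 0) hη.le zero_le_one (yy_nonneg hzB)
    have h16 : D.lam ![(t : ℂ), 0] ≤ 1 / (1 + η * T) :=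
      (pow_le_of_le_one hs0.le hs1 (by norm_num)).trans hs
    have h17 : 1 + η * T ≤ 1 / D.lam ![(t : ℂ), 0] := by
      rw [le_one_div (by positivity) (D.lam_pos _ hzB)]; exact h16
    have h18 : η * T = 3 * η + |B| := by rw [hT']; field_simp
    have := neg_abs_le B
    linarith
  · obtain ⟨F, G, hF, -, hr, -⟩ := hFG
    exact hr ▸ isPreconnected_range hF.continuous

end Crest.Agent.R245
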