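import Crest.Agent.R245.Basic

/-! Row 245: positivity of the main part of the curvature (a real inequality). -/

set_option autoImplicit false

namespace Crest.Agent.R245

namespace MI

theorem pp {s p1 p2 m c x1 x2 J1 J2 : ℝ} (hs0 : 0 ≤ s) (hp1 : p1 ≤ 1) (hp2 : p2 ≤ 1)
    (hm : 0 ≤ m) (hc : 0 ≤ c) (hx1 : 0 ≤ x1) (hx2 : 0 ≤ x2) (hJ1 : 0 ≤ J1) (hJ2 : 0 ≤ J2) :
    m * J1 ^ 2 + p1 * (s * x1 ^ 2) + m * J2 ^ 2 + p2 * (s * x2 ^ 2) ≤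
      c ^ 2 + (1 + s - p1) * c * x1 + (1 + s - p2) * c * x2 + s * (x1 ^ 2 + x2 ^ 2 + x1 * x2) +
        m * (J1 ^ 2 + J2 ^ 2 + J1 * J2) := by
  have h1 : 0 ≤ (1 + s - p1) * c * x1 := mul_nonneg (mul_nonneg (by linarith) hc) hx1
  have h2 : 0 ≤ (1 + s - p2) * c * x2 := mul_nonneg (mul_nonneg (by linarith) hc) hx2
  have h3 : p1 * (s * x1 ^ 2) ≤ s * x1 ^ 2 := mul_le_of_le_one_left (by positivity) hp1
  have h4 : p2 * (s * x2 ^ 2) ≤ s * x2 ^ 2 := mul_le_of_le_one_left (by positivity) hp2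
  have h5 : 0 ≤ s * (x1 * x2) := by positivity
  have h6 : 0 ≤ m * (J1 * J2) := by positivity
  nlinarith [sq_nonneg c]

theorem mm {s p1 p2 m c x1 x2 J1 J2 : ℝ} (hs0 : 0 ≤ s) (hs1 : s ≤ 1) (hp1' : 0 ≤ p1)
    (hp1 : p1 ≤ 1) (hp2' : 0 ≤ p2) (hp2 : p2 ≤ 1)
    (hm : 0 ≤ m) (hc : 0 ≤ c) (hx1 : 0 ≤ x1) (hx2 : 0 ≤ x2) (hJ1 : 0 ≤ J1) (hJ2 : 0 ≤ J2)
    (h : (1 - s) ^ 2 * (x1 + x2) ^ 2 ≤ 101 / 100 * (m * (J1 + J2) ^ 2)) :
    (m * J1 ^ 2 + p1 * (s * x1 ^ 2) + m * J2 ^ 2 + p2 * (s * x2 ^ 2)) / 4 ≤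
      c ^ 2 - (1 + s - p1) * c * x1 - (1 + s - p2) * c * x2 + s * (x1 + x2) ^ 2 +
        m * (J1 + J2) ^ 2 := by
  have e : c ^ 2 - (1 + s - p1) * c * x1 - (1 + s - p2) * c * x2 + s * (x1 + x2) ^ 2 =
      (c - (x1 + x2)) * (c - s * (x1 + x2)) + p1 * (c * x1) + p2 * (c * x2) := by ring
  have hJ : m * J1 ^ 2 + m * J2 ^ 2 ≤ m * (J1 + J2) ^ 2 := by
    have : 0 ≤ m * (J1 * J2) := by positivity
    linarith
  have hJ0 : 0 ≤ m * J1 ^ 2 + m * J2 ^ 2 := by positivity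
  rw [e]
  rcases le_total (s * (x1 + x2)) (2 * c) with hcs | hcs
  · have h1 : -((1 - s) ^ 2 * (x1 + x2) ^ 2) / 4 ≤ (c - (x1 + x2)) * (c - s * (x1 + x2)) := by
      nlinarith [sq_nonneg (c - (1 + s) * (x1 + x2) / 2)]
    have h2 : s * x1 ^ 2 ≤ 2 * (c * x1) := by
      have : s * x1 ≤ 2 * c := le_trans (mul_le_mul_of_nonneg_left (by linarith) hs0) hcs
      linarith [mul_le_mul_of_nonneg_right this hx1]
    have h3 : s * x2 ^ 2 ≤ 2 * (c * x2) := by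
      have : s * x2 ≤ 2 * c := le_trans (mul_le_mul_of_nonneg_left (by linarith) hs0) hcs
      linarith [mul_le_mul_of_nonneg_right this hx2]
    have h4 := mul_le_mul_of_nonneg_left h2 hp1'
    have h5 := mul_le_mul_of_nonneg_left h3 hp2'
    have h6 : 0 ≤ p1 * (c * x1) := by positivity
    have h7 : 0 ≤ p2 * (c * x2) := by positivity
    linarith
  · have hx : s * (x1 + x2) ≤ x1 + x2 := mul_le_of_le_one_left (by positivity) hs1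
    have h1 : (x1 + x2) / 2 * (s * (x1 + x2) / 2) ≤ (x1 + x2 - c) * (s * (x1 + x2) - c) :=
      mul_le_mul (by linarith) (by linarith) (by positivity) (by linarith)
    have h3 : p1 * (s * x1 ^ 2) ≤ s * x1 ^ 2 := mul_le_of_le_one_left (by positivity) hp1
    have h4 : p2 * (s * x2 ^ 2) ≤ s * x2 ^ 2 := mul_le_of_le_one_left (by positivity) hp2
    have h5 : 0 ≤ s * (x1 * x2) := by positivity
    have h6 : 0 ≤ p1 * (c * x1) := by positivity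
    have h7 : 0 ≤ p2 * (c * x2) := by positivity
    linarith

theorem mp {s p1 p2 m c x1 x2 J1 J2 : ℝ} (hs0 : 0 ≤ s) (hs1 : s ≤ 1) (hp1' : 0 ≤ p1)
    (hp1 : p1 ≤ 1) (hp2 : p2 ≤ 1)
    (hm : 0 ≤ m) (hc : 0 ≤ c) (hx1 : 0 ≤ x1) (hx2 : 0 ≤ x2)
    (h : (1 - s) ^ 2 * x1 ^ 2 ≤ 101 / 100 * (m * J1 ^ 2)) :
    (m * J1 ^ 2 + p1 * (s * x1 ^ 2) + m * J2 ^ 2 + p2 * (s * x2 ^ 2)) / 50 ≤
      c ^ 2 - (1 + s - p1) * c * x1 + (1 + s - p2) * c * x2 + s * (x1 ^ 2 + x2 ^ 2 - x1 * x2) +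
        m * (J1 ^ 2 + J2 ^ 2 - J1 * J2) := by
  obtain ⟨d, rfl⟩ : ∃ d, x1 = c + d := ⟨x1 - c, by ring⟩
  have e : c ^ 2 - (1 + s - p1) * c * (c + d) + (1 + s - p2) * c * x2 +
      s * ((c + d) ^ 2 + x2 ^ 2 - (c + d) * x2) =
      s * (d ^ 2 - d * x2 + x2 ^ 2) - (1 - s) * (c * d) + p1 * (c * (c + d)) +
        (1 - p2) * (c * x2) := by ring
  rw [e]
  have h0 : 0 ≤ (1 - p2) * (c * x2) := mul_nonneg (by linarith) (by positivity)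
  have h4 : p2 * (s * x2 ^ 2) ≤ s * x2 ^ 2 := mul_le_of_le_one_left (by positivity) hp2
  have hJ : m * (74 / 100 * J1 ^ 2 + 3 / 100 * J2 ^ 2) ≤ m * (J1 ^ 2 + J2 ^ 2 - J1 * J2) :=
    mul_le_mul_of_nonneg_left (by nlinarith [sq_nonneg (J1 - 193 / 100 * J2), sq_nonneg J2]) hm
  have hd : s * (72 / 100 * d ^ 2 + 1 / 10 * x2 ^ 2) ≤ s * (d ^ 2 - d * x2 + x2 ^ 2) :=
    mul_le_mul_of_nonneg_left (by nlinarith [sq_nonneg (d - 179 / 100 * x2), sq_nonneg x2]) hs0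
  have hJ1 : 0 ≤ m * J1 ^ 2 := by positivity
  have hJ2 : 0 ≤ m * J2 ^ 2 := by positivity
  have hsx : 0 ≤ s * x2 ^ 2 := by positivity
  have hsd : 0 ≤ s * d ^ 2 := by positivity
  have hpc : 0 ≤ p1 * (c * (c + d)) := by positivity
  -- the loss
  have hl : (1 - s) * (c * d) ≤ 7 / 10 * (s * d ^ 2) + 64 / 100 * (m * J1 ^ 2) := by
    rcases le_total d 0 with hd0 | hd0
    · have : (1 - s) * (c * d) ≤ 0 :=
        mul_nonpos_of_nonneg_of_nonpos (by linarith) (mul_nonpos_of_nonneg_of_nonpos hc hd0)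
      linarith
    · rcases le_total s (3 / 5) with h35 | h35
      · have h1 : c * d ≤ (c + d) ^ 2 / 4 := by nlinarith [sq_nonneg (c - d)]
        have h2 : (1 - s) * (c * d) ≤ (1 - s) * ((c + d) ^ 2 / 4) :=
          mul_le_mul_of_nonneg_left h1 (by linarith)
        have h3 : 2 / 5 * ((1 - s) * (c + d) ^ 2) ≤ (1 - s) * ((1 - s) * (c + d) ^ 2) :=
          mul_le_mul_of_nonneg_right (by linarith) (mul_nonneg (by linarith) (sq_nonneg _))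
        linarith
      · have h1 : (1 - s) * (c * d) ≤ 42 / 100 * d ^ 2 + ((1 - s) * c) ^ 2 / (168 / 100) := by
          nlinarith [sq_nonneg ((1 - s) * c - 84 / 100 * d)]
        have h2 : ((1 - s) * c) ^ 2 ≤ (1 - s) ^ 2 * (c + d) ^ 2 := by
          rw [mul_pow]
          exact mul_le_mul_of_nonneg_left (by nlinarith) (sq_nonneg _)
        have h3 : 3 / 5 * d ^ 2 ≤ s * d ^ 2 := mul_le_mul_of_nonneg_right h35 (sq_nonneg _)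
        linarith
  -- the gain
  have hg : p1 * (s * (c + d) ^ 2) ≤ 2 * (p1 * (c * (c + d))) + s * d ^ 2 := by
    have h1 : (c + d) ^ 2 ≤ 2 * (c * (c + d)) + d ^ 2 := by nlinarith [sq_nonneg c]
    have h2 : s * (c + d) ^ 2 ≤ 2 * (c * (c + d)) + s * d ^ 2 := by
      have h3 := mul_le_mul_of_nonneg_left h1 hs0
      have h5 : s * (c * (c + d)) ≤ c * (c + d) := mul_le_of_le_one_left (by positivity) hs1
      linarith
    have h3 := mul_le_mul_of_nonneg_left h2 hp1'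
    have h5 : p1 * (s * d ^ 2) ≤ s * d ^ 2 := mul_le_of_le_one_left hsd hp1
    linarith
  nlinarith

/-- the part of the right-hand side without `n1, n2` -/
def Sp (s κ1 κ2 p1 p2 m c I1 I2 n12 : ℝ) : ℝ :=
  c ^ 2 + (1 + s - p1) * c * (κ1 * I1) + (1 + s - p2) * c * (κ2 * I2) +
    s * ((κ1 * I1) ^ 2 + (κ2 * I2) ^ 2 + (κ1 * I1) * (κ2 * I2)) + s * κ1 * κ2 * n12 +
    m * (I1 ^ 2 + I2 ^ 2 + I1 * I2 + n12)

theorem core_pos {s κ1 κ2 p1 p2 m c I1 I2 n12 : ℝ} (hs0 : 0 ≤ s) (hs1 : s ≤ 1) (hκ1 : 0 ≤ κ1)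
    (hκ2 : 0 ≤ κ2) (hp1' : 0 ≤ p1) (hp1 : p1 ≤ 1) (hp2' : 0 ≤ p2) (hp2 : p2 ≤ 1) (hm : 0 ≤ m)
    (h1 : ((1 - s) * κ1) ^ 2 ≤ 101 / 100 * m) (h2 : ((1 - s) * κ2) ^ 2 ≤ 101 / 100 * m)
    (hn : 0 ≤ n12) (hI : I1 * I2 ≤ n12) (hc : 0 ≤ c) :
    ((m + p1 * (s * κ1 ^ 2)) * I1 ^ 2 + (m + p2 * (s * κ2 ^ 2)) * I2 ^ 2 +
      (m + s * κ1 * κ2) * (n12 - max (I1 * I2) 0)) / 50 ≤ Sp s κ1 κ2 p1 p2 m c I1 I2 n12 := by
  have hW : 0 ≤ m + s * κ1 * κ2 := by positivity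
  have hA1 : 0 ≤ (m + p1 * (s * κ1 ^ 2)) * I1 ^ 2 := by positivity
  have hA2 : 0 ≤ (m + p2 * (s * κ2 ^ 2)) * I2 ^ 2 := by positivity
  have hWn : 0 ≤ (m + s * κ1 * κ2) * n12 := by positivity
  have hb1 : (1 - s) ^ 2 * (κ1 * I1) ^ 2 ≤ 101 / 100 * (m * I1 ^ 2) := by
    have := mul_le_mul_of_nonneg_right h1 (sq_nonneg I1)
    linarith
  have hb2 : (1 - s) ^ 2 * (κ2 * I2) ^ 2 ≤ 101 / 100 * (m * I2 ^ 2) := by
    have := mul_le_mul_of_nonneg_right h2 (sq_nonneg I2)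
    linarith
  unfold Sp
  rcases le_total 0 I1 with hI1 | hI1 <;> rcases le_total 0 I2 with hI2 | hI2
  · have := pp (s := s) (p1 := p1) (p2 := p2) (x1 := κ1 * I1) (x2 := κ2 * I2) hs0 hp1 hp2 hm hc
      (by positivity) (by positivity) hI1 hI2
    have h3 : 0 ≤ (m + s * κ1 * κ2) * max (I1 * I2) 0 := mul_nonneg hW (le_max_right _ _)
    linarith
  · have := mp (s := s) (p1 := p2) (p2 := p1) (x1 := -(κ2 * I2)) (x2 := κ1 * I1) (J1 := -I2)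
      (J2 := I1) hs0 hs1 hp2' hp2 hp1 hm hc (by nlinarith) (by positivity)
      (by rw [neg_sq, neg_sq]; exact hb2)
    have h3 : 0 ≤ (m + s * κ1 * κ2) * max (I1 * I2) 0 := mul_nonneg hW (le_max_right _ _)
    linarith
  · have := mp (s := s) (p1 := p1) (p2 := p2) (x1 := -(κ1 * I1)) (x2 := κ2 * I2) (J1 := -I1)
      (J2 := I2) hs0 hs1 hp1' hp1 hp2 hm hc (by nlinarith) (by positivity)
      (by rw [neg_sq, neg_sq]; exact hb1)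
    have h3 : 0 ≤ (m + s * κ1 * κ2) * max (I1 * I2) 0 := mul_nonneg hW (le_max_right _ _)
    linarith
  · have h12 : 0 ≤ I1 * I2 := mul_nonneg_of_nonpos_of_nonpos hI1 hI2
    have h3 : (1 - s) ^ 2 * (κ1 * κ2) ≤ 101 / 100 * m := by
      nlinarith [sq_nonneg ((1 - s) * κ1 - (1 - s) * κ2)]
    have h4 := mul_le_mul_of_nonneg_right h3 h12
    have := mm (s := s) (p1 := p1) (p2 := p2) (x1 := -(κ1 * I1)) (x2 := -(κ2 * I2)) (J1 := -I1)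
      (J2 := -I2) hs0 hs1 hp1' hp1 hp2' hp2 hm hc (by nlinarith) (by nlinarith) (by linarith)
      (by linarith) (by nlinarith)
    rw [max_eq_left h12]
    have h5 : 0 ≤ (m + s * κ1 * κ2) * (n12 - I1 * I2) := mul_nonneg hW (by linarith)
    linarith

theorem core {s κ1 κ2 p1 p2 m c I1 I2 n12 : ℝ} (hs0 : 0 ≤ s) (hs1 : s ≤ 1) (hκ1 : 0 ≤ κ1)
    (hκ2 : 0 ≤ κ2) (hp1' : 0 ≤ p1) (hp1 : p1 ≤ 1) (hp2' : 0 ≤ p2) (hp2 : p2 ≤ 1) (hm : 0 ≤ m)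
    (h1 : ((1 - s) * κ1) ^ 2 ≤ 101 / 100 * m) (h2 : ((1 - s) * κ2) ^ 2 ≤ 101 / 100 * m)
    (hn : 0 ≤ n12) (hI : I1 * I2 ≤ n12) :
    ((m + p1 * (s * κ1 ^ 2)) * I1 ^ 2 + (m + p2 * (s * κ2 ^ 2)) * I2 ^ 2 +
      (m + s * κ1 * κ2) * (n12 - max (I1 * I2) 0)) / 50 ≤ Sp s κ1 κ2 p1 p2 m c I1 I2 n12 := by
  rcases le_total 0 c with hc | hc
  · exact core_pos hs0 hs1 hκ1 hκ2 hp1' hp1 hp2' hp2 hm h1 h2 hn hI hc
  · have := core_pos (c := -c) (I1 := -I1) (I2 := -I2) hs0 hs1 hκ1 hκ2 hp1' hp1 hp2' hp2 hm h1 h2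
      hn (by rwa [neg_mul_neg]) (by linarith)
    rw [neg_mul_neg, neg_sq, neg_sq] at this
    refine this.trans (le_of_eq ?_)
    unfold Sp; ring

theorem core_c {s κ1 κ2 p1 p2 m c I1 I2 n12 : ℝ} (hs0 : 0 ≤ s) (hs1 : s ≤ 1) (hκ1 : 0 ≤ κ1)
    (hκ2 : 0 ≤ κ2) (hp1' : 0 ≤ p1) (hp1 : p1 ≤ 1) (hp2' : 0 ≤ p2) (hp2 : p2 ≤ 1) (hm : 0 ≤ m)
    (hn : 0 ≤ n12) :
    c ^ 2 ≤ 2 * Sp s κ1 κ2 p1 p2 m c I1 I2 n12 + 8 * (κ1 ^ 2 * I1 ^ 2 + κ2 ^ 2 * I2 ^ 2) := by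
  have k : ∀ a y : ℝ, 0 ≤ a → a ≤ 2 → -(c ^ 2 / 4) - 4 * y ^ 2 ≤ a * c * y := by
    intro a y h0 h2
    have : a ^ 2 * y ^ 2 ≤ 4 * y ^ 2 := mul_le_mul_of_nonneg_right (by nlinarith) (sq_nonneg _)
    nlinarith [sq_nonneg (c / 2 + a * y)]
  have h1 := k (1 + s - p1) (κ1 * I1) (by linarith) (by linarith)
  have h2 := k (1 + s - p2) (κ2 * I2) (by linarith) (by linarith)
  have h3 : 0 ≤ s * ((κ1 * I1) ^ 2 + (κ2 * I2) ^ 2 + (κ1 * I1) * (κ2 * I2)) :=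
    mul_nonneg hs0 (by nlinarith [sq_nonneg (κ1 * I1 + κ2 * I2), sq_nonneg (κ1 * I1), sq_nonneg (κ2 * I2)])
  have h4 : 0 ≤ s * κ1 * κ2 * n12 := by positivity
  have h5 : 0 ≤ m * (I1 ^ 2 + I2 ^ 2 + I1 * I2 + n12) :=
    mul_nonneg hm (by nlinarith [sq_nonneg (I1 + I2), sq_nonneg I1, sq_nonneg I2])
  unfold Sp
  linarith

/-- (a) -/
theorem fa {s κ lam p : ℝ} (hs0 : 0 ≤ s) (hl0 : 0 ≤ lam) (hl : lam ≤ κ)
    (h : (1 - s) * κ ≤ 101 / 100) (hp1 : p ≤ 1) (hp : p * (1 + s * κ) = s * κ) :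
    lam + s * κ ≤ 4 * (κ * (1 + s - p)) := by
  have hκ : 0 ≤ κ := hl0.trans hl
  rcases le_total s (1 / 2) with h2 | h2
  · have h3 : s * κ ≤ (1 - s) * κ := mul_le_mul_of_nonneg_right (by linarith) hκ
    have h4 : 0 ≤ s * κ := by positivity
    have h5 : 1 / 4 ≤ 1 - p := by
      by_contra hh
      have h6 : 3 / 4 * (1 + s * κ) ≤ p * (1 + s * κ) :=
        mul_le_mul_of_nonneg_right (by linarith) (by linarith)
      linarith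
    have h6 := mul_le_mul_of_nonneg_left h5 hκ
    linarith
  · have h3 : 1 / 2 * κ ≤ s * κ := mul_le_mul_of_nonneg_right h2 hκ
    have h4 : 0 ≤ κ * (1 - p) := mul_nonneg hκ (by linarith)
    linarith

theorem fu {u υ : ℝ} (hu0 : 0 ≤ u) (hu1 : u ≤ 1) (hυ : 0 ≤ υ) : u ^ 2 * υ ≤ u ^ 3 + υ ^ 2 := by
  rcases le_total υ u with h | h
  · have := mul_le_mul_of_nonneg_left h (sq_nonneg u)
    linarith [sq_nonneg υ]
  · have h1 : u ^ 2 ≤ υ := by nlinarith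
    have := mul_le_mul_of_nonneg_right h1 hυ
    have : 0 ≤ u ^ 3 := by positivity
    linarith

/-- (b) -/
theorem fb {s κ lam p m u υ : ℝ} (hs0 : 0 ≤ s) (hs1 : s ≤ 1) (hκ : 0 ≤ κ) (hl0 : 0 ≤ lam)
    (hu0 : 0 ≤ u) (hu1 : u ≤ 1) (hl : lam ≤ u ^ 3) (hm : u ^ 3 ≤ m) (hυ : 0 ≤ υ)
    (hg : υ ≤ s * κ) (hp0 : 0 ≤ p) (hp : p * (1 + s * κ) = s * κ) :
    m + u ^ 2 * υ + lam * (1 + s * κ) ^ 2 ≤ 10 * (m + p * (s * κ ^ 2)) := by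
  have hg0 : 0 ≤ s * κ := by positivity
  have hu3 : 0 ≤ u ^ 3 := by positivity
  have hu3' : u ^ 3 ≤ 1 := pow_le_one₀ hu0 hu1
  have hu2' : u ^ 2 ≤ 1 := pow_le_one₀ hu0 hu1
  have hsq : (s * κ) ^ 2 ≤ s * κ ^ 2 := by
    have : s * (s * κ ^ 2) ≤ s * κ ^ 2 := mul_le_of_le_one_left (by positivity) hs1
    linarith
  have hq0 : 0 ≤ s * κ ^ 2 := by positivity
  rcases le_total 1 (s * κ) with h1 | h1
  · have hp2 : 1 / 2 ≤ p := by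
      by_contra hh
      have h6 : p * (1 + s * κ) < 1 / 2 * (1 + s * κ) :=
        mul_lt_mul_of_pos_right (by linarith) (by linarith)
      linarith
    have h3 := mul_le_mul_of_nonneg_right hp2 hq0
    have h4 : s * κ ≤ (s * κ) ^ 2 := by nlinarith
    have h5 : u ^ 2 * υ ≤ υ := mul_le_of_le_one_left hυ hu2'
    have h6 : lam * (1 + s * κ) ^ 2 ≤ (1 + s * κ) ^ 2 :=
      mul_le_of_le_one_left (sq_nonneg _) (by linarith)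
    have h7 : (1 + s * κ) ^ 2 ≤ (2 * (s * κ)) ^ 2 :=
      pow_le_pow_left₀ (by linarith) (by linarith) 2
    linarith
  · have h3 : (1 + s * κ) ^ 2 ≤ 2 ^ 2 := pow_le_pow_left₀ (by linarith) (by linarith) 2
    have h4 := mul_le_mul_of_nonneg_left h3 hl0
    have hp2 : υ / 2 ≤ p := by
      have : p * (1 + s * κ) ≤ p * 2 := mul_le_mul_of_nonneg_left (by linarith) hp0
      linarith
    have h5 : υ ^ 2 ≤ s * κ ^ 2 := (pow_le_pow_left₀ hυ hg 2).trans hsq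
    have h6 : υ / 2 * υ ^ 2 ≤ p * (s * κ ^ 2) := mul_le_mul hp2 h5 (sq_nonneg _) hp0
    have h7 : u ^ 2 * υ ≤ u ^ 3 + υ ^ 3 := by
      rcases le_total υ u with h | h
      · have := mul_le_mul_of_nonneg_left h (sq_nonneg u)
        have : 0 ≤ υ ^ 3 := by positivity
        linarith
      · have := mul_le_mul_of_nonneg_right (pow_le_pow_left₀ hu0 h 2) hυ
        linarith
    have h8 : 0 ≤ p * (s * κ ^ 2) := by positivity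
    linarith

theorem fc1 {lam υ k g : ℝ} (hl0 : 0 ≤ lam) (hυ : 0 ≤ υ) (hk : 0 ≤ k) (hg : υ ≤ g)
    (h : lam * k ≤ 101 / 100) : lam * (υ * k) ≤ 101 / 100 * lam + υ * k * g := by
  have h0 : 0 ≤ υ * k := by positivity
  rcases le_total lam υ with h1 | h1
  · have := mul_le_mul_of_nonneg_right (h1.trans hg) h0
    linarith
  · have h2 : υ * k ≤ 101 / 100 := (mul_le_mul_of_nonneg_right h1 hk).trans h
    have h3 := mul_le_mul_of_nonneg_left h2 hl0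
    have h4 : 0 ≤ υ * k * g := mul_nonneg h0 (hυ.trans hg)
    linarith

/-- (c) -/
theorem fc {s κ1 κ2 k1 k2 lam m u υ : ℝ} (hs0 : 0 ≤ s) (hs1 : s ≤ 1) (hκ1 : 0 ≤ κ1)
    (hκ2 : 0 ≤ κ2) (hl0 : 0 ≤ lam) (hu0 : 0 ≤ u) (hu1 : u ≤ 1) (hl : lam ≤ u ^ 3) (hm : u ^ 3 ≤ m)
    (hυ : 0 ≤ υ) (hk1 : 1 ≤ k1) (hk2 : 1 ≤ k2) (e1 : υ * k1 = s * κ1) (e2 : υ * k2 = s * κ2)
    (h1 : lam * k1 ≤ 101 / 100) (h2 : lam * k2 ≤ 101 / 100) :
    m + u ^ 2 * υ + lam * (1 + s * κ1) * (1 + s * κ2) ≤ 10 * (m + s * κ1 * κ2) := by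
  have hu3' : u ^ 3 ≤ 1 := pow_le_one₀ hu0 hu1
  have g1 : υ ≤ s * κ1 := e1 ▸ le_mul_of_one_le_right hυ hk1
  have g2 : υ ≤ s * κ2 := e2 ▸ le_mul_of_one_le_right hυ hk2
  have a1 := fc1 hl0 hυ (by linarith) g2 h1
  have a2 := fc1 hl0 hυ (by linarith) g1 h2
  rw [e1] at a1
  rw [e2] at a2
  have a3 := fu hu0 hu1 hυ
  have a4 : υ * υ ≤ s * κ1 * (s * κ2) := mul_le_mul g1 g2 hυ (by positivity)
  have a5 : s * (s * κ1 * κ2) ≤ s * κ1 * κ2 := mul_le_of_le_one_left (by positivity) hs1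
  have a6 : lam * (s * κ1 * (s * κ2)) ≤ s * κ1 * (s * κ2) :=
    mul_le_of_le_one_left (by positivity) (by linarith)
  have a7 : 0 ≤ s * κ1 * κ2 := by positivity
  linarith

/-- (d) -/
theorem fd {s κ lam m τ : ℝ} (hs0 : 0 ≤ s) (hκ : 0 ≤ κ) (hl0 : 0 ≤ lam) (hl1 : lam ≤ 1)
    (hm : 0 ≤ m) (hτ : m ≤ τ) (h : ((1 - s) * κ) ^ 2 ≤ 101 / 100 * m) :
    lam * κ ^ 2 ≤ 3 * (τ + lam * (1 + s * κ) ^ 2) := by
  have h0 : 0 ≤ s * κ := by positivity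
  have h1 : κ ^ 2 ≤ 2 * ((1 - s) * κ) ^ 2 + 2 * (1 + s * κ) ^ 2 := by
    linarith [sq_nonneg ((1 - s) * κ - s * κ)]
  have h2 := mul_le_mul_of_nonneg_left h1 hl0
  have h3 : lam * ((1 - s) * κ) ^ 2 ≤ ((1 - s) * κ) ^ 2 := mul_le_of_le_one_left (sq_nonneg _) hl1
  have h4 : 0 ≤ lam * (1 + s * κ) ^ 2 := by positivity
  linarith

/-- the inequality in abstract variables -/
theorem final {s κ1 κ2 k1 k2 p1 p2 lam m u υ c I1 I2 n1 n2 n12 : ℝ} (hs0 : 0 ≤ s) (hs1 : s ≤ 1)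
    (hl0 : 0 ≤ lam) (hκ1 : lam ≤ κ1) (hκ2 : lam ≤ κ2) (hu0 : 0 ≤ u) (hu1 : u ≤ 1)
    (hl : lam ≤ u ^ 3) (hm : u ^ 3 ≤ m) (hυ : 0 ≤ υ) (hk1 : 1 ≤ k1) (hk2 : 1 ≤ k2)
    (e1 : υ * k1 = s * κ1) (e2 : υ * k2 = s * κ2) (f1 : lam * k1 = (1 - s) * κ1)
    (f2 : lam * k2 = (1 - s) * κ2) (b1 : (lam * k1) ^ 2 ≤ 101 / 100 * u ^ 3)
    (b2 : (lam * k2) ^ 2 ≤ 101 / 100 * u ^ 3) (hp1' : 0 ≤ p1) (hp1 : p1 ≤ 1) (hp2' : 0 ≤ p2)
    (hp2 : p2 ≤ 1) (q1 : p1 * (1 + s * κ1) = s * κ1) (q2 : p2 * (1 + s * κ2) = s * κ2)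
    (hn1 : 0 ≤ n1) (hn2 : 0 ≤ n2) (hn : 0 ≤ n12) (hI : I1 * I2 ≤ n12) :
    1 / 20000 * (lam * c ^ 2 + (lam + s * κ1) * n1 + (lam + s * κ2) * n2 +
        (m + u ^ 2 * υ + lam * (1 + s * κ1) ^ 2) * I1 ^ 2 +
        (m + u ^ 2 * υ + lam * (1 + s * κ2) ^ 2) * I2 ^ 2 +
        (m + u ^ 2 * υ + lam * (1 + s * κ1) * (1 + s * κ2)) * n12) ≤
      Sp s κ1 κ2 p1 p2 m c I1 I2 n12 + κ1 * (1 + s - p1) * n1 + κ2 * (1 + s - p2) * n2 := by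
  have hu3 : 0 ≤ u ^ 3 := by positivity
  have hu3' : u ^ 3 ≤ 1 := pow_le_one₀ hu0 hu1
  have hm0 : 0 ≤ m := hu3.trans hm
  have hκ1' : 0 ≤ κ1 := hl0.trans hκ1
  have hκ2' : 0 ≤ κ2 := hl0.trans hκ2
  have hl1 : lam ≤ 1 := hl.trans hu3'
  have c1 : lam * k1 ≤ 101 / 100 :=
    le_of_sq_le_sq (by linarith) (by norm_num)
  have c2 : lam * k2 ≤ 101 / 100 :=
    le_of_sq_le_sq (by linarith) (by norm_num)
  have d1 : ((1 - s) * κ1) ^ 2 ≤ 101 / 100 * m := by rw [← f1]; linarith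
  have d2 : ((1 - s) * κ2) ^ 2 ≤ 101 / 100 * m := by rw [← f2]; linarith
  have hτ : m ≤ m + u ^ 2 * υ := le_add_of_nonneg_right (by positivity)
  have a1 := mul_le_mul_of_nonneg_right (fa hs0 hl0 hκ1 (f1 ▸ c1) hp1 q1) hn1
  have a2 := mul_le_mul_of_nonneg_right (fa hs0 hl0 hκ2 (f2 ▸ c2) hp2 q2) hn2
  have g1 : υ ≤ s * κ1 := e1 ▸ le_mul_of_one_le_right hυ hk1
  have g2 : υ ≤ s * κ2 := e2 ▸ le_mul_of_one_le_right hυ hk2
  have t1 := mul_le_mul_of_nonneg_right (fb hs0 hs1 hκ1' hl0 hu0 hu1 hl hm hυ g1 hp1' q1)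
    (sq_nonneg I1)
  have t2 := mul_le_mul_of_nonneg_right (fb hs0 hs1 hκ2' hl0 hu0 hu1 hl hm hυ g2 hp2' q2)
    (sq_nonneg I2)
  have hM : 0 ≤ n12 - max (I1 * I2) 0 := sub_nonneg.2 (max_le hI hn)
  have w := mul_le_mul_of_nonneg_right
    (fc hs0 hs1 hκ1' hκ2' hl0 hu0 hu1 hl hm hυ hk1 hk2 e1 e2 c1 c2) hM
  have s1 := mul_le_mul_of_nonneg_right (fd hs0 hκ1' hl0 hl1 hm0 hτ d1) (sq_nonneg I1)
  have s2 := mul_le_mul_of_nonneg_right (fd hs0 hκ2' hl0 hl1 hm0 hτ d2) (sq_nonneg I2)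
  have hcore := core (c := c) hs0 hs1 hκ1' hκ2' hp1' hp1 hp2' hp2 hm0 d1 d2 hn hI
  have hc := mul_le_mul_of_nonneg_left
    (core_c (c := c) (I1 := I1) (I2 := I2) hs0 hs1 hκ1' hκ2' hp1' hp1 hp2' hp2 hm0 hn) hl0
  have hA1 : 0 ≤ (m + p1 * (s * κ1 ^ 2)) * I1 ^ 2 := by positivity
  have hA2 : 0 ≤ (m + p2 * (s * κ2 ^ 2)) * I2 ^ 2 := by positivity
  have hB : 0 ≤ (m + s * κ1 * κ2) * (n12 - max (I1 * I2) 0) := mul_nonneg (by positivity) hM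
  have hN1 : 0 ≤ (lam + s * κ1) * n1 := by positivity
  have hN2 : 0 ≤ (lam + s * κ2) * n2 := by positivity
  have he : (m + u ^ 2 * υ + lam * (1 + s * κ1) * (1 + s * κ2)) * max (I1 * I2) 0 ≤
      ((m + u ^ 2 * υ + lam * (1 + s * κ1) ^ 2) * I1 ^ 2 +
        (m + u ^ 2 * υ + lam * (1 + s * κ2) ^ 2) * I2 ^ 2) / 2 := by
    rcases le_total (I1 * I2) 0 with h | h
    · rw [max_eq_right h, mul_zero]; positivity
    · rw [max_eq_left h]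
      have x1 : 0 ≤ (m + u ^ 2 * υ) * (I1 - I2) ^ 2 := by positivity
      have x2 : 0 ≤ lam * ((1 + s * κ1) * I1 - (1 + s * κ2) * I2) ^ 2 := by positivity
      linarith
  generalize Sp s κ1 κ2 p1 p2 m c I1 I2 n12 = S at hcore hc ⊢
  generalize max (I1 * I2) 0 = M at *
  have hS : 0 ≤ S := by linarith
  have hlS : lam * S ≤ S := mul_le_of_le_one_left hS hl1
  generalize m + u ^ 2 * υ = τ at *
  generalize τ + lam * (1 + s * κ1) * (1 + s * κ2) = W at *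
  generalize τ + lam * (1 + s * κ1) ^ 2 = T1 at *
  generalize τ + lam * (1 + s * κ2) ^ 2 = T2 at *
  generalize m + p1 * (s * κ1 ^ 2) = A1 at *
  generalize m + p2 * (s * κ2 ^ 2) = A2 at *
  generalize m + s * κ1 * κ2 = B at *
  generalize lam + s * κ1 = L1 at *
  generalize lam + s * κ2 = L2 at *
  generalize κ1 * (1 + s - p1) = R1 at *
  generalize κ2 * (1 + s - p2) = R2 at *
  linarith

end MI

theorem mainIneq : MainIneqStmt := by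
  refine ⟨1 / 20000, by norm_num, ?_⟩
  intro ς s k1 k2 c I1 I2 n1 n2 n12 hς0 hς1 hs0 hs1 hk1 hk2 b1 b2 hn1 hn2 hn hI
  have ht : 0 < 1 - s := by linarith
  have hl0 : 0 ≤ ς ^ 32 := by positivity
  have hυ : 0 ≤ ups ς s := by unfold ups; positivity
  have hκ : ∀ k, 1 ≤ k → ς ^ 32 ≤ kt ς s k := by
    intro k hk
    rw [kt, le_div_iff₀ ht]
    exact mul_le_mul_of_nonneg_left (by linarith) hl0
  have e : ∀ k, ups ς s * k = s * kt ς s k := by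
    intro k; unfold ups kt; ring
  have f : ∀ k, ς ^ 32 * k = (1 - s) * kt ς s k := by
    intro k; unfold kt; field_simp
  have b : ∀ k, ς ^ 34 * k ^ 2 ≤ 101 / 100 → (ς ^ 32 * k) ^ 2 ≤ 101 / 100 * (ς ^ 10) ^ 3 := by
    intro k hk
    have := mul_le_mul_of_nonneg_right hk (by positivity : 0 ≤ ς ^ 30)
    linarith
  have G : ∀ k, GG ς s k = 1 + s * kt ς s k := by
    intro k; rw [GG, e]
  have G1 : ∀ k, 1 ≤ k → 1 ≤ GG ς s k := by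
    intro k hk
    rw [GG]
    exact le_add_of_nonneg_right (mul_nonneg hυ (by linarith))
  have p0 : ∀ k, 1 ≤ k → 0 ≤ 1 - 1 / GG ς s k := fun k hk =>
    sub_nonneg.2 (div_le_one_of_le₀ (G1 k hk) (by linarith [G1 k hk]))
  have p1 : ∀ k, 1 ≤ k → 1 - 1 / GG ς s k ≤ 1 := fun k hk =>
    sub_le_self _ (div_nonneg zero_le_one (by linarith [G1 k hk]))
  have q : ∀ k, 1 ≤ k → (1 - 1 / GG ς s k) * (1 + s * kt ς s k) = s * kt ς s k := by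
    intro k hk
    have h1 : GG ς s k ≠ 0 := by linarith [G1 k hk] |> fun h : 0 < GG ς s k => h.ne'
    rw [← G, sub_mul, one_div, inv_mul_cancel₀ h1, G]; ring
  have hl : ς ^ 32 ≤ (ς ^ 10) ^ 3 := by
    rw [← pow_mul]; exact pow_le_pow_of_le_one hς0.le hς1 (by norm_num)
  have hm : (ς ^ 10) ^ 3 ≤ ς ^ 30 * (1 + ups ς s) := by
    rw [← pow_mul]; exact le_mul_of_one_le_right (by positivity) (by linarith)
  have key := MI.final (c := c) hs0 hs1.le hl0 (hκ k1 hk1) (hκ k2 hk2) (by positivity : 0 ≤ ς ^ 10)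
    (pow_le_one₀ hς0.le hς1) hl hm hυ hk1 hk2 (e k1) (e k2) (f k1) (f k2) (b k1 b1) (b k2 b2)
    (p0 k1 hk1) (p1 k1 hk1) (p0 k2 hk2) (p1 k2 hk2) (q k1 hk1) (q k2 hk2) hn1 hn2 hn hI
  rw [← G, ← G, ← e, ← e] at key
  refine le_trans (le_of_eq ?_) (key.trans (le_of_eq ?_))
  · unfold tauh; ring
  · unfold MI.Sp; ring

end Crest.Agent.R245
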