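import Crest.Agent.R245.Basic

/-! Row 245: from the local condition to the metric. -/

set_option autoImplicit false

open Complex Crest.GeometryTopology
open scoped ContDiff ComplexConjugate Topology

namespace Crest.Agent.R245

namespace MetricAux

variable {n : ℕ} {U : Set (E n)} {f : E n → ℂ} {p : E n}

theorem dz_dzb_frame {m : ℕ} (hU : IsOpen U) (hf : ContDiffOn ℝ ∞ f U) (hp : p ∈ U)
    (X : Fin m → E n) (x y : Fin m → ℂ) :
    dz (∑ i, x i • X i) (dzb (∑ j, y j • X j) f) p =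
      ∑ i, ∑ j, dz (X i) (dzb (X j) f) p * x i * conj (y j) := by
  rw [dz_sum_dir, dzb_sum_dir]
  refine Finset.sum_congr rfl fun i _ => ?_
  rw [dz_sum _ fun j _ => (diffAt hU (dzb_smooth hU hf (X j)) hp).const_mul _, Finset.mul_sum]
  refine Finset.sum_congr rfl fun j _ => ?_
  rw [dz_const_mul]
  ring

theorem std_sum (V : E n) : ∑ i, V i • stdVec i = V := by
  ext j
  simp [stdVec, Pi.single_apply]

theorem herm_frame {m : ℕ} (hU : IsOpen U) (hf : ContDiffOn ℝ ∞ f U) (hp : p ∈ U)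
    (X : Fin m → E n) (x y : Fin m → ℂ) :
    ∑ i, ∑ j, dz (stdVec i) (dzb (stdVec j) f) p * (∑ i, x i • X i) i * conj ((∑ j, y j • X j) j) =
      ∑ i, ∑ j, dz (X i) (dzb (X j) f) p * x i * conj (y j) := by
  rw [← dz_dzb_frame hU hf hp stdVec, std_sum, std_sum, dz_dzb_frame hU hf hp]

theorem op2_const_mul (a : ℂ) (X Y b : E n) (f : E n → ℂ) :
    op2 X Y b (fun x => a * f x) = fun p => a * op2 X Y b f p := by
  ext p; simp only [op2, dz_const_mul]; ring

theorem op2b_const_mul (a : ℂ) (X Y b : E n) (f : E n → ℂ) :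
    op2b X Y b (fun x => a * f x) = fun p => a * op2b X Y b f p := by
  ext p; simp only [op2b, dzb_const_mul]; ring

theorem hf_symm {g : Fin n → Fin n → ℂ} (hg : ∀ i j, g i j = conj (g j i)) (x y : Fin n → ℂ) :
    hf g x y = hf g y x := by
  rw [hf, hf, ← conj_re, Finset.sum_comm]
  simp only [map_sum, map_mul, conj_conj, ← hg]
  congr 1
  exact Finset.sum_congr rfl fun i _ => Finset.sum_congr rfl fun j _ => by ring

theorem hf_expand (g : Fin n → Fin n → ℂ) (x y : Fin n → ℂ) (t : ℝ) :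
    hf g (y + (t : ℂ) • x) (y + (t : ℂ) • x) =
      hf g x x * (t * t) + (hf g x y + hf g y x) * t + hf g y y := by
  have h : ∑ i, ∑ j, g i j * (y + (t : ℂ) • x) i * conj ((y + (t : ℂ) • x) j) =
      (∑ i, ∑ j, g i j * x i * conj (x j)) * (t * t : ℝ)
        + (∑ i, ∑ j, g i j * x i * conj (y j) + ∑ i, ∑ j, g i j * y i * conj (x j)) * (t : ℝ)
        + ∑ i, ∑ j, g i j * y i * conj (y j) := by
    simp only [Finset.sum_mul, add_mul, ← Finset.sum_add_distrib]
    refine Finset.sum_congr rfl fun i _ => Finset.sum_congr rfl fun j _ => ?_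
    simp only [Pi.add_apply, Pi.smul_apply, smul_eq_mul, map_add, map_mul, conj_ofReal, ofReal_mul]
    ring
  simp only [hf, h, add_re, re_mul_ofReal]

theorem areaf_nonneg {g : Fin n → Fin n → ℂ} (hg : ∀ i j, g i j = conj (g j i))
    (h0 : ∀ x, 0 ≤ hf g x x) (x y : Fin n → ℂ) : 0 ≤ areaf g x y := by
  have h := discrim_le_zero (a := hf g x x) (b := hf g x y + hf g y x) (c := hf g y y) fun t => by
    rw [← hf_expand]; exact h0 _
  rw [discrim, hf_symm hg y x] at h
  rw [areaf]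
  nlinarith

end MetricAux

open MetricAux in
theorem metric (hC : CurvStmt) : MetricStmt := by
  intro c0 C0 hc0 hc1 U hU Φ ρ lam hΦ hρ H
  have hΦ' : ContDiffOn ℝ ∞ (fun x => c0 * Φ x) U := contDiffOn_const.mul hΦ
  have hs := ofReal_smooth hΦ
  have hs' : ContDiffOn ℝ ∞ (cx fun x => c0 * Φ x) U := ofReal_smooth hΦ'
  have e0 : cx (fun x => c0 * Φ x) = fun x => (c0 : ℂ) * cx Φ x := by
    ext x; simp only [cx, ofReal_mul]
  have key : ∀ p ∈ U, ∀ (X : Fin 3 → E 3) (b : Fin 3 → Fin 3 → E 3) (x y : Fin 3 → ℂ),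
      (∑ i, ∑ j, dz (stdVec i) (dzb (stdVec j) (cx fun x => c0 * Φ x)) p * (∑ i, x i • X i) i *
        conj ((∑ j, y j • X j) j)).re = c0 * hf (arr X b (cx Φ) p).xz x y := by
    intro p hp X b x y
    rw [herm_frame hU hs' hp, e0]
    simp only [dzb_const_mul, dz_const_mul, mul_assoc, ← Finset.mul_sum, re_ofReal_mul, hf, arr]
  let g : HermitianMetricOn 3 U :=
    { h := fun i j => dz (stdVec i) (dzb (stdVec j) (cx fun x => c0 * Φ x))
      hermitian := fun p hp i j => dz_dzb_real hU hΦ' hp _ _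
      posDef := fun p hp V hV => by
        obtain ⟨-, X, b, hX, -, -, h1, -⟩ := H p hp
        obtain ⟨x, rfl⟩ := hX V
        rw [key p hp X b x x]
        refine mul_pos hc0 (lt_of_lt_of_le ?_ (h1 x))
        have hx : x ≠ 0 := fun h => hV (by simp [h])
        obtain ⟨i, hi⟩ := Function.ne_iff.1 hx
        exact half_pos (Finset.sum_pos' (fun _ _ => sq_nonneg _)
          ⟨i, Finset.mem_univ i, pow_pos (norm_pos_iff.2 hi) 2⟩)
      smooth := fun i j => dz_smooth hU (dzb_smooth hU hs' _) _ }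
  have hr : ∀ p ∈ U, ∀ (X : Fin 3 → E 3) (b : Fin 3 → Fin 3 → E 3) (x y : Fin 3 → ℂ),
      g.riem p (∑ i, x i • X i) (∑ i, y i • X i) = c0 * hf (arr X b (cx Φ) p).xz x y := key
  have hsec : ∀ p ∈ U, ∀ (X : Fin 3 → E 3) (b : Fin 3 → Fin 3 → E 3) (c : Fin 3 → Fin 3 → Fin 3 → ℂ),
      Spans X → (∀ i k, b i k = b k i) → IsChr (arr X b (cx Φ) p) c → ∀ x y : Fin 3 → ℂ,
      g.sectional p (∑ i, x i • X i) (∑ i, y i • X i) =
        -(Qf (Nten (arr X b (cx Φ) p) c) x y / (c0 * areaf (arr X b (cx Φ) p).xz x y)) := by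
    intro p hp X b c hX hb hc x y
    have h1 := hC 3 U hU _ hΦ' g (fun _ _ _ _ => rfl) p hp X b c hX hb (fun i k j => by
      have := hc i k j
      simp only [arr] at this
      simp only [arr, e0, dzb_const_mul, dz_const_mul, op2_const_mul, ← this, Finset.mul_sum]
      exact Finset.sum_congr rfl fun m _ => by ring) x y
    have h2 : Qf (Nten (arr X b (cx fun x => c0 * Φ x) p) c) x y =
        c0 * Qf (Nten (arr X b (cx Φ) p) c) x y := by
      have h3 : ∀ i k j l, Nten (arr X b (cx fun x => c0 * Φ x) p) c i k j l =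
          c0 * Nten (arr X b (cx Φ) p) c i k j l := by
        intro i k j l
        simp only [Nten, arr, e0, dzb_const_mul, dz_const_mul, op2_const_mul, op2b_const_mul, mul_sub,
          Finset.mul_sum]
        congr 1
        exact Finset.sum_congr rfl fun m _ => Finset.sum_congr rfl fun r _ => by ring
      simp only [Qf, h3, mul_assoc, ← Finset.mul_sum]
      rw [mul_left_comm, re_ofReal_mul]
    rw [HermitianMetricOn.sectional, h1, h2, hr p hp X b, hr p hp X b, hr p hp X b, areaf]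
    have h4 : ∀ A B D : ℝ, c0 * A * (c0 * B) - (c0 * D) ^ 2 = c0 * (c0 * (A * B - D ^ 2)) :=
      fun A B D => by ring
    rw [h4, neg_div, mul_div_mul_left _ _ hc0.ne']
  refine ⟨g, fun p hp i j k => dz_dz_comm hU (dzb_smooth hU hs' _) hp _ _, ⟨100 / c0, ?_⟩, ?_, ?_⟩
  · intro p hp V
    obtain ⟨-, X, b, hX, -, h10, h1, -⟩ := H p hp
    obtain ⟨x, rfl⟩ := hX V
    have hd : DifferentiableAt ℝ ρ p :=
      (hρ.contDiffAt (hU.mem_nhds hp)).differentiableAt (by simp)
    rw [hr p hp X b, fderiv_real_eq hd, dz_sum_dir]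
    have h2 : ‖∑ i, x i * dz (X i) (fun x => (ρ x : ℂ)) p‖ ≤ 10 * ∑ i, ‖x i‖ := by
      rw [Finset.mul_sum]
      refine (norm_sum_le _ _).trans (Finset.sum_le_sum fun i _ => ?_)
      rw [norm_mul, mul_comm]
      exact mul_le_mul_of_nonneg_right (h10 i) (norm_nonneg _)
    have h3 : c0 / 5 * ∑ i, ‖x i‖ ≤ √(c0 * hf (arr X b (cx Φ) p).xz x x) := by
      refine Real.le_sqrt_of_sq_le ?_
      have h4 := h1 x
      have h5 : (∑ i, ‖x i‖) ^ 2 ≤ 3 * ∑ i, ‖x i‖ ^ 2 := by
        simp only [Fin.sum_univ_three]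
        nlinarith [sq_nonneg (‖x 0‖ - ‖x 1‖), sq_nonneg (‖x 0‖ - ‖x 2‖), sq_nonneg (‖x 1‖ - ‖x 2‖)]
      have h6 : 0 ≤ ∑ i, ‖x i‖ ^ 2 := Finset.sum_nonneg fun _ _ => sq_nonneg _
      have h7 : c0 * (∑ i, ‖x i‖) ^ 2 ≤ 1 * (3 * ∑ i, ‖x i‖ ^ 2) :=
        mul_le_mul hc1 h5 (sq_nonneg _) zero_le_one
      have h8 : (c0 / 5 * ∑ i, ‖x i‖) ^ 2 = c0 * (c0 * (∑ i, ‖x i‖) ^ 2 / 25) := by ring
      rw [h8]
      exact mul_le_mul_of_nonneg_left (by linarith) hc0.le
    have h4 := mul_le_mul_of_nonneg_left h3 (by positivity : 0 ≤ 100 / c0)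
    have h5 : 100 / c0 * (c0 / 5 * ∑ i, ‖x i‖) = 20 * ∑ i, ‖x i‖ := by field_simp; ring
    have h6 := abs_re_le_norm (∑ i, x i * dz (X i) (fun x => (ρ x : ℂ)) p)
    rw [abs_mul, abs_two]
    linarith
  · intro p hp V W hne
    obtain ⟨hl, X, b, hX, hb, -, h1, -, c, hc, -, h2⟩ := H p hp
    obtain ⟨x, rfl⟩ := hX V
    obtain ⟨y, rfl⟩ := hX W
    rw [hr p hp X b, hr p hp X b, hr p hp X b] at hne
    have h3 : 0 ≤ areaf (arr X b (cx Φ) p).xz x y :=
      areaf_nonneg (fun i j => dz_dzb_real hU hΦ hp _ _)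
        (fun x => le_trans (by positivity) (h1 x)) x y
    have h4 : 0 < areaf (arr X b (cx Φ) p).xz x y := by
      refine lt_of_le_of_ne h3 fun h => hne ?_
      rw [areaf] at h
      linear_combination (-c0 ^ 2) * h
    obtain ⟨h5, h6⟩ := h2 x y
    rw [hsec p hp X b c hX hb hc, neg_le_neg_iff, neg_le_neg_iff, one_le_div (by positivity)]
    refine ⟨?_, h5⟩
    rw [div_div, div_le_div_iff₀ (by positivity) (by positivity)]
    nlinarith [mul_le_mul_of_nonneg_left h6 hc0.le]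
  · intro p hp
    obtain ⟨hl, X, b, hX, hb, -, -, h1, c, hc, h2, -⟩ := H p hp
    have h3 : areaf (arr X b (cx Φ) p).xz (Pi.single 0 1) (Pi.single 0 I) = 1 := by
      simp [areaf, hf, Fin.sum_univ_three, h1]
    have h4 : Qf (Nten (arr X b (cx Φ) p) c) (Pi.single 0 1) (Pi.single 0 I) =
        2 * (Nten (arr X b (cx Φ) p) c 0 0 0 0).re := by
      have h5 : (-I - I) / (2 * I) = -1 := by field_simp; ring
      simp [Qf, Hm, Fin.sum_univ_three, h5]
    refine ⟨∑ i, (Pi.single 0 1 : Fin 3 → ℂ) i • X i, ∑ i, (Pi.single 0 I : Fin 3 → ℂ) i • X i, ?_, ?_⟩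
    · rw [hr p hp X b, hr p hp X b, hr p hp X b]
      rw [areaf] at h3
      intro h
      have : c0 ^ 2 = 0 := by linear_combination h - c0 ^ 2 * h3
      exact hc0.ne' (pow_eq_zero_iff two_ne_zero |>.1 this)
    · rw [hsec p hp X b c hX hb hc, h3, h4, neg_le_neg_iff, mul_one, div_le_div_iff₀ hl hc0]
      nlinarith

end Crest.Agent.R245
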