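import Crest.Agent.R245.Basic

/-! Row 245: a lattice net with bounded overlap. -/

set_option autoImplicit false

open Complex Finset

namespace Crest.Agent.R245

namespace NetA

/-- real coordinates -/
def co (z : E 2) : Fin 4 → ℝ := ![(z 0).re, (z 0).im, (z 1).re, (z 1).im]

/-- lattice points -/
noncomputable def pt (s : ℝ) (m : Fin 4 → ℤ) : E 2 :=
  ![⟨m 0 / s, m 1 / s⟩, ⟨m 2 / s, m 3 / s⟩]

/-- integer boxes -/
noncomputable def bx (s : ℝ) (z : E 2) (R : ℝ) : Finset (Fin 4 → ℤ) :=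
  Fintype.piFinset fun c => Icc ⌈s * co z c - R⌉ ⌊s * co z c + R⌋

theorem key {s : ℝ} (hs : s ≠ 0) (z : E 2) (m : Fin 4 → ℤ) :
    s ^ 2 * nsq (z - pt s m) = ∑ c, (s * co z c - m c) ^ 2 := by
  rw [nsq_two, Fin.sum_univ_four, Complex.sq_norm, Complex.sq_norm, Complex.normSq_apply,
    Complex.normSq_apply]
  simp only [co, pt, Pi.sub_apply, Complex.sub_re, Complex.sub_im, Matrix.cons_val_zero,
    Matrix.cons_val_one, Matrix.cons_val]
  field_simp
  ring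

theorem mem_bx {s R : ℝ} (hs : s ≠ 0) (hR : 0 ≤ R) {z : E 2} {m : Fin 4 → ℤ}
    (h : s ^ 2 * nsq (z - pt s m) ≤ R ^ 2) : m ∈ bx s z R := by
  refine Fintype.mem_piFinset.2 fun c => ?_
  rw [key hs] at h
  have h1 : (s * co z c - m c) ^ 2 ≤ R ^ 2 :=
    (single_le_sum (f := fun c => (s * co z c - m c) ^ 2) (fun _ _ => sq_nonneg _)
      (mem_univ c)).trans h
  obtain ⟨h2, h3⟩ := abs_le.1 (abs_le_of_sq_le_sq' h1 hR |> abs_le.2)
  exact mem_Icc.2 ⟨Int.ceil_le.2 (by linarith), Int.le_floor.2 (by linarith)⟩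

theorem card_Icc_le (x : ℝ) {R : ℝ} (hR : 0 ≤ R) :
    ((Icc ⌈x - R⌉ ⌊x + R⌋).card : ℝ) ≤ 2 * R + 1 := by
  rw [Int.card_Icc]
  rcases le_total 0 (⌊x + R⌋ + 1 - ⌈x - R⌉) with h | h
  · have h1 : (((⌊x + R⌋ + 1 - ⌈x - R⌉).toNat : ℕ) : ℝ) = ((⌊x + R⌋ + 1 - ⌈x - R⌉ : ℤ) : ℝ) := by
      rw [← Int.cast_natCast, Int.toNat_of_nonneg h]
    rw [h1]
    push_cast
    linarith [Int.floor_le (x + R), Int.le_ceil (x - R)]
  · rw [Int.toNat_eq_zero.2 h, Nat.cast_zero]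
    linarith

theorem card_bx (s : ℝ) (z : E 2) {R : ℝ} (hR : 0 ≤ R) :
    ((bx s z R).card : ℝ) ≤ (2 * R + 1) ^ 4 := by
  rw [bx, Fintype.card_piFinset, Nat.cast_prod]
  refine (prod_le_prod (fun _ _ => Nat.cast_nonneg _) fun c _ => card_Icc_le _ hR).trans ?_
  rw [prod_const, card_univ, Fintype.card_fin]

theorem round_le {s : ℝ} (hs : s ≠ 0) (p : E 2) :
    s ^ 2 * nsq (p - pt s fun c => round (s * co p c)) ≤ 1 := by
  rw [key hs]
  refine (sum_le_card_nsmul _ _ ((1 / 2 : ℝ) ^ 2) fun c _ => ?_).trans ?_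
  · rw [← sq_abs]
    exact pow_le_pow_left₀ (abs_nonneg _) (abs_sub_round _) 2
  · rw [card_univ, Fintype.card_fin]
    norm_num

end NetA

open NetA in
theorem net : NetStmt := by
  classical
  intro N hN
  obtain ⟨s, hs0, rfl⟩ : ∃ s : ℝ, 0 < s ∧ s ^ 2 = N :=
    ⟨Real.sqrt N, Real.sqrt_pos.2 (by linarith), Real.sq_sqrt (by linarith)⟩
  refine ⟨((bx s q0 s).filter fun m => nsq (pt s m - q0) ≤ 1 / 64).image (pt s), ?_, ?_, ?_⟩
  · intro a ha
    obtain ⟨m, hm, rfl⟩ := mem_image.1 ha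
    exact (mem_filter.1 hm).2
  · intro p hp
    have h1 := round_le hs0.ne' p
    generalize (fun c => round (s * co p c)) = m at h1
    have h2 : nsq (pt s m - p) ≤ (1 / 40) ^ 2 := by
      rw [nsq_sub_comm]
      nlinarith [nsq_nonneg (p - pt s m)]
    have h3 : Real.sqrt (nsq (pt s m - q0)) ≤ 1 / 8 := by
      have h4 := sqrt_nsq_add_le (pt s m - p) (p - q0)
      rw [sub_add_sub_cancel] at h4
      have h5 : Real.sqrt (nsq (pt s m - p)) ≤ 1 / 40 := Real.sqrt_le_iff.2 ⟨by norm_num, h2⟩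
      have h6 : Real.sqrt (nsq (p - q0)) ≤ 1 / 10 :=
        Real.sqrt_le_iff.2 ⟨by norm_num, by linarith⟩
      linarith
    have h7 : nsq (pt s m - q0) ≤ 1 / 64 := by
      have := (Real.sqrt_le_iff.1 h3).2
      linarith
    refine ⟨pt s m, mem_image_of_mem _ (mem_filter.2 ⟨mem_bx hs0.ne' hs0.le ?_, h7⟩), h1⟩
    rw [nsq_sub_comm]
    exact mul_le_of_le_one_right (sq_nonneg _) (by linarith)
  · intro Θ z S hΘ hS h
    have h1 : S ⊆ (bx s z (Θ + 3)).image (pt s) := fun a ha => by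
      obtain ⟨m, -, rfl⟩ := mem_image.1 (hS ha)
      refine mem_image_of_mem _ (mem_bx hs0.ne' (by linarith) ((h _ ha).le.trans ?_))
      nlinarith
    have h2 : (S.card : ℝ) ≤ (bx s z (Θ + 3)).card := by
      exact_mod_cast (card_le_card h1).trans card_image_le
    refine h2.trans ((card_bx s z (by linarith)).trans (le_of_eq ?_))
    unfold Ov
    ring

end Crest.Agent.R245
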