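import Crest.Agent.R245.Basic

/-! Row 245: the numerical estimate. -/

set_option autoImplicit false

open Complex Crest.GeometryTopology
open scoped ComplexConjugate

namespace Crest.Agent.R245

namespace NumAux

theorem disc {a b c : ℝ} (h : ∀ s t : ℝ, 0 ≤ a * s ^ 2 + 2 * b * s * t + c * t ^ 2) :
    0 ≤ a ∧ 0 ≤ c ∧ b ^ 2 ≤ a * c := by
  refine ⟨by simpa using h 1 0, by simpa using h 0 1, ?_⟩
  have := discrim_le_zero (a := a) (b := 2 * b) (c := c) fun s => by
    have := h s 1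
    nlinarith
  rw [discrim] at this
  nlinarith

/-- Gram determinants are monotone -/
theorem gram_mono {a b c a' b' c' : ℝ} (h : ∀ s t : ℝ, 0 ≤ a * s ^ 2 + 2 * b * s * t + c * t ^ 2)
    (h' : ∀ s t : ℝ, a * s ^ 2 + 2 * b * s * t + c * t ^ 2 ≤
      a' * s ^ 2 + 2 * b' * s * t + c' * t ^ 2) : a * c - b ^ 2 ≤ a' * c' - b' ^ 2 := by
  obtain ⟨h1, h2, h3⟩ := disc h
  obtain ⟨h4, h5, h6⟩ := disc (a := a' - a) (b := b' - b) (c := c' - c) fun s t => by
    have := h' s t
    nlinarith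
  have h7 : 2 * b * (b' - b) ≤ a * (c' - c) + c * (a' - a) := by
    refine (abs_le_of_sq_le_sq' ?_ (by positivity)).2
    have := mul_le_mul h3 h6 (sq_nonneg _) (by positivity)
    nlinarith [sq_nonneg (a * (c' - c) - c * (a' - a))]
  nlinarith

section forms
variable {n : ℕ}

theorem hf_symm {g : Fin n → Fin n → ℂ} (hg : ∀ i j, g i j = conj (g j i)) (x y : Fin n → ℂ) :
    hf g y x = hf g x y := by
  unfold hf
  rw [← conj_re, Finset.sum_comm]
  simp only [map_sum, map_mul, conj_conj]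
  congr 1
  refine Finset.sum_congr rfl fun i _ => Finset.sum_congr rfl fun j _ => ?_
  rw [hg i j]
  ring

theorem hf_comb {g : Fin n → Fin n → ℂ} (hg : ∀ i j, g i j = conj (g j i)) (x y : Fin n → ℂ)
    (s t : ℝ) : hf g (fun i => s * x i + t * y i) (fun i => s * x i + t * y i) =
      hf g x x * s ^ 2 + 2 * hf g x y * s * t + hf g y y * t ^ 2 := by
  have h : hf g (fun i => s * x i + t * y i) (fun i => s * x i + t * y i) =
      hf g x x * s ^ 2 + (hf g x y + hf g y x) * s * t + hf g y y * t ^ 2 := by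
    simp only [hf, re_sum, Finset.sum_mul, ← Finset.sum_add_distrib]
    refine Finset.sum_congr rfl fun i _ => Finset.sum_congr rfl fun j _ => ?_
    simp
    ring
  rw [h, hf_symm hg x y]
  ring

theorem exists_chr (T : Arr n) (h : ∀ x, (∑ i, ‖x i‖ ^ 2) / 2 ≤ hf T.xz x x) :
    ∃ c, IsChr T c := by
  have hinj : Function.Injective (Matrix.vecMulLinear (Matrix.of T.xz)) := by
    rw [injective_iff_map_eq_zero]
    intro v hv
    have h1 : hf T.xz v v = 0 := by
      unfold hf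
      rw [Finset.sum_comm, Finset.sum_eq_zero, zero_re]
      intro j _
      have := congrFun hv j
      simp only [Matrix.vecMulLinear_apply, Matrix.vecMul, dotProduct, Matrix.of_apply,
        Pi.zero_apply] at this
      rw [← Finset.sum_mul, Finset.sum_congr rfl fun i _ => mul_comm (T.xz i j) (v i), this,
        zero_mul]
    have h2 : ∑ i, ‖v i‖ ^ 2 = 0 :=
      le_antisymm (by linarith [h v]) (Finset.sum_nonneg fun _ _ => sq_nonneg _)
    funext i
    simpa using (Finset.sum_eq_zero_iff_of_nonneg fun _ _ => sq_nonneg _).1 h2 i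
      (Finset.mem_univ i)
  choose c hc using fun i k => LinearMap.injective_iff_surjective.1 hinj (T.dz i k)
  exact ⟨c, fun i k j => congrFun (hc i k) j⟩

variable (x y : Fin n → ℂ)

/-- diagonal entries -/
noncomputable def II (i : Fin n) : ℝ := (x i * conj (y i)).im
/-- squares of the entries -/
noncomputable def nn (i j : Fin n) : ℝ := ‖Hm x y i j‖ ^ 2

theorem Hm_eq (i j : Fin n) : Hm x y i j =
    ⟨((x i * conj (y j)).im - (y i * conj (x j)).im) / 2,
      ((y i * conj (x j)).re - (x i * conj (y j)).re) / 2⟩ := by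
  rw [Hm, div_eq_iff (by simp)]
  apply Complex.ext <;> simp

theorem nn_eq (i j : Fin n) : nn x y i j =
    (((x i * conj (y j)).im - (y i * conj (x j)).im) / 2) ^ 2 +
      (((y i * conj (x j)).re - (x i * conj (y j)).re) / 2) ^ 2 := by
  rw [nn, Complex.sq_norm, Hm_eq, normSq_mk]
  ring

theorem nn_nonneg (i j : Fin n) : 0 ≤ nn x y i j := sq_nonneg _

theorem nn_symm (i j : Fin n) : nn x y i j = nn x y j i := by
  simp [nn_eq]
  ring

theorem nn_diag (i : Fin n) : nn x y i i = II x y i ^ 2 := by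
  simp [nn_eq, II]
  ring

theorem II_le (i j : Fin n) : II x y i * II x y j ≤ nn x y i j := by
  have : nn x y i j - II x y i * II x y j =
      ((x i * y j - x j * y i).re ^ 2 + (x i * y j - x j * y i).im ^ 2) / 4 := by
    simp [nn_eq, II]
    ring
  nlinarith [sq_nonneg (x i * y j - x j * y i).re, sq_nonneg (x i * y j - x j * y i).im]

theorem re_main (i k : Fin n) :
    (Hm x y i i * Hm x y k k + Hm x y i k * Hm x y k i).re = II x y i * II x y k + nn x y i k := by
  simp [Hm_eq, nn_eq, II]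
  ring

/-- decomposition of `λ Q` -/
theorem Qf_approx (N : Fin n → Fin n → Fin n → Fin n → ℂ) (lam δ : ℝ) (hδ : 0 ≤ δ)
    (m τ : Fin n → Fin n → ℝ) (hτ : ∀ i j, 0 ≤ τ i j)
    (h : ∀ i k j l, ‖(lam : ℝ) * N i k j l -
      (m i k * (kr i j * kr k l + kr i l * kr k j) : ℝ)‖ ≤ δ * √(τ i j) * √(τ k l)) :
    |lam * Qf N x y - 2 * ∑ i, ∑ k, m i k * (II x y i * II x y k + nn x y i k)| ≤
      2 * δ * n ^ 2 * ∑ i, ∑ j, τ i j * nn x y i j := by
  have h1 : ∀ i k, ∑ j, ∑ l, ((m i k * (kr i j * kr k l + kr i l * kr k j) : ℝ) : ℂ) *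
      Hm x y i j * Hm x y k l =
      m i k * (Hm x y i i * Hm x y k k + Hm x y i k * Hm x y k i) := by
    intro i k
    simp only [kr, ofReal_add, apply_ite ((↑) : ℝ → ℂ), ofReal_zero,
      mul_add, add_mul, Finset.sum_add_distrib, mul_ite, ite_mul, mul_one, mul_zero, zero_mul,
      Finset.sum_ite_eq, Finset.mem_univ, if_true, Finset.sum_ite_irrel, Finset.sum_const_zero]
    ring
  have h2 : lam * Qf N x y - 2 * ∑ i, ∑ k, m i k * (II x y i * II x y k + nn x y i k) =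
      2 * (∑ i, ∑ k, ∑ j, ∑ l, ((lam : ℝ) * N i k j l -
        (m i k * (kr i j * kr k l + kr i l * kr k j) : ℝ)) * Hm x y i j * Hm x y k l).re := by
    have h4 : (∑ i, ∑ k, (m i k : ℂ) * (Hm x y i i * Hm x y k k + Hm x y i k * Hm x y k i)).re =
        ∑ i, ∑ k, m i k * (II x y i * II x y k + nn x y i k) := by
      simp only [re_sum, re_ofReal_mul, re_main]
    simp only [sub_mul, Finset.sum_sub_distrib, h1, sub_re, h4]
    simp only [mul_assoc (lam : ℂ), ← Finset.mul_sum, Qf, re_ofReal_mul]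
    rw [show (2 : ℂ) = ((2 : ℝ) : ℂ) by norm_num, re_ofReal_mul]
    ring
  rw [h2, abs_mul, abs_two, mul_assoc, mul_assoc]
  refine mul_le_mul_of_nonneg_left ((abs_re_le_norm _).trans ?_) zero_le_two
  have h3 : ‖∑ i, ∑ k, ∑ j, ∑ l, ((lam : ℝ) * N i k j l -
        (m i k * (kr i j * kr k l + kr i l * kr k j) : ℝ)) * Hm x y i j * Hm x y k l‖ ≤
      ∑ i, ∑ k, ∑ j, ∑ l, δ * ((τ i j * nn x y i j + τ k l * nn x y k l) / 2) := by
    refine (norm_sum_le _ _).trans (Finset.sum_le_sum fun i _ => ?_)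
    refine (norm_sum_le _ _).trans (Finset.sum_le_sum fun k _ => ?_)
    refine (norm_sum_le _ _).trans (Finset.sum_le_sum fun j _ => ?_)
    refine (norm_sum_le _ _).trans (Finset.sum_le_sum fun l _ => ?_)
    rw [norm_mul, norm_mul]
    calc _ ≤ δ * √(τ i j) * √(τ k l) * ‖Hm x y i j‖ * ‖Hm x y k l‖ := by
          gcongr
          exact h i k j l
      _ = δ * ((√(τ i j) * ‖Hm x y i j‖) * (√(τ k l) * ‖Hm x y k l‖)) := by ring
      _ ≤ _ := by
          refine mul_le_mul_of_nonneg_left ?_ hδ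
          have e1 := Real.sq_sqrt (hτ i j)
          have e2 := Real.sq_sqrt (hτ k l)
          have := sq_nonneg (√(τ i j) * ‖Hm x y i j‖ - √(τ k l) * ‖Hm x y k l‖)
          rw [sub_sq, mul_pow, mul_pow, e1, e2] at this
          simp only [nn]
          linarith
  refine h3.trans (le_of_eq ?_)
  obtain ⟨f, hf⟩ : ∃ f : Fin n → Fin n → ℝ, ∀ i j, τ i j * nn x y i j = f i j := ⟨_, fun _ _ => rfl⟩
  simp only [hf, ← Finset.mul_sum, ← Finset.sum_div, Finset.sum_add_distrib, Finset.sum_const,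
    Finset.card_univ, Fintype.card_fin, nsmul_eq_mul]
  ring

/-- comparison of the area with the weighted sum of the `nn` -/
theorem area_cmp {g : Fin n → Fin n → ℂ} (hg : ∀ i j, g i j = conj (g j i)) (G : Fin n → ℝ)
    (hG : ∀ i, 0 ≤ G i)
    (h : ∀ x, (∑ i, G i * ‖x i‖ ^ 2) / 2 ≤ hf g x x ∧ hf g x x ≤ 2 * ∑ i, G i * ‖x i‖ ^ 2) :
    ∑ i, ∑ j, G i * G j * nn x y i j ≤ 4 * areaf g x y ∧
      areaf g x y ≤ 8 * ∑ i, ∑ j, G i * G j * nn x y i j := by
  set A := ∑ i, G i * ‖x i‖ ^ 2 with hA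
  set B := ∑ i, G i * (x i * conj (y i)).re with hB
  set C := ∑ i, G i * ‖y i‖ ^ 2 with hC
  set b := ∑ i, G i * II x y i with hb
  have h1 : ∀ s t : ℝ, ∑ i, G i * ‖(s : ℂ) * x i + t * y i‖ ^ 2 =
      A * s ^ 2 + 2 * B * s * t + C * t ^ 2 := by
    intro s t
    simp only [hA, hB, hC, Finset.sum_mul, Finset.mul_sum, ← Finset.sum_add_distrib]
    refine Finset.sum_congr rfl fun i _ => ?_
    simp [Complex.sq_norm, normSq_apply]
    ring
  have h0 : ∀ s t : ℝ, 0 ≤ A * s ^ 2 + 2 * B * s * t + C * t ^ 2 := fun s t => by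
    rw [← h1]
    exact Finset.sum_nonneg fun i _ => mul_nonneg (hG i) (sq_nonneg _)
  have h2 := gram_mono (a := A / 2) (b := B / 2) (c := C / 2) (a' := hf g x x) (b' := hf g x y)
    (c' := hf g y y) (fun s t => by nlinarith [h0 s t]) fun s t => by
      have := (h fun i => s * x i + t * y i).1
      rw [h1, hf_comb hg] at this
      linarith
  have h3 := gram_mono (a' := 2 * A) (b' := 2 * B) (c' := 2 * C) (a := hf g x x) (b := hf g x y)
    (c := hf g y y) (fun s t => by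
      have := (h fun i => s * x i + t * y i).1
      rw [h1, hf_comb hg] at this
      linarith [h0 s t]) fun s t => by
      have := (h fun i => s * x i + t * y i).2
      rw [h1, hf_comb hg] at this
      linarith
  have h4 : 4 * ∑ i, ∑ j, G i * G j * nn x y i j = A * C + C * A - 2 * (B * B) + 2 * (b * b) := by
    simp only [hA, hB, hC, hb, Finset.sum_mul_sum]
    simp only [Finset.mul_sum, ← Finset.sum_add_distrib, ← Finset.sum_sub_distrib]
    refine Finset.sum_congr rfl fun i _ => Finset.sum_congr rfl fun j _ => ?_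
    simp [nn_eq, II, Complex.sq_norm, normSq_apply]
    ring
  have h5 : b * b ≤ ∑ i, ∑ j, G i * G j * nn x y i j := by
    rw [hb, Finset.sum_mul_sum]
    refine Finset.sum_le_sum fun i _ => Finset.sum_le_sum fun j _ => ?_
    have := mul_le_mul_of_nonneg_left (II_le x y i j) (mul_nonneg (hG i) (hG j))
    linarith
  have h6 := mul_self_nonneg b
  unfold areaf
  constructor <;> nlinarith

theorem main_le (G : Fin n → ℝ) (hG : ∀ i, 0 ≤ G i) (m : Fin n → Fin n → ℝ) (a : ℝ) (ha : 0 ≤ a)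
    (hm0 : ∀ i k, 0 ≤ m i k) (hm : ∀ i k, m i k ≤ a * (G i * G k)) :
    ∑ i, ∑ k, m i k * (II x y i * II x y k + nn x y i k) ≤
      a * (n + 1) * ∑ i, ∑ j, G i * G j * nn x y i j := by
  have h1 : ∑ i, G i * G i * nn x y i i ≤ ∑ i, ∑ j, G i * G j * nn x y i j :=
    Finset.sum_le_sum fun i _ => Finset.single_le_sum (f := fun j => G i * G j * nn x y i j)
      (fun j _ => mul_nonneg (mul_nonneg (hG i) (hG j)) (nn_nonneg x y i j)) (Finset.mem_univ i)
  have h2 : ∑ i, ∑ k, m i k * (II x y i * II x y k + nn x y i k) ≤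
      ∑ i, ∑ k, a * ((G i * G i * nn x y i i + G k * G k * nn x y k k) / 2 +
        G i * G k * nn x y i k) := by
    refine Finset.sum_le_sum fun i _ => Finset.sum_le_sum fun k _ => ?_
    have h3 := nn_nonneg x y i k
    calc _ ≤ m i k * (|II x y i| * |II x y k| + nn x y i k) := by
          refine mul_le_mul_of_nonneg_left ?_ (hm0 i k)
          rw [← abs_mul]
          linarith [le_abs_self (II x y i * II x y k)]
      _ ≤ a * (G i * G k) * (|II x y i| * |II x y k| + nn x y i k) :=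
          mul_le_mul_of_nonneg_right (hm i k) (by positivity)
      _ ≤ _ := by
          rw [mul_assoc, nn_diag, nn_diag, ← sq_abs (II x y i), ← sq_abs (II x y k)]
          refine mul_le_mul_of_nonneg_left ?_ ha
          nlinarith [sq_nonneg (G i * |II x y i| - G k * |II x y k|)]
  refine h2.trans ?_
  obtain ⟨f, hf⟩ : ∃ f : Fin n → Fin n → ℝ, ∀ i j, G i * G j * nn x y i j = f i j :=
    ⟨_, fun _ _ => rfl⟩
  simp only [hf] at h1 ⊢
  simp only [← Finset.mul_sum, ← Finset.sum_div, Finset.sum_add_distrib, Finset.sum_const,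
    Finset.card_univ, Fintype.card_fin, nsmul_eq_mul]
  rw [mul_assoc]
  refine mul_le_mul_of_nonneg_left ?_ ha
  nlinarith [mul_le_mul_of_nonneg_left h1 (Nat.cast_nonneg (α := ℝ) n)]

end forms

section coef
variable {ς s : ℝ} {k : Fin 2 → ℝ}

theorem ups_nonneg (hs0 : 0 ≤ s) (hs : s < 1) : 0 ≤ ups ς s := by
  have : 0 < 1 - s := by linarith
  unfold ups
  positivity

theorem kt_eq (hs : s < 1) (k : ℝ) : kt ς s k = ς ^ 32 * k + ups ς s * k := by
  have : 1 - s ≠ 0 := by linarith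
  unfold kt ups
  field_simp
  ring

theorem coef (hς : 0 < ς) (hς1 : ς ≤ 1) (hs0 : 0 ≤ s) (hs : s < 1) (hk : ∀ i, 1 ≤ k i)
    (hk2 : ∀ i, ς ^ 32 * k i ≤ 2) :
    (∀ i, 1 ≤ Gd ς s k i) ∧ (∀ i j, 0 ≤ mN ς s k i j ∧ mN ς s k i j ≤ 5 * (Gd ς s k i * Gd ς s k j))
      ∧ ∀ i j, 0 ≤ tau ς s k i j ∧ tau ς s k i j ≤ 2 * (Gd ς s k i * Gd ς s k j) := by
  have hu : 0 ≤ ups ς s := ups_nonneg hs0 hs
  have h32 : ς ^ 32 ≤ 1 := pow_le_one₀ hς.le hς1
  have h30 : ς ^ 30 ≤ 1 := pow_le_one₀ hς.le hς1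
  have h20 : ς ^ 20 ≤ 1 := pow_le_one₀ hς.le hς1
  have huk : ∀ i, ups ς s ≤ ups ς s * k i := fun i => le_mul_of_one_le_right hu (hk i)
  have hG : ∀ i, 1 + ups ς s ≤ GG ς s (k i) := fun i => by unfold GG; linarith [huk i]
  have hG1 : ∀ i, 1 ≤ GG ς s (k i) := fun i => by linarith [hG i]
  have hGG : ∀ i j, 1 + ups ς s ≤ GG ς s (k i) * GG ς s (k j) := fun i j =>
    (hG i).trans (le_mul_of_one_le_right (by linarith [hG1 i]) (hG1 j))
  have hkt0 : ∀ i, 0 ≤ kt ς s (k i) := fun i => by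
    have := hk i
    rw [kt_eq hs]
    positivity
  have hkt : ∀ i, kt ς s (k i) ≤ 2 * GG ς s (k i) := fun i => by
    rw [kt_eq hs, GG]
    linarith [hk2 i, huk i]
  have hm1 : ∀ i, 0 ≤ kt ς s (k i) * (s + 1 / GG ς s (k i)) ∧
      kt ς s (k i) * (s + 1 / GG ς s (k i)) ≤ 5 * GG ς s (k i) := fun i => by
    have h1 := hG1 i
    have h2 := hkt0 i
    have h3 : 1 / GG ς s (k i) ≤ 1 := by rw [div_le_one (by linarith)]; exact h1
    refine ⟨by positivity, ?_⟩
    have := mul_le_mul (hkt i) (show s + 1 / GG ς s (k i) ≤ 2 by linarith) (by positivity)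
      (by linarith)
    linarith
  have ht1 : ∀ i, 0 ≤ ς ^ 32 + ups ς s * k i ∧ ς ^ 32 + ups ς s * k i ≤ 2 * GG ς s (k i) :=
    fun i => by
    have := hk i
    refine ⟨by positivity, ?_⟩
    unfold GG
    linarith [huk i]
  refine ⟨fun i => ?_, fun i j => ?_, fun i j => ?_⟩
  · refine Fin.cases ?_ (fun i => ?_) i
    · simp [Gd]
    · simpa [Gd] using hG1 i
  · refine Fin.cases ?_ (fun i => ?_) i <;> refine Fin.cases ?_ (fun j => ?_) j
    · simp [Gd, mN]
    · simpa [Gd, mN] using hm1 j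
    · simpa [Gd, mN] using hm1 i
    · simp only [Gd, mN, Fin.cons_succ]
      have h1 := hkt0 i
      have h2 := hkt0 j
      refine ⟨by positivity, ?_⟩
      have h3 := mul_le_mul (hkt i) (hkt j) h2 (by linarith [hG1 i])
      have h4 : s * (kt ς s (k i) * kt ς s (k j)) ≤ kt ς s (k i) * kt ς s (k j) :=
        mul_le_of_le_one_left (by positivity) hs.le
      have h5 : ς ^ 30 * (1 + ups ς s) ≤ 1 + ups ς s := mul_le_of_le_one_left (by positivity) h30
      nlinarith [hGG i j]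
  · refine Fin.cases ?_ (fun i => ?_) i <;> refine Fin.cases ?_ (fun j => ?_) j
    · simp only [Gd, tau, Fin.cons_zero]
      exact ⟨by positivity, by linarith⟩
    · simpa [Gd, tau] using ht1 j
    · simpa [Gd, tau] using ht1 i
    · simp only [Gd, tau, Fin.cons_succ, tauh]
      refine ⟨by positivity, ?_⟩
      have h5 : ς ^ 30 * (1 + ups ς s) ≤ 1 + ups ς s := mul_le_of_le_one_left (by positivity) h30
      have h6 : ς ^ 20 * ups ς s ≤ ups ς s := mul_le_of_le_one_left hu h20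
      linarith [hGG i j]

end coef

end NumAux

open NumAux in
theorem num (hM : MainIneqStmt) (hE : ErrStmt) : NumStmt := by
  obtain ⟨c1, hc1, hM⟩ := hM
  obtain ⟨C, hC, hE⟩ := hE
  set ε : ℝ := min (1 / 100) (min c1 1 / (18 * C)) with hε
  have hε0 : 0 < ε := lt_min (by norm_num) (div_pos (lt_min hc1 one_pos) (by positivity))
  have hε1 : ε ≤ 1 / 100 := min_le_left _ _
  have hε2 : 18 * (C * ε) ≤ min c1 1 := by
    have : ε ≤ min c1 1 / (18 * C) := min_le_right _ _
    rw [le_div_iff₀ (by positivity)] at this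
    linarith
  have hε3 := hε2.trans (min_le_left _ _)
  have hε4 := hε2.trans (min_le_right _ _)
  refine ⟨ε, min 1 (c1 / 8), 200, hε0, by linarith, lt_min one_pos (by positivity),
    min_le_left _ _, by norm_num, fun ς K3 k a ph lm w hN hw hH => ?_⟩
  obtain ⟨h00, hform, herr⟩ := hE ε ς K3 k a ph lm w hε0.le hε1 hN hw hH
  set T := Tot ς w a ph lm
  set s := ‖w‖ ^ 2 with hsd
  have hs0 : 0 ≤ s := sq_nonneg _
  have hs : s < 1 := by
    have := norm_nonneg w
    nlinarith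
  have hς := hN.ς_pos
  have hς1 := hN.ς_le
  have hK := hN.K3_nonneg
  have h32 : ς ^ 32 ≤ 1 := pow_le_one₀ hς.le hς1
  have h320 : 0 < ς ^ 32 := by positivity
  have hsm : ς ^ 10 * K3 * (1 + K3) ≤ 1 / 10000 := hN.small.trans (by nlinarith)
  have hsm' : ∀ j, 10 ≤ j → ς ^ j * (1 + K3) ^ 2 ≤ 101 / 100 := fun j hj => by
    have h1 : ς ^ j ≤ ς ^ 10 := pow_le_pow_of_le_one hς.le hς1 hj
    have h2 : ς ^ 10 ≤ 1 := pow_le_one₀ hς.le hς1
    have h3 : 0 ≤ ς ^ 10 * K3 * K3 := by positivity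
    nlinarith [mul_le_mul_of_nonneg_right h1 (sq_nonneg (1 + K3))]
  have hk2 : ∀ j, 10 ≤ j → ∀ i, ς ^ j * k i ^ 2 ≤ 101 / 100 := fun j hj i => by
    refine le_trans ?_ (hsm' j hj)
    have := hN.k_ge i
    gcongr
    exact hN.k_le i
  obtain ⟨hG, hm, hτ⟩ := coef (k := k) hς hς1 hs0 hs hN.k_ge fun i => by
    have h1 := hN.k_ge i
    have h2 := hk2 32 (by norm_num) i
    nlinarith [mul_le_mul_of_nonneg_left (show k i ≤ k i ^ 2 by nlinarith) h320.le]
  have hG0 : ∀ i, 0 ≤ Gd ς s k i := fun i => zero_le_one.trans (hG i)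
  have hlow : ∀ x : Fin 3 → ℂ, (∑ i, ‖x i‖ ^ 2) / 2 ≤ hf T.xz x x := fun x => by
    refine le_trans ?_ (hform x).1
    gcongr with i
    exact le_mul_of_one_le_left (sq_nonneg _) (hG i)
  obtain ⟨c, hc⟩ := exists_chr T hlow
  have hCε : 0 ≤ C * ε := by positivity
  refine ⟨hlow, h00, c, hc, ?_, fun x y => ?_⟩
  · have h1 := (abs_re_le_norm _).trans (herr c hc 0 0 0 0)
    rw [mul_assoc, Real.mul_self_sqrt (hτ 0 0).1, sub_re, re_ofReal_mul, ofReal_re] at h1
    simp only [mN, tau, kr, Fin.cons_zero, if_true] at h1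
    have h2 := mul_le_of_le_one_right hCε h32
    linarith [(abs_le.1 h1).1]
  have hQ := abs_le.1 (Qf_approx x y (Nten T c) (ς ^ 32) (C * ε) hCε _ _ (fun i j => (hτ i j).1)
    (herr c hc))
  obtain ⟨hA1, hA2⟩ := area_cmp x y hH _ hG0 hform
  have hup := main_le x y _ hG0 _ 5 (by norm_num) (fun i j => (hm i j).1) fun i j => (hm i j).2
  have hτle : ∑ i, ∑ j, tau ς s k i j * nn x y i j ≤
      2 * ∑ i, ∑ j, Gd ς s k i * Gd ς s k j * nn x y i j := by
    simp only [Finset.mul_sum, ← mul_assoc]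
    refine Finset.sum_le_sum fun i _ => Finset.sum_le_sum fun j _ => ?_
    rw [mul_assoc 2]
    exact mul_le_mul_of_nonneg_right (hτ i j).2 (nn_nonneg x y i j)
  have hτ0 : 0 ≤ ∑ i, ∑ j, tau ς s k i j * nn x y i j :=
    Finset.sum_nonneg fun i _ => Finset.sum_nonneg fun j _ =>
      mul_nonneg (hτ i j).1 (nn_nonneg x y i j)
  have hSG : 0 ≤ ∑ i, ∑ j, Gd ς s k i * Gd ς s k j * nn x y i j :=
    Finset.sum_nonneg fun i _ => Finset.sum_nonneg fun j _ =>
      mul_nonneg (mul_nonneg (hG0 i) (hG0 j)) (nn_nonneg x y i j)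
  have hmain := hM ς s (k 0) (k 1) (II x y 0) (II x y 1) (II x y 2) (nn x y 0 1) (nn x y 0 2)
    (nn x y 1 2) hς hς1 hs0 hs (hN.k_ge 0) (hN.k_ge 1) (hk2 34 (by norm_num) 0)
    (hk2 34 (by norm_num) 1) (nn_nonneg x y _ _) (nn_nonneg x y _ _) (nn_nonneg x y _ _)
    (II_le x y 1 2)
  push_cast at hQ hup
  constructor
  · set Tm := ς ^ 32 * II x y 0 ^ 2 + (ς ^ 32 + ups ς s * k 0) * nn x y 0 1 +
      (ς ^ 32 + ups ς s * k 1) * nn x y 0 2 +
      (tauh ς s + ς ^ 32 * GG ς s (k 0) ^ 2) * II x y 1 ^ 2 +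
      (tauh ς s + ς ^ 32 * GG ς s (k 1) ^ 2) * II x y 2 ^ 2 +
      (tauh ς s + ς ^ 32 * GG ς s (k 0) * GG ς s (k 1)) * nn x y 1 2 with hTm
    have e1 : 2 * (c1 * Tm) ≤
        ∑ i, ∑ j, mN ς s k i j * (II x y i * II x y j + nn x y i j) := by
      refine (mul_le_mul_of_nonneg_left hmain zero_le_two).trans (le_of_eq ?_)
      simp only [Fin.sum_univ_succ, Fin.sum_univ_zero, mN, Fin.cons_zero, Fin.cons_succ]
      simp only [nn_diag, Fin.succ_zero_eq_one, Fin.succ_one_eq_two, nn_symm x y 1 0,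
        nn_symm x y 2 0, nn_symm x y 2 1]
      ring
    have hu : 0 ≤ ups ς s := ups_nonneg hs0 hs
    have hth : 0 ≤ tauh ς s := (hτ 1 1).1
    have hg0 : 0 ≤ GG ς s (k 0) := hG0 1
    have hg1 : 0 ≤ GG ς s (k 1) := hG0 2
    have n1 := nn_nonneg x y 0 1
    have n2 := nn_nonneg x y 0 2
    have n3 := nn_nonneg x y 1 2
    have e2 : ∑ i, ∑ j, tau ς s k i j * nn x y i j ≤ 2 * Tm := by
      simp only [Fin.sum_univ_succ, Fin.sum_univ_zero, tau, Fin.cons_zero, Fin.cons_succ]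
      simp only [nn_diag, Fin.succ_zero_eq_one, Fin.succ_one_eq_two, nn_symm x y 1 0,
        nn_symm x y 2 0, nn_symm x y 2 1, hTm]
      have : 0 ≤ ς ^ 32 * II x y 0 ^ 2 + (tauh ς s + 2 * ς ^ 32 * GG ς s (k 0) ^ 2) * II x y 1 ^ 2 +
        (tauh ς s + 2 * ς ^ 32 * GG ς s (k 1) ^ 2) * II x y 2 ^ 2 +
        2 * (ς ^ 32 * GG ς s (k 0) * GG ς s (k 1)) * nn x y 1 2 := by positivity
      linarith
    have e3 : ς ^ 32 * ∑ i, ∑ j, Gd ς s k i * Gd ς s k j * nn x y i j ≤ 2 * Tm := by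
      simp only [Fin.sum_univ_succ, Fin.sum_univ_zero, Gd, Fin.cons_zero, Fin.cons_succ]
      simp only [nn_diag, Fin.succ_zero_eq_one, Fin.succ_one_eq_two, nn_symm x y 1 0,
        nn_symm x y 2 0, nn_symm x y 2 1, hTm]
      have h1 : ∀ i, ς ^ 32 * GG ς s (k i) ≤ ς ^ 32 + ups ς s * k i := fun i => by
        have := hN.k_ge i
        have := mul_le_of_le_one_left (show 0 ≤ ups ς s * k i by positivity) h32
        unfold GG
        linarith
      have h2 := mul_le_mul_of_nonneg_right (h1 0) n1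
      have h3 := mul_le_mul_of_nonneg_right (h1 1) n2
      have : 0 ≤ ς ^ 32 * II x y 0 ^ 2 + (2 * tauh ς s + ς ^ 32 * GG ς s (k 0) ^ 2) * II x y 1 ^ 2 +
        (2 * tauh ς s + ς ^ 32 * GG ς s (k 1) ^ 2) * II x y 2 ^ 2 +
        2 * tauh ς s * nn x y 1 2 := by positivity
      linarith
    have e4 : c1 * ∑ i, ∑ j, Gd ς s k i * Gd ς s k j * nn x y i j ≤ Qf (Nten T c) x y := by
      refine le_of_mul_le_mul_left ?_ h320
      have := mul_le_mul hε3 e2 hτ0 hc1.le
      have := mul_le_mul_of_nonneg_left e3 hc1.le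
      linarith [hQ.1]
    have e5 : min 1 (c1 / 8) * areaf T.xz x y ≤ c1 / 8 * areaf T.xz x y :=
      mul_le_mul_of_nonneg_right (min_le_right _ _) (by linarith)
    have := mul_le_mul_of_nonneg_left hA2 hc1.le
    linarith
  · nlinarith [mul_le_mul_of_nonneg_right hε4 hτ0]

end Crest.Agent.R245
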