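import Crest.Agent.R245.Basic

/-! Row 245: choice of the parameters of the wells. -/

set_option autoImplicit false

open Crest.GeometryTopology

namespace Crest.Agent.R245

namespace ParamAux

theorem shell_pos (W : Wells) {j : ℕ} {p : E 2} (hs : W.Shell j p) : 0 < hh p :=
  lt_of_lt_of_le (div_pos (by linarith [W.Θ_ge j]) (W.N_pos j)) hs.1

theorem shell_lo (W : Wells) {j : ℕ} {p : E 2} (hp : nsq (p - q0) ≤ 1 / 16) (hs : W.Shell j p) :
    Real.log (W.N j) - Real.log (W.Θ j + 1) ≤ yy p := by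
  have h0 := shell_pos W hs
  have hΘ := W.Θ_ge j
  have h1 : Real.log (hh p) ≤ Real.log (W.Θ j + 1) - Real.log (W.N j) := by
    rw [← Real.log_div (by linarith) (W.N_pos j).ne']
    exact Real.log_le_log h0 hs.2
  have h2 : 0 ≤ Real.log (hh p + 1) := Real.log_nonneg (by linarith)
  rw [yy, beta_eq_one hp]
  linarith

theorem shell_hi (W : Wells) {j : ℕ} {x : E 2} (hx : nsq (x - q0) ≤ 1 / 16) (hs : W.Shell j x)
    (hN : 2 ≤ W.N j) : yy x ≤ Real.log (W.N j) := by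
  have h0 := shell_pos W hs
  have hΘ := W.Θ_ge j
  have h1 := hs.1
  rw [div_le_iff₀ (W.N_pos j)] at h1
  rw [yy, beta_eq_one hx, ← Real.log_div (by linarith) h0.ne']
  refine Real.log_le_log (by positivity) ?_
  rw [div_le_iff₀ h0]
  nlinarith

theorem afun_diff {η σ : ℝ} {p x : E 2} (hp : nsq (p - q0) ≤ 1 / 16) (hx : nsq (x - q0) ≤ 1 / 16)
    (hp0 : 0 < hh p) (hx0 : 0 < hh x) :
    Afun η σ x - Afun η σ p ≤ Real.log 2 + (chi η σ (yy x) - chi η σ (yy p)) := by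
  have h1 : Real.log (hh p + 1) ≤ Real.log 2 :=
    Real.log_le_log (by linarith) (by linarith [hh_le_one p])
  have h2 : 0 ≤ Real.log (hh x + 1) := Real.log_nonneg (by linarith)
  rw [Afun, Afun, beta_eq_one hp, beta_eq_one hx]
  linarith

theorem chi_sub_le {η σ y y' : ℝ} (hη : 0 < η) (h1 : σ ≤ 1) (hy : 0 ≤ y) (hy' : 0 ≤ y') :
    chi η σ y' - chi η σ y ≤ sig η σ y * (y' - y) := by
  have ha : 0 < 1 + η * y := by positivity
  have hb : 0 < 1 + η * y' := by positivity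
  have h2 : Real.log (1 + η * y') - Real.log (1 + η * y) ≤ η * ((y' - y) / (1 + η * y)) := by
    rw [← Real.log_div hb.ne' ha.ne']
    refine (Real.log_le_sub_one_of_pos (div_pos hb ha)).trans (le_of_eq ?_)
    field_simp
    ring
  have h3 : (Real.log (1 + η * y') - Real.log (1 + η * y)) / η ≤ (y' - y) / (1 + η * y) := by
    rw [div_le_iff₀ hη]
    linarith
  have h4 := mul_le_mul_of_nonneg_left h3 (sub_nonneg.2 h1)
  have e1 : chi η σ y' - chi η σ y =
      σ * (y' - y) + (1 - σ) * ((Real.log (1 + η * y') - Real.log (1 + η * y)) / η) := by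
    unfold chi
    ring
  have e2 : sig η σ y * (y' - y) = σ * (y' - y) + (1 - σ) * ((y' - y) / (1 + η * y)) := by
    unfold sig
    ring
  linarith

theorem gam_ge {Θ Γ : ℝ} (hΘ : 0 ≤ Θ) (hΓ : 1 ≤ Γ) : 1 ≤ 50 * Ov Θ * Γ * (Θ + 3) := by
  have h1 : 1 ≤ Ov Θ := one_le_pow₀ (by linarith)
  have h2 : 1 ≤ Ov Θ * Γ := one_le_mul_of_one_le_of_one_le h1 hΓ
  nlinarith

theorem exp_big {T : ℝ} (hT : 100 ≤ T) : 430000 ≤ Real.exp T := by
  have h1 := Real.pow_div_factorial_le_exp T (by linarith) 4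
  have h2 : (100 : ℝ) ^ 4 ≤ T ^ 4 := pow_le_pow_left₀ (by norm_num) hT 4
  norm_num [Nat.factorial] at h1 h2
  linarith

theorem log_le_half {T a : ℝ} (ha : 0 < a) (h : a ≤ T / 2) : Real.log a ≤ T / 2 := by
  linarith [Real.log_le_sub_one_of_pos ha]

end ParamAux

open ParamAux

theorem param79 (hP : ProfStmt) (hN : NetStmt) : Param79Stmt := by
  classical
  intro ε η hε hε1 hη hη1
  set cA : ℝ := Real.log 2 + Real.log 4 / η with hcA
  choose Γ G hG using fun i : ℕ => hP (40 + i) (cA + 6) (by positivity)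
  obtain ⟨Γ', hΓ'⟩ : ∃ Γ' : ℕ → ℝ, ∀ i, Γ' i = 50 * Ov (40 + i) * Γ i * (40 + i + 3) :=
    ⟨_, fun _ => rfl⟩
  have hc : 0 < ε ^ 2 * η / 144 := by positivity
  have hc1 : ε ^ 2 * η / 144 ≤ 1 / 144 := by
    have : ε ^ 2 ≤ 1 := pow_le_one₀ hε.le hε1
    have : ε ^ 2 * η ≤ 1 := mul_le_one₀ this hη.le hη1
    linarith
  set c := ε ^ 2 * η / 144 with hcdef
  obtain ⟨L0, hL1, hL2⟩ : ∃ L0 : ℝ, 100 ≤ L0 ∧ Γ' 0 ^ 2 ≤ c * L0 := by
    refine ⟨max 100 (Γ' 0 ^ 2 / c), le_max_left _ _, ?_⟩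
    rw [← div_le_iff₀' hc]
    exact le_max_right _ _
  obtain ⟨T, hT⟩ : ∃ T : ℕ → ℝ, ∀ j, T j = 2 ^ j * L0 := ⟨_, fun _ => rfl⟩
  have hT1 : ∀ j : ℕ, ((j : ℝ) + 1) * L0 ≤ T j := fun j => by
    rw [hT]
    refine mul_le_mul_of_nonneg_right ?_ (by linarith)
    exact_mod_cast Nat.lt_two_pow_self
  have hT2 : ∀ j : ℕ, 100 * ((j : ℝ) + 1) ≤ T j := fun j => by
    have : (0 : ℝ) ≤ j := Nat.cast_nonneg j
    nlinarith [hT1 j]
  have hT3 : ∀ j, 100 ≤ T j := fun j => by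
    have : (0 : ℝ) ≤ j := Nat.cast_nonneg j
    linarith [hT2 j]
  have hT4 : ∀ j, L0 ≤ T j := fun j => by
    have : (0 : ℝ) ≤ j := Nat.cast_nonneg j
    nlinarith [hT1 j]
  have hTs : ∀ j, T (j + 1) = 2 * T j := fun j => by
    rw [hT, hT, pow_succ]
    ring
  obtain ⟨ix, hix⟩ : ∃ ix : ℕ → ℕ, ∀ j, ix j = Nat.findGreatest (fun i => Γ' i ^ 2 ≤ c * T j) j :=
    ⟨_, fun _ => rfl⟩
  have hix1 : ∀ j, (ix j : ℝ) ≤ j := fun j => by
    rw [hix]
    exact_mod_cast Nat.findGreatest_le j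
  have hix2 : ∀ j, Γ' (ix j) ^ 2 ≤ c * T j := fun j => by
    rw [hix]
    exact Nat.findGreatest_spec (P := fun i => Γ' i ^ 2 ≤ c * T j) (Nat.zero_le j)
      (hL2.trans (mul_le_mul_of_nonneg_left (hT4 j) hc.le))
  have hix3 : ∀ i0 : ℕ, ∃ j0 : ℕ, ∀ j, j0 ≤ j → i0 ≤ ix j := fun i0 => by
    obtain ⟨j1, hj1⟩ := exists_nat_ge (Γ' i0 ^ 2 / c)
    refine ⟨max i0 j1, fun j hj => ?_⟩
    rw [hix]
    refine Nat.le_findGreatest (le_of_max_le_left hj) ?_
    have h1 : (j1 : ℝ) ≤ j := by exact_mod_cast le_of_max_le_right hj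
    have h2 : (0 : ℝ) ≤ j := Nat.cast_nonneg j
    rw [← div_le_iff₀' hc]
    linarith [hT2 j]
  have hN' : ∀ j, 430000 ≤ Real.exp (T j) := fun j => exp_big (hT3 j)
  choose Λ hΛ using fun j : ℕ => hN (Real.exp (T j)) (by linarith [hN' j])
  let W : Wells :=
    { N := fun j => Real.exp (T j)
      Θ := fun j => 40 + ix j
      Γ := fun j => Γ (ix j)
      b := cA + 6
      G := fun j => G (ix j)
      Λ := Λ
      N_pos := fun j => Real.exp_pos _
      Θ_ge := fun j => le_add_of_nonneg_right (Nat.cast_nonneg _)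
      prof := fun j => hG (ix j)
      net := hΛ
      l0 := by
        have h1 := hix1 0
        have h2 := hN' 0
        rw [Nat.cast_zero] at h1
        rw [div_le_iff₀ (Real.exp_pos _)]
        linarith
      dec := fun j => by
        rw [← hΓ', hTs, two_mul (T j), Real.exp_add, ← mul_div_assoc, ← div_div,
          div_le_div_iff_of_pos_right (Real.exp_pos _), div_le_iff₀ (Real.exp_pos _)]
        have h1 := hix1 (j + 1)
        have h2 := hix2 j
        have h3 := hT2 j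
        have h4 : (0 : ℝ) ≤ j := Nat.cast_nonneg j
        have h5 : (0 : ℝ) ≤ ix j := Nat.cast_nonneg _
        have h6 : (0 : ℝ) ≤ ix (j + 1) := Nat.cast_nonneg _
        have h7 := Real.pow_div_factorial_le_exp (T j) (by linarith) 2
        push_cast at h1
        norm_num [Nat.factorial] at h7
        have h8 : 4 * Γ' (ix j) ^ 2 ≤ T j := by nlinarith
        have h9 : 40 + (ix (j + 1) : ℝ) + 3 ≤ T j := by linarith
        have h10 : 4 * Γ' (ix j) ^ 2 * (40 + (ix (j + 1) : ℝ) + 3) ≤ T j * T j :=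
          mul_le_mul h8 h9 (by linarith) (by linarith)
        nlinarith [Real.exp_pos (T j)] }
  have hlog : ∀ (j : ℕ) (a : ℝ), 0 ≤ a → a ≤ 3 → Real.log (W.Θ j + a) ≤ T j / 2 := by
    intro j a ha ha3
    have h1 := hix1 j
    have h3 := hT2 j
    have h4 : (0 : ℝ) ≤ j := Nat.cast_nonneg j
    have h5 : (0 : ℝ) ≤ ix j := Nat.cast_nonneg _
    exact log_le_half (show 0 < 40 + (ix j : ℝ) + a by linarith)
      (show 40 + (ix j : ℝ) + a ≤ T j / 2 by linarith)
  have hlogN : ∀ j, Real.log (W.N j) = T j := fun j => Real.log_exp _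
  refine ⟨W, fun j => ?_, fun k _ => ?_⟩
  · have h1 : T j / 2 ≤ Real.log (1 / W.ell j) := by
      rw [Wells.ell, one_div_div, Real.log_div (W.N_pos j).ne' (by linarith [W.Θ_ge j]), hlogN]
      linarith [hlog j 3 (by norm_num) le_rfl]
    have h2 : W.Gam j = Γ' (ix j) := (hΓ' _).symm
    have h3 := hT3 j
    have h4 : η * (T j / 2) ≤ η * Real.log (1 / W.ell j) := mul_le_mul_of_nonneg_left h1 hη.le
    have h5 : 0 < η * (T j / 2) := by positivity
    rw [h2, sig, zero_add, sub_zero, ← mul_div_assoc, mul_one, div_le_iff₀ (by linarith)]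
    have h6 := hix2 j
    have h7 : 72 * (c * T j) = ε ^ 2 * (η * (T j / 2)) := by
      rw [hcdef]
      ring
    have h8 : ε ^ 2 * (η * (T j / 2)) ≤ ε ^ 2 * (1 + η * Real.log (1 / W.ell j)) :=
      mul_le_mul_of_nonneg_left (by linarith) (sq_nonneg ε)
    linarith
  · obtain ⟨i0, hi0⟩ := exists_nat_ge (128 * Real.exp (k * (cA + 2) / 2))
    obtain ⟨j0, hj0⟩ := hix3 i0
    refine ⟨cA, j0, le_rfl, fun j hj => ?_, fun j _ p x hp hx hsp hsx => ?_⟩
    · have h1 : (i0 : ℝ) ≤ ix j := by exact_mod_cast hj0 j hj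
      show _ ≤ 40 + (ix j : ℝ)
      linarith
    · have h1 := shell_lo W hp hsp
      have h2 := shell_hi W hx hsx (show 2 ≤ Real.exp (T (j + 1)) by linarith [hN' (j + 1)])
      have h3 := hlog j 1 (by norm_num) (by norm_num)
      rw [hlogN] at h1 h2
      rw [hTs] at h2
      have hx0 := yy_nonneg (mem_Bl_of_hh (shell_pos W hsx))
      have hp0 := yy_nonneg (mem_Bl_of_hh (shell_pos W hsp))
      refine (afun_diff hp hx (shell_pos W hsp) (shell_pos W hsx)).trans ?_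
      have h4 : Real.log (1 + η * yy x) - Real.log (1 + η * yy p) ≤ Real.log 4 := by
        rw [← Real.log_div (by positivity) (by positivity)]
        refine Real.log_le_log (by positivity) ?_
        rw [div_le_iff₀ (by positivity)]
        have : η * yy x ≤ η * (4 * yy p) := mul_le_mul_of_nonneg_left (by linarith) hη.le
        linarith
      have h5 : chi η 0 (yy x) - chi η 0 (yy p) =
          (Real.log (1 + η * yy x) - Real.log (1 + η * yy p)) / η := by
        unfold chi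
        ring
      rw [h5, hcA]
      gcongr

theorem param78 (hP : ProfStmt) (hN : NetStmt) : Param78Stmt := by
  intro ε η hε hε1 hη hη1
  set cA : ℝ := Real.log 2 + 1 with hcA
  obtain ⟨Θ, hΘ1, hΘ2⟩ : ∃ Θ : ℝ, 40 ≤ Θ ∧ 128 * Real.exp ((1 : ℕ) * (cA + 2) / 2) ≤ Θ :=
    ⟨max _ _, le_max_left _ _, le_max_right _ _⟩
  obtain ⟨Γ, G, hG⟩ := hP Θ (cA + 6) (by linarith)
  obtain ⟨Γ', hΓ'⟩ : ∃ Γ' : ℝ, Γ' = 50 * Ov Θ * Γ * (Θ + 3) := ⟨_, rfl⟩
  have hΓ1 : 1 ≤ Γ' := hΓ' ▸ gam_ge (by linarith) hG.one_le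
  obtain ⟨Q, hQ⟩ : ∃ Q : ℝ, Q = 4 * Γ' ^ 2 := ⟨_, rfl⟩
  have hΓ2 : 1 ≤ Γ' ^ 2 := one_le_pow₀ hΓ1
  have hQ1 : 1 ≤ Q := by linarith
  have hl : 0 < Real.log Q + Real.log (Θ + 1) :=
    add_pos_of_nonneg_of_pos (Real.log_nonneg hQ1) (Real.log_pos (by linarith))
  obtain ⟨δ, hδ0, hδ1, hδ2⟩ : ∃ δ : ℝ, 0 < δ ∧ 72 * Γ' ^ 2 * δ ≤ ε ^ 2 ∧
      δ * (Real.log Q + Real.log (Θ + 1)) ≤ 1 := by
    refine ⟨min (ε ^ 2 / (72 * Γ' ^ 2)) (1 / (Real.log Q + Real.log (Θ + 1))),
      lt_min (by positivity) (by positivity), ?_, ?_⟩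
    · rw [← le_div_iff₀' (by positivity)]
      exact min_le_left _ _
    · rw [← le_div_iff₀ hl]
      exact min_le_right _ _
  have hδ3 : δ ≤ 1 := by
    have : ε ^ 2 ≤ 1 := pow_le_one₀ hε.le hε1
    nlinarith
  obtain ⟨y0, hy0⟩ : ∃ y0 : ℝ, y0 = 2 / (δ * η) := ⟨_, rfl⟩
  have hy1 : 0 < y0 := by
    rw [hy0]
    positivity
  have hsig : ∀ y, y0 ≤ y → sig η (δ / 2) y ≤ δ := fun y hy => by
    refine (sig_anti hη.le (by linarith) hy1.le hy).trans ?_
    have h1 : η * y0 = 2 / δ := by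
      rw [hy0]
      field_simp
    have h2 : (1 - δ / 2) / (1 + 2 / δ) ≤ δ / 2 := by
      rw [div_le_iff₀ (by positivity)]
      have : δ / 2 * (1 + 2 / δ) = δ / 2 + 1 := by field_simp
      linarith
    rw [sig, h1]
    linarith
  obtain ⟨M, hM1, hM2⟩ : ∃ M : ℝ, 10000 ≤ M ∧ y0 ≤ Real.log M := by
    refine ⟨max 10000 (Real.exp y0), le_max_left _ _, ?_⟩
    rw [Real.le_log_iff_exp_le (lt_max_of_lt_left (by norm_num))]
    exact le_max_right _ _
  obtain ⟨N, hNd⟩ : ∃ N : ℕ → ℝ, ∀ j, N j = (Θ + 3) * M * Q ^ j := ⟨_, fun _ => rfl⟩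
  have hN1 : ∀ j, (Θ + 3) * M ≤ N j := fun j => by
    rw [hNd]
    exact le_mul_of_one_le_right (by positivity) (one_le_pow₀ hQ1)
  have hN2 : ∀ j, 1600 ≤ N j := fun j => by nlinarith [hN1 j]
  have hN3 : ∀ j, N (j + 1) = Q * N j := fun j => by
    rw [hNd, hNd, pow_succ]
    ring
  have hN4 : ∀ j, Real.log (Θ + 3) + y0 ≤ Real.log (N j) := fun j => by
    have h1 : Real.log ((Θ + 3) * M) ≤ Real.log (N j) := Real.log_le_log (by positivity) (hN1 j)
    rw [Real.log_mul (by positivity) (by positivity)] at h1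
    linarith
  choose Λ hΛ using fun j : ℕ => hN (N j) (hN2 j)
  let W : Wells :=
    { N := N
      Θ := fun _ => Θ
      Γ := fun _ => Γ
      b := cA + 6
      G := fun _ => G
      Λ := Λ
      N_pos := fun j => by linarith [hN2 j]
      Θ_ge := fun _ => hΘ1
      prof := fun _ => hG
      net := hΛ
      l0 := by
        rw [div_le_iff₀ (by linarith [hN2 0])]
        nlinarith [hN1 0]
      dec := fun j => by
        rw [← hΓ', ← hQ, hN3]
        have h1 : 0 < N j := by linarith [hN2 j]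
        refine le_of_eq ?_
        field_simp }
  refine ⟨δ / 2, W, by positivity, by linarith, fun j => ?_, cA, 0, le_rfl, fun j _ => hΘ2,
    fun j _ p x hp hx hsp hsx => ?_⟩
  · have h1 : y0 ≤ Real.log (1 / W.ell j) := by
      rw [Wells.ell, one_div_div, Real.log_div (W.N_pos j).ne' (by linarith [W.Θ_ge j])]
      have := hN4 j
      show y0 ≤ Real.log (N j) - Real.log (Θ + 3)
      linarith
    have h2 : W.Gam j = Γ' := hΓ'.symm
    rw [h2]
    exact (mul_le_mul_of_nonneg_left (hsig _ h1) (by positivity)).trans hδ1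
  · have h1 : Real.log (N j) - Real.log (Θ + 1) ≤ yy p := shell_lo W hp hsp
    have h2 : yy x ≤ Real.log (N (j + 1)) :=
      shell_hi W hx hsx (show 2 ≤ N (j + 1) by linarith [hN2 (j + 1)])
    rw [hN3, Real.log_mul (by positivity) (by linarith [hN2 j])] at h2
    have hx0 := yy_nonneg (mem_Bl_of_hh (shell_pos W hsx))
    have hp0 := yy_nonneg (mem_Bl_of_hh (shell_pos W hsp))
    refine (afun_diff hp hx (shell_pos W hsp) (shell_pos W hsx)).trans ?_
    have h3 : Real.log (Θ + 1) ≤ Real.log (Θ + 3) := Real.log_le_log (by linarith) (by linarith)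
    have h4 : sig η (δ / 2) (yy p) ≤ δ := hsig _ (by linarith [hN4 j])
    have h5 := chi_sub_le (σ := δ / 2) hη (by linarith) hp0 hx0
    have h6 : 0 < sig η (δ / 2) (yy p) := sig_pos hη.le (by positivity) (by linarith) hp0
    have h7 : sig η (δ / 2) (yy p) * (yy x - yy p) ≤
        sig η (δ / 2) (yy p) * (Real.log Q + Real.log (Θ + 1)) :=
      mul_le_mul_of_nonneg_left (by linarith) h6.le
    have h8 := mul_le_mul_of_nonneg_right h4 hl.le
    linarith

end Crest.Agent.R245
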