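import Crest.Agent.R245.Basic

/-! Row 245: local form of the glued potential. -/

set_option autoImplicit false

open Complex Crest.GeometryTopology Filter
open scoped ContDiff ComplexConjugate Topology

namespace Crest.Agent.R245

namespace PotA

/-- the closed cap around `q0` in the `i`-th base -/
def Cap (i : Fin 3) (x : E 3) : Prop := nsq (pr i x - q0) ≤ 1 / 9

theorem cap_bounds {z : E 2} (h : nsq (z - q0) ≤ 1 / 9) : 2 / 3 ≤ ‖z 0‖ ∧ ‖z 1‖ ≤ 1 / 3 := by
  have h0 := (sq_le_nsq (z - q0) 0).trans h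
  have h1 := (sq_le_nsq (z - q0) 1).trans h
  have e0 : (z - q0) 0 = z 0 - 1 := rfl
  have e1 : (z - q0) 1 = z 1 := by
    show z 1 - 0 = z 1
    rw [sub_zero]
  rw [e0] at h0
  rw [e1] at h1
  have a0 : ‖z 0 - 1‖ ≤ 1 / 3 := by nlinarith [norm_nonneg (z 0 - 1)]
  have a1 : ‖z 1‖ ≤ 1 / 3 := by nlinarith [norm_nonneg (z 1)]
  refine ⟨?_, a1⟩
  have := norm_sub_norm_le (1 : ℂ) (z 0)
  rw [norm_one, norm_sub_rev] at this
  linarith

theorem i12 (i : Fin 3) : i + 1 + 1 = i + 2 := by revert i; decide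
theorem i13 (i : Fin 3) : i + 1 + 2 = i := by revert i; decide
theorem i21 (i : Fin 3) : i + 2 + 1 = i := by revert i; decide
theorem i22 (i : Fin 3) : i + 2 + 2 = i + 1 := by revert i; decide

theorem Cap.bd {i : Fin 3} {x : E 3} (h : Cap i x) :
    2 / 3 ≤ ‖x (i + 1)‖ ∧ ‖x (i + 2)‖ ≤ 1 / 3 := cap_bounds h

theorem Cap.bd1 {i : Fin 3} {x : E 3} (h : Cap (i + 1) x) :
    2 / 3 ≤ ‖x (i + 2)‖ ∧ ‖x i‖ ≤ 1 / 3 := by
  have := h.bd
  rwa [i12, i13] at this

theorem Cap.bd2 {i : Fin 3} {x : E 3} (h : Cap (i + 2) x) :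
    2 / 3 ≤ ‖x i‖ ∧ ‖x (i + 1)‖ ≤ 1 / 3 := by
  have := h.bd
  rwa [i21, i22] at this

theorem Cap.not1 {i : Fin 3} {x : E 3} (h : Cap i x) : ¬Cap (i + 1) x := fun h' => by
  linarith [h.bd.2, h'.bd1.1]

theorem Cap.not2 {i : Fin 3} {x : E 3} (h : Cap i x) : ¬Cap (i + 2) x := fun h' => by
  linarith [h.bd.1, h'.bd2.2]

theorem isClosed_cap (i : Fin 3) : IsClosed {x | Cap i x} :=
  isClosed_le (continuous_nsq.comp ((pr i).continuous.sub continuous_const)) continuous_const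

theorem efun_out (D : Base) {z : E 2} (h : 1 / 9 ≤ nsq (z - q0)) : efun D z = 0 := by
  unfold efun
  split_ifs with hz
  · rw [(D.out z hz h).2.1, psi0]; ring
  · rfl

theorem afun_out (D : Base) {z : E 2} (h : 1 / 9 ≤ nsq (z - q0)) : afun D z = 0 := by
  unfold afun
  split_ifs with hz
  · rw [(D.out z hz h).1, (D.out z hz h).2.2, psi0]; ring
  · rfl

theorem lfun_out (D : Base) {z : E 2} (h : 1 / 9 ≤ nsq (z - q0)) : lfun D z = 1 := by
  unfold lfun
  split_ifs with hz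
  · exact (D.out z hz h).2.2
  · rfl

theorem sum3 (f : Fin 3 → ℝ) (i : Fin 3) : ∑ j, f j = f i + f (i + 1) + f (i + 2) := by
  rw [Fin.sum_univ_three]
  fin_cases i
  · rfl
  · show _ = f 1 + f 2 + f 0
    ring
  · show _ = f 2 + f 0 + f 1
    ring

theorem prod3 (f : Fin 3 → ℝ) (i : Fin 3) : ∏ j, f j = f i * f (i + 1) * f (i + 2) := by
  rw [Fin.prod_univ_three]
  fin_cases i
  · rfl
  · show _ = f 1 * f 2 * f 0
    ring
  · show _ = f 2 * f 0 * f 1
    ring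

theorem theta_out (D : Base) {j : Fin 3} {x : E 3} (h : ¬Cap j x) : Theta D x j = x j := by
  unfold Theta
  rw [efun_out D (not_le.1 h).le]
  simp

theorem sfun_rot (D : Base) (i : Fin 3) (x : E 3) :
    sfun D (rot i x) = ‖x i‖ ^ 2 * Real.exp (D.φ (pr i x)) := by
  unfold sfun
  rw [pr_zero_rot, rot_apply, zero_add]

theorem nsq_theta (D : Base) {i : Fin 3} {x : E 3} (h1 : ¬Cap (i + 1) x) (h2 : ¬Cap (i + 2) x) :
    nsq (Theta D x) = ‖Theta D x i‖ ^ 2 + nsq (pr i x) := by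
  rw [nsq_two, pr_zero, pr_one, nsq, sum3 _ i, theta_out D h1, theta_out D h2, add_assoc]

theorem key_nsq (D : Base) {i : Fin 3} {x : E 3} (hB : pr i x ∈ Bl 2) (h1 : ¬Cap (i + 1) x)
    (h2 : ¬Cap (i + 2) x) :
    1 - nsq (Theta D x) = hh (pr i x) * (1 - sfun D (rot i x)) := by
  have e : ‖Theta D x i‖ ^ 2 = ‖x i‖ ^ 2 * Real.exp (D.φ (pr i x)) * hh (pr i x) := by
    unfold Theta efun
    rw [if_pos hB, norm_mul, mul_pow, Complex.norm_real, Real.norm_eq_abs, sq_abs, sq (Real.exp _),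
      ← Real.exp_add, add_halves, Real.exp_add, Real.exp_log (hh_pos hB), mul_assoc]
  rw [nsq_theta D h1 h2, e, sfun_rot]
  unfold hh
  ring

theorem key_lam (D : Base) {i : Fin 3} {x : E 3} (hB : pr i x ∈ Bl 2) (h1 : ¬Cap (i + 1) x)
    (h2 : ¬Cap (i + 2) x) : lamG D x = D.lam (pr i x) := by
  unfold lamG
  rw [prod3 _ i, lfun_out D (not_le.1 h1).le, lfun_out D (not_le.1 h2).le, mul_one, mul_one, lfun,
    if_pos hB]

theorem key_pot (D : Base) {i : Fin 3} {x : E 3} (hU : rot i x ∈ U0 D) (h1 : ¬Cap (i + 1) x)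
    (h2 : ¬Cap (i + 2) x) : Pot D x = Phi0 D (rot i x) := by
  have hB : pr i x ∈ Bl 2 := by
    have := hU.1
    rwa [pr_zero_rot] at this
  unfold Pot Phi0
  rw [key_nsq D hB h1 h2, key_lam D hB h1 h2, sum3 _ i, afun_out D (not_le.1 h1).le,
    afun_out D (not_le.1 h2).le, afun, if_pos hB, pr_zero_rot,
    Real.log_mul (hh_pos hB).ne' (sub_pos.2 hU.2).ne']
  ring

theorem key_rho (D : Base) {i : Fin 3} {x : E 3} (hU : rot i x ∈ U0 D) (h1 : ¬Cap (i + 1) x)
    (h2 : ¬Cap (i + 2) x) : rhoG D x = rho0 D (rot i x) := by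
  have hB : pr i x ∈ Bl 2 := by
    have := hU.1
    rwa [pr_zero_rot] at this
  unfold rhoG rho0
  rw [key_nsq D hB h1 h2, key_lam D hB h1 h2, pr_zero_rot]

theorem exists_index (x : E 3) : ∃ i : Fin 3, ¬Cap (i + 1) x ∧ ¬Cap (i + 2) x := by
  by_cases h : ∃ i, Cap i x
  · obtain ⟨i, hi⟩ := h
    exact ⟨i, hi.not1, hi.not2⟩
  · exact ⟨0, fun h' => h ⟨_, h'⟩, fun h' => h ⟨_, h'⟩⟩

end PotA

open PotA in
theorem pot : PotStmt := by
  intro D
  refine ⟨?_, ?_, ?_⟩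
  · intro i x hB hor hs
    have h12 : ¬Cap (i + 1) x ∧ ¬Cap (i + 2) x := by
      rcases hor with h | h
      · have h' : Cap i x := h.le
        exact ⟨h'.not1, h'.not2⟩
      · exact ⟨fun h' => by linarith [h'.bd1.1, h.2], fun h' => by linarith [h'.bd2.1, h.1]⟩
    have := key_nsq D hB h12.1 h12.2
    rw [sfun_rot] at this
    have hp := mul_pos (hh_pos hB) (sub_pos.2 hs)
    show nsq (Theta D x) < 1
    linarith
  · intro t ht0 ht1
    have e : pr 0 (![0, (t : ℂ), 0] : E 3) = ![(t : ℂ), 0] := by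
      rw [pr_apply]; rfl
    have hB : pr 0 (![0, (t : ℂ), 0] : E 3) ∈ Bl 2 := by
      rw [e]
      show nsq _ < 1
      rw [nsq_two]
      simp only [Matrix.cons_val_zero, Matrix.cons_val_one, norm_zero, Complex.norm_real,
        Real.norm_eq_abs, sq_abs]
      nlinarith
    rw [key_lam D hB, e]
    · intro h
      have := h.bd1.1
      have e2 : (![0, (t : ℂ), 0] : E 3) (0 + 2) = 0 := rfl
      rw [e2, norm_zero] at this
      linarith
    · intro h
      have := h.bd2.1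
      have e2 : (![0, (t : ℂ), 0] : E 3) 0 = 0 := rfl
      rw [e2, norm_zero] at this
      linarith
  · intro p hp
    obtain ⟨i, h1, h2⟩ := exists_index p
    have hp' : nsq (Theta D p) < 1 := hp
    have hB : pr i p ∈ Bl 2 := by
      show nsq _ < 1
      rw [nsq_theta D h1 h2] at hp'
      nlinarith [sq_nonneg ‖Theta D p i‖]
    have hU : rot i p ∈ U0 D := by
      refine ⟨by rwa [pr_zero_rot], ?_⟩
      have := key_nsq D hB h1 h2
      have hh0 := hh_pos hB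
      by_contra hc
      have : hh (pr i p) * (1 - sfun D (rot i p)) ≤ 0 :=
        mul_nonpos_of_nonneg_of_nonpos hh0.le (by linarith [not_lt.1 hc])
      linarith
    have ev0 : ∀ᶠ x in 𝓝 p, rot i x ∈ U0 D :=
      ((isOpen_U0 D).preimage (rot i).continuous).mem_nhds hU
    have ev1 : ∀ᶠ x in 𝓝 p, ¬Cap (i + 1) x := (isClosed_cap (i + 1)).isOpen_compl.mem_nhds h1
    have ev2 : ∀ᶠ x in 𝓝 p, ¬Cap (i + 2) x := (isClosed_cap (i + 2)).isOpen_compl.mem_nhds h2
    have hev := ev0.and (ev1.and ev2)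
    refine ⟨i, hU, ?_, ?_, ?_⟩
    · rw [pr_zero_rot, key_lam D hB h1 h2]
    · exact hev.mono fun x hx => key_pot D hx.1 hx.2.1 hx.2.2
    · exact hev.mono fun x hx => key_rho D hx.1 hx.2.1 hx.2.2

end Crest.Agent.R245
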