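import Crest.Agent.R245.ProfA

/-! Row 245: the periodic subharmonic profile of a well. -/

set_option autoImplicit false

open Complex
open scoped ContDiff ComplexConjugate Topology

namespace Crest.Agent.R245

namespace ProfAux

theorem comp_xo (f0 f1 f2 f3 f4 : ℂ) (j : J) : (J.comp f0 f1 f2 f3 f4 j).xo = f1 * j.xo := by
  simp [J.comp, J.nil, pow_succ]

theorem comp_oz (f0 f1 f2 f3 f4 : ℂ) (j : J) : (J.comp f0 f1 f2 f3 f4 j).oz = f1 * j.oz := by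
  simp [J.comp, J.nil, pow_succ]

theorem comp_xz (f0 f1 f2 f3 f4 : ℂ) (j : J) :
    (J.comp f0 f1 f2 f3 f4 j).xz = f1 * j.xz + f2 * (j.xo * j.oz) := by
  simp [J.comp, J.nil, pow_succ]
  ring

/-- the value, the first derivatives and the Levi form of `u (l x + c)` along `X` -/
def L4 (l : E 2 →L[ℂ] ℂ) (c : ℂ) (z X : E 2) (u : ℂ → ℂ) (a b e : ℂ) : Prop :=
  ContDiff ℝ ∞ u ∧ (jet ⟨X, 0, 0, X, 0, 0⟩ (fun x => u (l x + c)) z).xo = a ∧
    (jet ⟨X, 0, 0, X, 0, 0⟩ (fun x => u (l x + c)) z).oz = b ∧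
    (jet ⟨X, 0, 0, X, 0, 0⟩ (fun x => u (l x + c)) z).xz = e

variable {l : E 2 →L[ℂ] ℂ} {c : ℂ} {z X : E 2} {u v : ℂ → ℂ} {a b e a' b' e' : ℂ}

theorem L4.const (k : ℂ) : L4 l c z X (fun _ => k) 0 0 0 := by
  refine ⟨contDiff_const, ?_⟩
  rw [jet_const]; simp

theorem L4.id : L4 l c z X (fun ξ => ξ) (l X) 0 0 := by
  refine ⟨contDiff_id, ?_⟩
  rw [jet_id]; simp

theorem L4.conj : L4 l c z X (fun ξ => conj ξ) 0 (conj (l X)) 0 := by
  refine ⟨conj_smooth, ?_⟩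
  rw [jet_conj]; simp

theorem L4.add (hu : L4 l c z X u a b e) (hv : L4 l c z X v a' b' e') :
    L4 l c z X (fun ξ => u ξ + v ξ) (a + a') (b + b') (e + e') := by
  obtain ⟨su, rfl, rfl, rfl⟩ := hu
  obtain ⟨sv, rfl, rfl, rfl⟩ := hv
  refine ⟨su.add sv, ?_⟩
  rw [jet_add isOpen_univ (Set.mem_univ z) _ (on su l c) (on sv l c)]
  exact ⟨rfl, rfl, rfl⟩

theorem L4.const_mul (hu : L4 l c z X u a b e) (k : ℂ) :
    L4 l c z X (fun ξ => k * u ξ) (k * a) (k * b) (k * e) := by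
  obtain ⟨su, rfl, rfl, rfl⟩ := hu
  refine ⟨contDiff_const.mul su, ?_⟩
  rw [jet_const_mul isOpen_univ (Set.mem_univ z) _ k (on su l c)]
  exact ⟨rfl, rfl, rfl⟩

theorem mul_xo (i j : J) : (i * j).xo = i.oo * j.xo + i.xo * j.oo := by simp
theorem mul_oz (i j : J) : (i * j).oz = i.oo * j.oz + i.oz * j.oo := by simp
theorem mul_xz (i j : J) :
    (i * j).xz = i.oo * j.xz + i.oz * j.xo + (i.xo * j.oz + i.xz * j.oo) := by simp

theorem L4.mul (hu : L4 l c z X u a b e) (hv : L4 l c z X v a' b' e') :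
    L4 l c z X (fun ξ => u ξ * v ξ) (u (l z + c) * a' + a * v (l z + c))
      (u (l z + c) * b' + b * v (l z + c))
      (u (l z + c) * e' + b * a' + (a * b' + e * v (l z + c))) := by
  obtain ⟨su, rfl, rfl, rfl⟩ := hu
  obtain ⟨sv, rfl, rfl, rfl⟩ := hv
  refine ⟨su.mul sv, ?_⟩
  rw [jet_mul isOpen_univ (Set.mem_univ z) _ (on su l c) (on sv l c), mul_xo, mul_oz, mul_xz]
  exact ⟨rfl, rfl, rfl⟩

theorem L4.exp (hu : L4 l c z X u a b e) :
    L4 l c z X (fun ξ => cexp (u ξ)) (cexp (u (l z + c)) * a) (cexp (u (l z + c)) * b)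
      (cexp (u (l z + c)) * e + cexp (u (l z + c)) * (a * b)) := by
  obtain ⟨su, rfl, rfl, rfl⟩ := hu
  refine ⟨su.cexp, ?_⟩
  rw [jet_exp isOpen_univ (Set.mem_univ z) _ (on su l c), comp_xo, comp_oz, comp_xz]
  exact ⟨rfl, rfl, rfl⟩

theorem L4.congr (hu : L4 l c z X u a b e) (h : ∀ ξ, v ξ = u ξ) (h1 : a' = a) (h2 : b' = b)
    (h3 : e' = e) : L4 l c z X v a' b' e' := by
  rw [funext h, h1, h2, h3]; exact hu

theorem L4.re : L4 l c z X (fun ξ => (ξ.re : ℂ)) (l X / 2) (conj (l X) / 2) 0 :=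
  ((L4.id.add L4.conj).const_mul (1 / 2)).congr
    (fun ξ => by rw [Complex.add_conj]; push_cast; ring) (by ring) (by ring) (by ring)

theorem L4.comp_re {g : ℝ → ℝ} (hg : ContDiff ℝ ∞ g) :
    L4 l c z X (fun ξ => (g ξ.re : ℂ)) ((deriv g (l z + c).re : ℝ) * (l X / 2))
      ((deriv g (l z + c).re : ℝ) * (conj (l X) / 2))
      ((deriv (deriv g) (l z + c).re : ℝ) * (l X / 2 * (conj (l X) / 2))) := by
  obtain ⟨-, h1, h2, h3⟩ := L4.re (l := l) (c := c) (z := z) (X := X)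
  refine ⟨ofReal_smooth' (hg.comp re_smooth), ?_⟩
  rw [jet_comp_smooth isOpen_univ (Set.mem_univ z) _ (on re_smooth l c) hg, comp_xo, comp_oz,
    comp_xz, h1, h2, h3, mul_zero, zero_add]
  exact ⟨rfl, rfl, rfl⟩

theorem L4.log {w : ℂ → ℝ} (sw : ContDiff ℝ ∞ w) (hw : L4 l c z X (fun ξ => (w ξ : ℂ)) a b e)
    (hpos : ∀ ξ, 0 < w ξ) : L4 l c z X (fun ξ => (Real.log (w ξ) : ℂ))
      ((w (l z + c) : ℂ)⁻¹ * a) ((w (l z + c) : ℂ)⁻¹ * b)
      ((w (l z + c) : ℂ)⁻¹ * e + -((w (l z + c) : ℂ) ^ 2)⁻¹ * (a * b)) := by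
  obtain ⟨-, rfl, rfl, rfl⟩ := hw
  refine ⟨ofReal_smooth' (sw.log fun ξ => (hpos ξ).ne'), ?_⟩
  rw [jet_log isOpen_univ (Set.mem_univ z) _ (on sw l c) fun x _ => hpos _, comp_xo, comp_oz,
    comp_xz]
  exact ⟨rfl, rfl, rfl⟩

/-- the regularised squared modulus -/
noncomputable def P (d : ℝ) (ξ : ℂ) : ℝ := ‖1 - cexp ξ‖ ^ 2 + d

theorem P_smooth (d : ℝ) : ContDiff ℝ ∞ (P d) :=
  ((contDiff_const.sub contDiff_id.cexp).norm_sq ℂ).add contDiff_const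

theorem le_P (d : ℝ) (ξ : ℂ) : d ≤ P d ξ := le_add_of_nonneg_left (by positivity)

theorem P_eq (d : ℝ) (ξ : ℂ) :
    (P d ξ : ℂ) = (1 + -1 * cexp ξ) * (1 + -1 * cexp (conj ξ)) + d := by
  have : (1 + -1 * cexp (conj ξ)) = conj (1 - cexp ξ) := by
    rw [Complex.exp_conj, map_sub, map_one]; ring
  rw [this, show 1 + -1 * cexp ξ = 1 - cexp ξ by ring, Complex.mul_conj, Complex.normSq_eq_norm_sq,
    P]
  push_cast
  ring

theorem P_le {d Θ : ℝ} (hd : d ≤ 1) {ξ : ℂ} (h : ξ.re ≤ Θ) :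
    P d ξ ≤ (1 + Real.exp Θ) ^ 2 + 1 := by
  have h1 : ‖1 - cexp ξ‖ ≤ 1 + Real.exp Θ := by
    refine (norm_sub_le _ _).trans ?_
    rw [norm_one, Complex.norm_exp]
    linarith [Real.exp_le_exp.2 h]
  have := pow_le_pow_left₀ (norm_nonneg _) h1 2
  unfold P
  linarith

theorem sb_exp (Θ : ℝ) : SB Θ fun ξ => cexp ξ :=
  ⟨Real.exp Θ, fun ξ h => by rw [Complex.norm_exp]; exact Real.exp_le_exp.2 h⟩

theorem sb_exp' (Θ : ℝ) : SB Θ fun ξ => cexp (conj ξ) :=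
  ⟨Real.exp Θ, fun ξ h => by rw [Complex.norm_exp]; exact Real.exp_le_exp.2 h⟩

theorem SB.one_sub {Θ : ℝ} (h : SB Θ u) : SB Θ fun ξ => 1 + -1 * u ξ := by
  obtain ⟨B, hB⟩ := h
  refine ⟨1 + B, fun ξ hξ => (norm_add_le _ _).trans ?_⟩
  simpa using hB ξ hξ

theorem nb_P (Θ M d : ℝ) : NB Θ M fun ξ => (P d ξ : ℂ) := by
  simp only [P_eq]
  exact (((NB.const 1).add ((NB.id.exp (sb_exp Θ)).const_mul (-1))).mul
    ((NB.const 1).add ((NB.conj.exp (sb_exp' Θ)).const_mul (-1))) (sb_exp Θ).one_sub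
    (sb_exp' Θ).one_sub).add (NB.const _)

theorem abs_log_le {x k : ℝ} (hk : 0 < k) (h1 : k⁻¹ ≤ x) (h2 : x ≤ k) : |Real.log x| ≤ k - 1 := by
  have hx : 0 < x := (inv_pos.2 hk).trans_le h1
  have e1 := Real.log_le_sub_one_of_pos hx
  have e2 := Real.log_le_sub_one_of_pos (inv_pos.2 hx)
  have e3 : x⁻¹ ≤ k := inv_le_of_inv_le₀ hk h1
  rw [Real.log_inv] at e2
  rw [abs_le]
  constructor <;> linarith

theorem sb_log (Θ : ℝ) {d : ℝ} (hd : 0 < d) (hd1 : d ≤ 1) :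
    SB Θ fun ξ => (Real.log (P d ξ) : ℂ) := by
  refine ⟨max d⁻¹ ((1 + Real.exp Θ) ^ 2 + 1) - 1, fun ξ h => ?_⟩
  rw [Complex.norm_real, Real.norm_eq_abs]
  have h0 : 0 < d⁻¹ := inv_pos.2 hd
  refine abs_log_le (h0.trans_le (le_max_left _ _)) (le_trans ?_ (le_P d ξ))
    ((P_le hd1 h).trans (le_max_right _ _))
  exact inv_le_of_inv_le₀ hd (le_max_left _ _)

/-- the Levi form of the profile -/
theorem levi {χ f : ℝ → ℝ} (sχ : ContDiff ℝ ∞ χ) (sf : ContDiff ℝ ∞ f) {d : ℝ} (hd : 0 < d)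
    (k : ℝ) (l : E 2 →L[ℂ] ℂ) (c : ℂ) (z X : E 2) :
    dz X (dzb X fun x => ((k * (χ (l x + c).re * Real.log (P d (l x + c)) + f (l x + c).re) : ℝ) :
      ℂ)) z = (k * ‖l X‖ ^ 2 * (χ (l z + c).re * (‖cexp (l z + c)‖ ^ 2 * d / P d (l z + c) ^ 2)
        - deriv χ (l z + c).re * ((1 - cexp (l z + c)) * conj (cexp (l z + c))).re / P d (l z + c)
        + (deriv (deriv χ) (l z + c).re * Real.log (P d (l z + c))
          + deriv (deriv f) (l z + c).re) / 4) : ℝ) := by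
  have hpos : ∀ ξ, 0 < P d ξ := fun ξ => hd.trans_le (le_P d ξ)
  have h1 := ((((L4.const 1).add ((L4.id.exp).const_mul (-1))).mul
    ((L4.const 1).add ((L4.conj.exp).const_mul (-1)))).add (L4.const (l := l) (c := c) (z := z)
      (X := X) d)).congr (P_eq d) rfl rfl rfl
  have h2 := ((((L4.comp_re sχ).mul (L4.log (P_smooth d) h1 hpos)).add (L4.comp_re sf)).const_mul
    k).congr (v := fun ξ => ((k * (χ ξ.re * Real.log (P d ξ) + f ξ.re) : ℝ) : ℂ))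
      (fun ξ => by push_cast; ring) rfl rfl rfl
  refine h2.2.2.2.trans ?_
  have hP : (P d (l z + c) : ℂ) ≠ 0 := by exact_mod_cast (hpos _).ne'
  have hPe := P_eq d (l z + c)
  rw [Complex.exp_conj] at hPe ⊢
  have e1 : ∀ w : ℂ, ((‖w‖ : ℝ) : ℂ) ^ 2 = w * conj w := fun w => by
    rw [Complex.mul_conj, Complex.normSq_eq_norm_sq]; push_cast; ring
  have e2 : ∀ w : ℂ, ((w.re : ℝ) : ℂ) = (w + conj w) / 2 := fun w => by
    rw [Complex.add_conj]; push_cast; ring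
  have hd' : (d : ℂ) = P d (l z + c) -
      (1 + -1 * cexp (l z + c)) * (1 + -1 * conj (cexp (l z + c))) := by rw [hPe]; ring
  push_cast
  rw [e1, e1, e2 ((1 - cexp (l z + c)) * conj (cexp (l z + c))), hd']
  simp only [map_mul, map_sub, map_one, Complex.conj_conj]
  field_simp
  ring

theorem levi_nonneg {d : ℝ} (hd : 0 < d) (hd1 : d ≤ 1) {ξ : ℂ} {χ0 χ1 χ2 f2 : ℝ} (h0 : 0 ≤ χ0)
    (h1 : 4 * |χ1| + 3 * |χ2| ≤ f2) (h2 : -1 < ξ.re → χ1 = 0 ∧ χ2 = 0) :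
    0 ≤ χ0 * (‖cexp ξ‖ ^ 2 * d / P d ξ ^ 2) - χ1 * ((1 - cexp ξ) * conj (cexp ξ)).re / P d ξ
      + (χ2 * Real.log (P d ξ) + f2) / 4 := by
  have hP : 0 < P d ξ := hd.trans_le (le_P d ξ)
  have e0 : 0 ≤ χ0 * (‖cexp ξ‖ ^ 2 * d / P d ξ ^ 2) := by positivity
  rcases lt_or_ge (-1) ξ.re with hx | hx
  · obtain ⟨rfl, rfl⟩ := h2 hx
    simp only [abs_zero, mul_zero, add_zero] at h1
    simp only [zero_mul, zero_div, sub_zero, zero_add]
    linarith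
  · have he : ‖cexp ξ‖ ≤ 1 / 2 := by
      rw [Complex.norm_exp]
      refine (Real.exp_le_exp.2 hx).trans ?_
      rw [Real.exp_neg, inv_le_comm₀ (Real.exp_pos _) (by norm_num)]
      linarith [Real.add_one_le_exp 1]
    have ha : 1 / 2 ≤ ‖1 - cexp ξ‖ := by
      have := norm_sub_norm_le (1 : ℂ) (cexp ξ)
      rw [norm_one] at this
      linarith
    have ha' : ‖1 - cexp ξ‖ ≤ 3 / 2 := by
      have := norm_sub_le (1 : ℂ) (cexp ξ)
      rw [norm_one] at this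
      linarith
    have hP1 : ‖1 - cexp ξ‖ ^ 2 ≤ P d ξ := le_add_of_nonneg_right hd.le
    have hP2 : P d ξ ≤ 4 := by unfold P; nlinarith
    have e1 : |Real.log (P d ξ)| ≤ 4 - 1 := abs_log_le (by norm_num) (by nlinarith) hP2
    have e2 : |((1 - cexp ξ) * conj (cexp ξ)).re / P d ξ| ≤ 1 := by
      rw [abs_div, abs_of_pos hP, div_le_one hP]
      refine (Complex.abs_re_le_norm _).trans ?_
      rw [norm_mul, Complex.norm_conj]
      nlinarith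
    have e3 : |χ1 * (((1 - cexp ξ) * conj (cexp ξ)).re / P d ξ)| ≤ |χ1| * 1 := by
      rw [abs_mul]; gcongr
    have e4 : |χ2 * Real.log (P d ξ)| ≤ |χ2| * (4 - 1) := by
      rw [abs_mul]; gcongr
    rw [mul_div_assoc χ1]
    linarith [(abs_le.1 e3).2, (abs_le.1 e4).1]

end ProfAux

open ProfAux

theorem prof : ProfStmt := by
  intro Θ b hΘ
  obtain ⟨χ, f, sχ, sf, χ0, f0, hχ, χ1, hf, hz⟩ := exists_cut
  have zχ : Zf χ := ⟨sχ, fun x hx => χ0 x hx.le⟩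
  have zf : Zf f := ⟨sf, fun x hx => f0 x hx.le⟩
  obtain ⟨B, hB0, hB⟩ := zf.bdd Θ
  have hO : 0 < Ov Θ := by show 0 < (2 * Θ + 7) ^ 4; positivity
  set K : ℝ := (1 + Real.exp Θ) ^ 2 + B with hK
  have hK0 : 0 < K := by positivity
  set k : ℝ := 1 / Ov Θ / K with hk
  have hk0 : 0 < k := by positivity
  set d : ℝ := Real.exp (-(|b| / k + B)) with hd
  have hd0 : 0 < d := Real.exp_pos _
  have hd1 : d ≤ 1 := Real.exp_le_one_iff.2 (neg_nonpos.2 (by positivity))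
  have hpos : ∀ ξ, 0 < P d ξ := fun ξ => hd0.trans_le (le_P d ξ)
  set G : ℂ → ℝ := fun ξ => k * (χ ξ.re * Real.log (P d ξ) + f ξ.re) with hG
  have sG : ContDiff ℝ ∞ G := contDiff_const.mul (((sχ.comp re_smooth).mul
    ((P_smooth d).log fun ξ => (hpos ξ).ne')).add (sf.comp re_smooth))
  have nG : NB Θ (8 * (Θ + 3)) fun ξ => (G ξ : ℂ) := by
    have := ((zχ.nb.mul (NB.log (P_smooth d) (nb_P Θ (8 * (Θ + 3)) d) hd0 hd1 (le_P d)) zχ.sb
      (sb_log Θ hd0 hd1)).add zf.nb).const_mul k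
    convert this using 2 with ξ
    simp only [hG]
    push_cast
    ring
  obtain ⟨Γ1, p1, h1⟩ := nG.lip sG (by linarith)
  obtain ⟨-, Γ2, p2, h2⟩ := nG
  refine ⟨1 + Γ1 + Γ2, G, by linarith, sG, fun ξ h => ?_, fun ξ h => ?_, fun m => ?_,
    fun ξ ξ' h h' => (h1 ξ ξ' h h').trans ?_, fun l c z X => ?_,
    fun l c z F D e1 e2 a1 a2 a3 a4 a5 a6 => (h2 l c z F D e1 e2 ⟨a1, a2, a3, a4, a5, a6⟩).trans ?_⟩
  · simp only [hG, χ0 _ h, f0 _ h, zero_mul, add_zero, mul_zero]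
  · have e1 := Real.log_le_sub_one_of_pos (hpos ξ)
    have e2 := P_le hd1 h
    have e3 : χ ξ.re * Real.log (P d ξ) ≤ (1 + Real.exp Θ) ^ 2 := by
      have e4 : 0 ≤ (1 + Real.exp Θ) ^ 2 := by positivity
      nlinarith [(hχ ξ.re).1, (hχ ξ.re).2]
    have e5 : χ ξ.re * Real.log (P d ξ) + f ξ.re ≤ K := by linarith [(abs_le.1 (hB _ h)).2]
    refine (mul_le_mul_of_nonneg_left e5 hk0.le).trans_eq ?_
    rw [hk, div_mul_cancel₀ _ hK0.ne']
  · have e1 : (2 * Real.pi * I * m : ℂ).re = 0 := by simp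
    have e2 : cexp (2 * Real.pi * I * m) = 1 := by
      rw [mul_comm]; exact Complex.exp_int_mul_two_pi_mul_I m
    have e3 : P d (2 * Real.pi * I * m) = d := by simp [P, e2]
    simp only [hG, e1, e3, χ1, one_mul]
    rw [hd, Real.log_exp]
    have e4 := (abs_le.1 (hB 0 hΘ)).2
    have e5 : k * (|b| / k) = |b| := mul_div_cancel₀ _ hk0.ne'
    nlinarith [le_abs_self b]
  · gcongr; linarith
  · simp only [hG]
    rw [levi sχ sf hd0, Complex.ofReal_re]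
    exact mul_nonneg (by positivity)
      (levi_nonneg hd0 hd1 (hχ _).1 (hf _) fun hx => hz _ (Or.inl hx))
  · have := (norm_nonneg _).trans a1
    gcongr; linarith

end Crest.Agent.R245
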