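import Crest.Agent.R245.Basic

/-! Row 245: bounded jets along affine functions, and the cut-off functions of the profile. -/

set_option autoImplicit false

open Complex
open scoped ContDiff ComplexConjugate Topology

namespace Crest.Agent.R245.ProfAux

/-! ### functions of one real variable vanishing near `-∞` -/

/-- smooth and zero on `(-∞, -3)` -/
def Zf (g : ℝ → ℝ) : Prop := ContDiff ℝ ∞ g ∧ ∀ x < -3, g x = 0

theorem deriv_eq_zero_of {g : ℝ → ℝ} {s : Set ℝ} (hs : IsOpen s) {a : ℝ} (h : ∀ x ∈ s, g x = a) :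
    ∀ x ∈ s, deriv g x = 0 := fun x hx => by
  have : g =ᶠ[𝓝 x] fun _ => a := Filter.eventually_of_mem (hs.mem_nhds hx) h
  rw [this.deriv_eq, deriv_const]

theorem Zf.deriv {g : ℝ → ℝ} (h : Zf g) : Zf (deriv g) :=
  ⟨(contDiff_infty_iff_deriv.1 h.1).2, deriv_eq_zero_of isOpen_Iio h.2⟩

theorem Zf.bdd {g : ℝ → ℝ} (h : Zf g) (Θ : ℝ) : ∃ B, 0 ≤ B ∧ ∀ x ≤ Θ, |g x| ≤ B := by
  obtain ⟨B, hB⟩ := (isCompact_Icc (a := (-3 : ℝ)) (b := Θ)).exists_bound_of_continuousOn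
    h.1.continuous.continuousOn
  refine ⟨max B 0, le_max_right _ _, fun x hx => ?_⟩
  rcases lt_or_ge x (-3) with h1 | h1
  · rw [h.2 x h1, abs_zero]; exact le_max_right _ _
  · exact (hB x ⟨h1, hx⟩).trans (le_max_left _ _)

/-- the primitive vanishing at `-3` -/
noncomputable def prim (g : ℝ → ℝ) (x : ℝ) : ℝ := ∫ t in (-3 : ℝ)..x, g t

theorem deriv_prim {g : ℝ → ℝ} (hg : Continuous g) : deriv (prim g) = g :=
  funext fun x => (hg.integral_hasStrictDerivAt (-3) x).hasDerivAt.deriv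

theorem prim_smooth {g : ℝ → ℝ} (hg : ContDiff ℝ ∞ g) : ContDiff ℝ ∞ (prim g) :=
  contDiff_infty_iff_deriv.2
    ⟨fun x => (hg.continuous.integral_hasStrictDerivAt (-3) x).hasDerivAt.differentiableAt,
      by rwa [deriv_prim hg.continuous]⟩

theorem prim_zero {g : ℝ → ℝ} (h : ∀ x ≤ -3, g x = 0) : ∀ x ≤ -3, prim g x = 0 := fun x hx => by
  have : ∫ t in (-3 : ℝ)..x, g t = ∫ _t in (-3 : ℝ)..x, (0 : ℝ) :=
    intervalIntegral.integral_congr fun t ht => h t (by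
      rw [Set.uIcc_of_ge hx] at ht; exact ht.2)
  simpa [prim] using this

/-- a convex function and a cut-off -/
theorem exists_cut : ∃ χ f : ℝ → ℝ, ContDiff ℝ ∞ χ ∧ ContDiff ℝ ∞ f ∧ (∀ x ≤ -3, χ x = 0) ∧
    (∀ x ≤ -3, f x = 0) ∧ (∀ x, 0 ≤ χ x ∧ χ x ≤ 1) ∧ χ 0 = 1 ∧
    (∀ x, 4 * |deriv χ x| + 3 * |deriv (deriv χ) x| ≤ deriv (deriv f) x) ∧
    ∀ x, -1 < x ∨ x < -2 → deriv χ x = 0 ∧ deriv (deriv χ) x = 0 := by
  set χ : ℝ → ℝ := fun x => Real.smoothTransition (x + 2) with hχ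
  set g : ℝ → ℝ := fun x => expNegInvGlue (x + 3) with hg
  have sχ : ContDiff ℝ ∞ χ := Real.smoothTransition.contDiff.comp (contDiff_id.add contDiff_const)
  have sg : ContDiff ℝ ∞ g := expNegInvGlue.contDiff.comp (contDiff_id.add contDiff_const)
  have s1 := (contDiff_infty_iff_deriv.1 sχ).2
  have s2 := (contDiff_infty_iff_deriv.1 s1).2
  have hz : ∀ x, -1 < x ∨ x < -2 → deriv χ x = 0 ∧ deriv (deriv χ) x = 0 := by
    rintro x (hx | hx)
    · have h1 := deriv_eq_zero_of (g := χ) (isOpen_Ioi (a := -1)) (a := 1) fun y hy =>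
        Real.smoothTransition.one_of_one_le (by linarith [Set.mem_Ioi.1 hy])
      exact ⟨h1 x hx, deriv_eq_zero_of isOpen_Ioi h1 x hx⟩
    · have h1 := deriv_eq_zero_of (g := χ) (isOpen_Iio (a := -2)) (a := 0) fun y hy =>
        Real.smoothTransition.zero_of_nonpos (by linarith [Set.mem_Iio.1 hy])
      exact ⟨h1 x hx, deriv_eq_zero_of isOpen_Iio h1 x hx⟩
  have hc : ContinuousOn (fun x => (4 * |deriv χ x| + 3 * |deriv (deriv χ) x|) / g x)
      (Set.Icc (-2) (-1)) := by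
    refine ContinuousOn.div ?_ sg.continuous.continuousOn fun x hx =>
      (expNegInvGlue.pos_of_pos (by linarith [hx.1])).ne'
    exact ((continuous_const.mul s1.continuous.abs).add
      (continuous_const.mul s2.continuous.abs)).continuousOn
  obtain ⟨K, hK⟩ := isCompact_Icc.exists_bound_of_continuousOn hc
  have hK0 : 0 ≤ K := (norm_nonneg _).trans (hK (-1) ⟨by norm_num, le_rfl⟩)
  have sKg : ContDiff ℝ ∞ fun x => K * g x := contDiff_const.mul sg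
  refine ⟨χ, prim (prim fun x => K * g x), sχ, prim_smooth (prim_smooth sKg), fun x hx =>
    Real.smoothTransition.zero_of_nonpos (by linarith), prim_zero (prim_zero fun x hx => ?_),
    fun x => ⟨Real.smoothTransition.nonneg _, Real.smoothTransition.le_one _⟩,
    Real.smoothTransition.one_of_one_le (by norm_num), fun x => ?_, hz⟩
  · simp only [hg]
    rw [expNegInvGlue.zero_of_nonpos (by linarith), mul_zero]
  · rw [deriv_prim (prim_smooth sKg).continuous, deriv_prim sKg.continuous]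
    by_cases hx : -1 < x ∨ x < -2
    · rw [(hz x hx).1, (hz x hx).2]
      simpa using mul_nonneg hK0 (expNegInvGlue.nonneg _)
    · push Not at hx
      have hp : 0 < g x := expNegInvGlue.pos_of_pos (by linarith [hx.2])
      rw [← div_le_iff₀ hp]
      exact (le_abs_self _).trans (hK x ⟨hx.2, hx.1⟩)

/-! ### bounded jets -/

/-- the frame is small for `l` -/
structure Ok (l : E 2 →L[ℂ] ℂ) (F : Fr 2) (D : ℝ) : Prop where
  X : ‖l F.X‖ ≤ D
  Y : ‖l F.Y‖ ≤ D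
  b : ‖l F.b‖ ≤ D
  Z : ‖l F.Z‖ ≤ D
  W : ‖l F.W‖ ≤ D
  c : ‖l F.c‖ ≤ D

theorem Ok.nonneg {l : E 2 →L[ℂ] ℂ} {F : Fr 2} {D : ℝ} (h : Ok l F D) : 0 ≤ D :=
  (norm_nonneg _).trans h.X

/-- bounded jets on the half plane `re ≤ Θ` -/
def NB (Θ M : ℝ) (u : ℂ → ℂ) : Prop :=
  ContDiff ℝ ∞ u ∧ ∃ Γ, 0 ≤ Γ ∧ ∀ (l : E 2 →L[ℂ] ℂ) (c : ℂ) (z : E 2) (F : Fr 2) (D : ℝ),
    (l z + c).re ≤ Θ → D ≤ M → Ok l F D → ‖J.nil (jet F (fun x => u (l x + c)) z)‖ ≤ Γ * D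

/-- bounded on the half plane `re ≤ Θ` -/
def SB (Θ : ℝ) (u : ℂ → ℂ) : Prop := ∃ B, ∀ ξ : ℂ, ξ.re ≤ Θ → ‖u ξ‖ ≤ B

theorem aff_smooth (l : E 2 →L[ℂ] ℂ) (c : ℂ) : ContDiff ℝ ∞ fun x => l x + c :=
  (l.contDiff.restrict_scalars ℝ).add contDiff_const

theorem on {F : Type} [NormedAddCommGroup F] [NormedSpace ℝ F] {u : ℂ → F} (hu : ContDiff ℝ ∞ u)
    (l : E 2 →L[ℂ] ℂ) (c : ℂ) : ContDiffOn ℝ ∞ (fun x => u (l x + c)) Set.univ :=
  (hu.comp (aff_smooth l c)).contDiffOn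

theorem jet_id (l : E 2 →L[ℂ] ℂ) (c : ℂ) (z : E 2) (F : Fr 2) :
    jet F (fun x => l x + c) z = J.hol (l z) (l F.X) (l F.Y) (l F.b) + J.C c := by
  rw [jet_add isOpen_univ (Set.mem_univ z) F (l.contDiff.restrict_scalars ℝ).contDiffOn
    contDiffOn_const, jet_clm, jet_const]

theorem conj_smooth : ContDiff ℝ ∞ fun ξ : ℂ => conj ξ := Complex.conjCLE.contDiff

theorem jet_conj (l : E 2 →L[ℂ] ℂ) (c : ℂ) (z : E 2) (F : Fr 2) :
    jet F (fun x => conj (l x + c)) z =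
      J.anti (conj (l z)) (conj (l F.Z)) (conj (l F.W)) (conj (l F.c)) + J.C (conj c) := by
  simp only [map_add]
  rw [jet_add isOpen_univ (Set.mem_univ z) F (f := fun x => conj (l x))
    (conj_smooth.comp (l.contDiff.restrict_scalars ℝ)).contDiffOn contDiffOn_const, jet_conj_clm,
    jet_const]

variable {Θ M : ℝ} {u v : ℂ → ℂ}

theorem NB.const (a : ℂ) : NB Θ M fun _ => a :=
  ⟨contDiff_const, 0, le_rfl, fun l c z F D _ _ _ => by rw [jet_const]; simp⟩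

theorem NB.id : NB Θ M fun ξ => ξ := by
  refine ⟨contDiff_id, 3, by norm_num, fun l c z F D _ _ h => ?_⟩
  rw [jet_id, J.nil_add, J.nil_C, add_zero, J.norm_eq]
  have := h.X
  have := h.Y
  have := h.b
  simp [J.nil]
  linarith

theorem NB.conj : NB Θ M fun ξ => conj ξ := by
  refine ⟨conj_smooth, 3, by norm_num, fun l c z F D _ _ h => ?_⟩
  rw [jet_conj, J.nil_add, J.nil_C, add_zero, J.norm_eq]
  have := h.Z
  have := h.W
  have := h.c
  simp [J.nil]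
  linarith

theorem NB.add (hu : NB Θ M u) (hv : NB Θ M v) : NB Θ M fun ξ => u ξ + v ξ := by
  obtain ⟨su, a, ha, hu⟩ := hu
  obtain ⟨sv, b, hb, hv⟩ := hv
  refine ⟨su.add sv, a + b, add_nonneg ha hb, fun l c z F D h1 h2 h3 => ?_⟩
  rw [jet_add isOpen_univ (Set.mem_univ z) F (on su l c) (on sv l c), J.nil_add, add_mul]
  exact (norm_add_le _ _).trans (add_le_add (hu l c z F D h1 h2 h3) (hv l c z F D h1 h2 h3))

theorem NB.const_mul (hu : NB Θ M u) (k : ℂ) : NB Θ M fun ξ => k * u ξ := by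
  obtain ⟨su, a, ha, hu⟩ := hu
  refine ⟨contDiff_const.mul su, ‖k‖ * a, by positivity, fun l c z F D h1 h2 h3 => ?_⟩
  rw [jet_const_mul isOpen_univ (Set.mem_univ z) F k (on su l c), J.nil_smul, norm_smul, mul_assoc]
  exact mul_le_mul_of_nonneg_left (hu l c z F D h1 h2 h3) (norm_nonneg _)

theorem NB.mul (hu : NB Θ M u) (hv : NB Θ M v) (bu : SB Θ u) (bv : SB Θ v) :
    NB Θ M fun ξ => u ξ * v ξ := by
  obtain ⟨su, a, ha, hu⟩ := hu
  obtain ⟨sv, b, hb, hv⟩ := hv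
  obtain ⟨A, hA⟩ := bu
  obtain ⟨B, hB⟩ := bv
  refine ⟨su.mul sv, |A| * b + |B| * a + a * b * |M|, by positivity,
    fun l c z F D h1 h2 h3 => ?_⟩
  rw [jet_mul isOpen_univ (Set.mem_univ z) F (on su l c) (on sv l c)]
  refine (J.norm_nil_mul_le _ _).trans ?_
  rw [jet_oo, jet_oo]
  have e1 := hu l c z F D h1 h2 h3
  have e2 := hv l c z F D h1 h2 h3
  have e3 := (hA _ h1).trans (le_abs_self A)
  have e4 := (hB _ h1).trans (le_abs_self B)
  have e5 := h3.nonneg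
  have e6 := h2.trans (le_abs_self M)
  calc _ ≤ |A| * (b * D) + |B| * (a * D) + a * D * (b * |M|) := by
        gcongr
        exact e2.trans (by gcongr)
    _ = _ := by ring

theorem nil_comp_le {a c M D : ℝ} (ha : 0 ≤ a) {f0 f1 f2 f3 f4 : ℂ} {j : J} (h1 : ‖f1‖ ≤ c)
    (h2 : ‖f2‖ ≤ c) (h3 : ‖f3‖ ≤ c) (h4 : ‖f4‖ ≤ c) (hD : ‖J.nil j‖ ≤ a * D) (hM : D ≤ M) :
    ‖J.nil (J.comp f0 f1 f2 f3 f4 j)‖ ≤ c * (1 + a * |M|) ^ 3 * a * D := by
  rw [mul_assoc _ a]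
  exact J.norm_nil_comp_le' h1 h2 h3 h4 hD
    (mul_le_mul_of_nonneg_left (hM.trans (le_abs_self M)) ha)

theorem NB.exp (hu : NB Θ M u) (b : SB Θ fun ξ => cexp (u ξ)) : NB Θ M fun ξ => cexp (u ξ) := by
  obtain ⟨su, a, ha, hu⟩ := hu
  obtain ⟨B, hB⟩ := b
  refine ⟨su.cexp, |B| * (1 + a * |M|) ^ 3 * a, by positivity, fun l c z F D h1 h2 h3 => ?_⟩
  rw [jet_exp isOpen_univ (Set.mem_univ z) F (on su l c)]
  have e := (hB _ h1).trans (le_abs_self B)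
  exact nil_comp_le ha e e e e (hu l c z F D h1 h2 h3) h2

theorem ofReal_smooth' {w : ℂ → ℝ} (hw : ContDiff ℝ ∞ w) : ContDiff ℝ ∞ fun ξ => (w ξ : ℂ) :=
  Complex.ofRealCLM.contDiff.comp hw

theorem NB.re : NB Θ M fun ξ => (ξ.re : ℂ) := by
  have := (NB.id (Θ := Θ) (M := M)).add NB.conj |>.const_mul (1 / 2)
  convert this using 2 with ξ
  rw [Complex.add_conj]
  push_cast
  ring

theorem re_smooth : ContDiff ℝ ∞ fun ξ : ℂ => ξ.re := Complex.reCLM.contDiff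

theorem Zf.nb {g : ℝ → ℝ} (h : Zf g) : NB Θ M fun ξ => (g ξ.re : ℂ) := by
  obtain ⟨-, a, ha, hu⟩ := NB.re (Θ := Θ) (M := M)
  obtain ⟨B1, p1, h1⟩ := h.deriv.bdd Θ
  obtain ⟨B2, p2, h2⟩ := h.deriv.deriv.bdd Θ
  obtain ⟨B3, p3, h3⟩ := h.deriv.deriv.deriv.bdd Θ
  obtain ⟨B4, p4, h4⟩ := h.deriv.deriv.deriv.deriv.bdd Θ
  refine ⟨ofReal_smooth' (h.1.comp re_smooth), (B1 + B2 + B3 + B4) * (1 + a * |M|) ^ 3 * a,
    by positivity, fun l c z F D e1 e2 e3 => ?_⟩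
  rw [jet_comp_smooth isOpen_univ (Set.mem_univ z) F (on re_smooth l c) h.1]
  refine nil_comp_le ha ?_ ?_ ?_ ?_ (hu l c z F D e1 e2 e3) e2 <;>
    rw [Complex.norm_real, Real.norm_eq_abs]
  · linarith [h1 _ e1]
  · linarith [h2 _ e1]
  · linarith [h3 _ e1]
  · linarith [h4 _ e1]

theorem Zf.sb {g : ℝ → ℝ} (h : Zf g) : SB Θ fun ξ => (g ξ.re : ℂ) := by
  obtain ⟨B, -, hB⟩ := h.bdd Θ
  exact ⟨B, fun ξ hξ => by rw [Complex.norm_real, Real.norm_eq_abs]; exact hB _ hξ⟩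

theorem NB.log {w : ℂ → ℝ} (sw : ContDiff ℝ ∞ w) (hw : NB Θ M fun ξ => (w ξ : ℂ)) {d : ℝ}
    (hd : 0 < d) (hd1 : d ≤ 1) (hdw : ∀ ξ, d ≤ w ξ) : NB Θ M fun ξ => (Real.log (w ξ) : ℂ) := by
  obtain ⟨-, a, ha, hu⟩ := hw
  have hpos : ∀ ξ, 0 < w ξ := fun ξ => hd.trans_le (hdw ξ)
  refine ⟨ofReal_smooth' (sw.log fun ξ => (hpos ξ).ne'), 6 * (d ^ 4)⁻¹ * (1 + a * |M|) ^ 3 * a,
    by positivity, fun l c z F D e1 e2 e3 => ?_⟩
  rw [jet_log isOpen_univ (Set.mem_univ z) F (on sw l c) fun x _ => hpos _]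
  have key : ∀ k ≤ 4, ‖(((w (l z + c) : ℝ) : ℂ) ^ k)⁻¹‖ ≤ (d ^ 4)⁻¹ := fun k hk => by
    rw [norm_inv, norm_pow, Complex.norm_real, Real.norm_of_nonneg (hpos _).le]
    exact inv_anti₀ (by positivity) ((pow_le_pow_of_le_one hd.le hd1 hk).trans
      (pow_le_pow_left₀ hd.le (hdw _) k))
  have h0 : 0 < (d ^ 4)⁻¹ := by positivity
  refine nil_comp_le ha ?_ ?_ ?_ ?_ (hu l c z F D e1 e2 e3) e2
  · have := key 1 (by norm_num)
    rw [pow_one] at this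
    linarith
  · rw [norm_neg]; linarith [key 2 (by norm_num)]
  · rw [norm_mul, Complex.norm_ofNat]; linarith [key 3 (by norm_num)]
  · rw [norm_mul, norm_neg, Complex.norm_ofNat]; linarith [key 4 le_rfl]

/-- bounded jets give a Lipschitz bound -/
theorem NB.lip {w : ℂ → ℝ} (sw : ContDiff ℝ ∞ w) (hw : NB Θ M fun ξ => (w ξ : ℂ)) (hM : 1 ≤ M) :
    ∃ Γ, 0 ≤ Γ ∧ ∀ ξ ξ' : ℂ, ξ.re ≤ Θ → ξ'.re ≤ Θ → |w ξ - w ξ'| ≤ Γ * ‖ξ - ξ'‖ := by
  obtain ⟨-, a, ha, hu⟩ := hw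
  have dw := sw.differentiable (by simp)
  refine ⟨2 * a, by positivity, fun ξ ξ' h h' => ?_⟩
  refine (convex_halfSpace_re_le Θ).norm_image_sub_le_of_norm_fderiv_le (𝕜 := ℝ)
    (fun x _ => dw x) (fun x hx => ?_) h' h
  refine ContinuousLinearMap.opNorm_le_of_unit_norm (by positivity) fun y hy => ?_
  set l : E 2 →L[ℂ] ℂ := ContinuousLinearMap.proj 0 with hl
  have e1 := hu l 0 (fun _ => x) ⟨fun _ => y, 0, 0, 0, 0, 0⟩ 1 (by simpa [hl] using hx) hM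
    ⟨by simp [hl, hy], by simp, by simp, by simp, by simp, by simp⟩
  have e2 := (J.norm_xo_le _).trans e1
  have e3 : (J.nil (jet ⟨fun _ => y, 0, 0, 0, 0, 0⟩ (fun t => (w (l t + 0) : ℂ)) fun _ => x)).xo =
      dz (fun _ => y) (fun t => (w (l t + 0) : ℂ)) fun _ => x := by
    simp [J.nil, jet]
  have hd : HasFDerivAt (fun t : E 2 => l t + 0) (l.restrictScalars ℝ) fun _ => x :=
    (l.restrictScalars ℝ).hasFDerivAt.add_const 0
  have hc := (dw (l (fun _ => x) + 0)).hasFDerivAt.comp (fun _ => x) hd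
  have e4 := fderiv_real_eq (u := fun t => w (l t + 0)) hc.differentiableAt fun _ => y
  have e5 : fderiv ℝ (fun t => w (l t + 0)) (fun _ => x) (fun _ => y) = fderiv ℝ w x y := by
    rw [show (fun t => w (l t + 0)) = w ∘ fun t => l t + 0 from rfl, hc.fderiv]
    simp [hl]
  rw [← e5, e4, norm_mul, Real.norm_ofNat, Real.norm_eq_abs]
  rw [e3] at e2
  linarith [Complex.abs_re_le_norm (dz (fun _ => y) (fun t => (w (l t + 0) : ℂ)) fun _ => x)]

end Crest.Agent.R245.ProfAux
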