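import Crest.Agent.R245.Cap

/-! Row 245: the topology of the domain -/

set_option autoImplicit false

open Complex Crest.GeometryTopology
open scoped ContDiff ComplexConjugate Topology

namespace Crest.Agent.R245

namespace TopA

theorem nsq_rsmul {n : ℕ} (c : ℝ) (x : E n) : nsq (c • x) = c ^ 2 * nsq x := by
  simp only [nsq, Pi.smul_apply, norm_smul, mul_pow, Finset.mul_sum, Real.norm_eq_abs, sq_abs]

/-- the radial diffeomorphism onto the ball -/
noncomputable def toBall {n : ℕ} (x : E n) : E n := (1 / Real.sqrt (1 + nsq x)) • x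

/-- its inverse -/
noncomputable def ofBall {n : ℕ} (y : E n) : E n := (1 / Real.sqrt (1 - nsq y)) • y

section ball
variable {n : ℕ}

theorem nsq_toBall (x : E n) : nsq (toBall x) = nsq x / (1 + nsq x) := by
  have h : 0 < 1 + nsq x := by linarith [nsq_nonneg x]
  rw [toBall, nsq_rsmul, div_pow, Real.sq_sqrt h.le]; ring

theorem nsq_ofBall {y : E n} (hy : y ∈ Bl n) : nsq (ofBall y) = nsq y / (1 - nsq y) := by
  have h : 0 < 1 - nsq y := sub_pos.2 hy
  rw [ofBall, nsq_rsmul, div_pow, Real.sq_sqrt h.le]; ring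

theorem toBall_mem (x : E n) : toBall x ∈ Bl n := by
  have h : 0 < 1 + nsq x := by linarith [nsq_nonneg x]
  change nsq (toBall x) < 1
  rw [nsq_toBall, div_lt_one h]; linarith

theorem ofBall_toBall (x : E n) : ofBall (toBall x) = x := by
  have h : 0 < 1 + nsq x := by linarith [nsq_nonneg x]
  have h1 : 1 - nsq (toBall x) = (1 + nsq x)⁻¹ := by rw [nsq_toBall]; field_simp; ring
  have h2 := (Real.sqrt_pos.2 h).ne'
  rw [ofBall, h1, toBall, smul_smul, Real.sqrt_inv]
  convert one_smul ℝ x using 2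
  field_simp

theorem toBall_ofBall {y : E n} (hy : y ∈ Bl n) : toBall (ofBall y) = y := by
  have h : 0 < 1 - nsq y := sub_pos.2 hy
  have h1 : 1 + nsq (ofBall y) = (1 - nsq y)⁻¹ := by rw [nsq_ofBall hy]; field_simp; ring
  have h2 := (Real.sqrt_pos.2 h).ne'
  rw [toBall, h1, ofBall, smul_smul, Real.sqrt_inv]
  convert one_smul ℝ y using 2
  field_simp

theorem toBall_smooth : ContDiff ℝ ∞ (toBall : E n → E n) := by
  have h : ∀ x : E n, 0 < 1 + nsq x := fun x => by linarith [nsq_nonneg x]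
  exact (contDiff_const.div ((contDiff_const.add contDiff_nsq).sqrt fun x => (h x).ne')
    fun x => (Real.sqrt_pos.2 (h x)).ne').smul contDiff_id

theorem ofBall_smooth : ContDiffOn ℝ ∞ (ofBall : E n → E n) (Bl n) :=
  (contDiffOn_const.div ((contDiff_const.sub contDiff_nsq).contDiffOn.sqrt
    fun _ hx => (sub_pos.2 hx).ne') fun _ hx => (Real.sqrt_pos.2 (sub_pos.2 hx)).ne').smul
      contDiffOn_id

theorem isCompact_nsq_le (r : ℝ) : IsCompact {y : E n | nsq y ≤ r} := by
  refine Metric.isCompact_of_isClosed_isBounded (isClosed_le continuous_nsq continuous_const) ?_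
  refine (Metric.isBounded_closedBall (x := 0) (r := Real.sqrt r)).subset fun y hy => ?_
  rw [mem_closedBall_zero_iff, pi_norm_le_iff_of_nonneg (Real.sqrt_nonneg r)]
  exact fun i => Real.le_sqrt_of_sq_le ((sq_le_nsq y i).trans hy)

end ball

theorem ThetaInv_mem (D : Base) {y : E 3} (hy : y ∈ Bl 3) : ThetaInv D y ∈ Omega D := by
  change nsq (Theta D (ThetaInv D y)) < 1
  rwa [Theta_ThetaInv]

end TopA

open TopA in
theorem top : TopStmt := by
  intro D
  refine ⟨isOpen_Omega D, ⟨fun x => ThetaInv D (toBall x), fun x => ofBall (Theta D x), ?_, ?_,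
    ?_, fun x => ?_⟩, fun c => ?_⟩
  · exact (ThetaInv_smooth D).comp_contDiff toBall_smooth toBall_mem
  · exact ofBall_smooth.comp (Theta_smooth D) fun _ hx => hx
  · refine Set.Subset.antisymm ?_ fun x hx => ⟨ofBall (Theta D x), ?_⟩
    · rintro _ ⟨x, rfl⟩
      exact ThetaInv_mem D (toBall_mem x)
    · simp only [toBall_ofBall hx, ThetaInv_Theta]
  · simp only [Theta_ThetaInv, ofBall_toBall]
  · have hsub : {y : E 3 | nsq y ≤ 1 - Real.exp (-Real.exp c)} ⊆ Bl 3 := fun y hy =>
      lt_of_le_of_lt hy (sub_lt_self _ (Real.exp_pos _))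
    refine ⟨ThetaInv D '' {y | nsq y ≤ 1 - Real.exp (-Real.exp c)},
      (isCompact_nsq_le _).image_of_continuousOn ((ThetaInv_smooth D).continuousOn.mono hsub), ?_,
      fun x hx hc => ⟨Theta D x, ?_, ThetaInv_Theta D x⟩⟩
    · rintro _ ⟨y, hy, rfl⟩
      exact ThetaInv_mem D (hsub hy)
    · have h1 : 0 < 1 - nsq (Theta D x) := sub_pos.2 hx
      have h2 : Real.log (1 - nsq (Theta D x)) ≤ 0 :=
        Real.log_nonpos h1.le (sub_le_self _ (nsq_nonneg _))
      have h3 : 0 < 1 / lamG D x := one_div_pos.2 (lamG_pos D x)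
      have h4 := (Real.log_le_iff_le_exp (by linarith)).1 hc
      have h5 : Real.exp (-Real.exp c) ≤ 1 - nsq (Theta D x) :=
        (Real.le_log_iff_exp_le h1).1 (by linarith)
      change nsq (Theta D x) ≤ _
      linarith

end Crest.Agent.R245
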