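import Crest.Agent.R245.Main

/-! Row 245: elementary facts on systems of wells. -/

set_option autoImplicit false

open Complex Crest.GeometryTopology
open scoped ContDiff ComplexConjugate Topology

namespace Crest.Agent.R245

theorem xi_re (N Θ : ℝ) (a z : E 2) : (xi N Θ a z).re = Θ - N * (hh z + nsq (z - a)) := by
  rw [nsq_sub, xi, hh]
  simp only [add_re, mul_re, ofReal_re, ofReal_im, sub_re, sub_im, one_re, one_im, re_ofNat,
    im_ofNat]
  ring

/-- the linear part of `xi` -/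
noncomputable def xiL (N : ℝ) (a : E 2) : E 2 →L[ℂ] ℂ := ((2 * N : ℝ) : ℂ) • ipL a

/-- the constant part of `xi` -/
noncomputable def xiC (N Θ : ℝ) (a : E 2) : ℂ := ((-N * (1 + nsq a) + Θ : ℝ) : ℂ)

theorem xiL_apply (N : ℝ) (a X : E 2) : xiL N a X = ((2 * N : ℝ) : ℂ) * ip X a := by
  simp [xiL]

theorem xi_eq (N Θ : ℝ) (a z : E 2) : xi N Θ a z = xiL N a z + xiC N Θ a := by
  rw [xiL_apply, xi, xiC]
  push_cast
  ring

theorem contDiff_xi (N Θ : ℝ) (a : E 2) : ContDiff ℝ ∞ (xi N Θ a) := by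
  have : xi N Θ a = fun z => xiL N a z + xiC N Θ a := funext (xi_eq N Θ a)
  rw [this]
  exact ((xiL N a).restrictScalars ℝ).contDiff.add contDiff_const

theorem xi_re_le {N : ℝ} (hN : 0 ≤ N) (Θ : ℝ) (a : E 2) {z : E 2} (hz : z ∈ Bl 2) :
    (xi N Θ a z).re ≤ Θ := by
  rw [xi_re]
  have := mul_nonneg hN (add_nonneg (hh_pos hz).le (nsq_nonneg (z - a)))
  linarith

theorem Ov_pos {Θ : ℝ} (h : 0 ≤ Θ) : 0 < Ov Θ := by unfold Ov; positivity

namespace Wells

variable (W : Wells)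

theorem Θ_nonneg (j : ℕ) : 0 ≤ W.Θ j := by linarith [W.Θ_ge j]

theorem N_mul_ell (j : ℕ) : W.N j * W.ell j = W.Θ j + 3 :=
  mul_div_cancel₀ _ (W.N_pos j).ne'

theorem ell_anti : Antitone W.ell :=
  antitone_nat_of_succ_le fun j => by linarith [W.ell_succ_le j, W.ell_pos (j + 1)]

theorem ell_add_le (j m : ℕ) : W.ell (j + m) ≤ W.ell j / 4 ^ m := by
  induction m with
  | zero => simp
  | succ m ih =>
    have := W.ell_succ_le (j + m)
    rw [pow_succ, ← div_div, le_div_iff₀ (by norm_num), ← add_assoc]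
    linarith

theorem exists_ell_lt {h : ℝ} (hh : 0 < h) : ∃ J, W.ell J < h := by
  obtain ⟨m, hm⟩ := exists_pow_lt_of_lt_one hh (by norm_num : (1 / 4 : ℝ) < 1)
  refine ⟨m, lt_of_le_of_lt ?_ hm⟩
  have h1 := W.ell_add_le 0 m
  have h2 := W.ell_le 0
  rw [zero_add] at h1
  rw [one_div_pow]
  exact h1.trans (div_le_div_of_nonneg_right (by linarith) (by positivity))

theorem contDiff_term (j : ℕ) (a : E 2) :
    ContDiff ℝ ∞ fun z => W.G j (xi (W.N j) (W.Θ j) a z) :=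
  (W.prof j).smooth.comp (contDiff_xi _ _ a)

theorem contDiff_Psij (j : ℕ) : ContDiff ℝ ∞ (W.Psij j) :=
  ContDiff.sum fun a _ => W.contDiff_term j a

/-- a term vanishes above the height `ell j` -/
theorem term_eq_zero_of_ell {j : ℕ} {z : E 2} (h : W.ell j ≤ hh z) (a : E 2) :
    W.G j (xi (W.N j) (W.Θ j) a z) = 0 := by
  refine (W.prof j).zero _ ?_
  rw [xi_re]
  have h1 := W.N_mul_ell j
  have h2 := mul_le_mul_of_nonneg_left h (W.N_pos j).le
  have h3 := mul_nonneg (W.N_pos j).le (nsq_nonneg (z - a))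
  linarith

theorem Psij_eq_zero {j : ℕ} {z : E 2} (h : W.ell j ≤ hh z) : W.Psij j z = 0 :=
  Finset.sum_eq_zero fun a _ => W.term_eq_zero_of_ell h a

theorem Psi_eq_sum {J : ℕ} {z : E 2} (h : W.ell J ≤ hh z) :
    W.Psi z = ∑ j ∈ Finset.range J, W.Psij j z :=
  tsum_eq_sum fun _ hj => W.Psij_eq_zero
    ((W.ell_anti (not_lt.1 fun h' => hj (Finset.mem_range.2 h'))).trans h)

theorem Psi_eq_sum_ev {J : ℕ} {z : E 2} (h : W.ell J < hh z) :
    W.Psi =ᶠ[𝓝 z] fun x => ∑ j ∈ Finset.range J, W.Psij j x := by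
  filter_upwards [(isOpen_lt continuous_const contDiff_hh.continuous).mem_nhds h] with x hx
  exact W.Psi_eq_sum (le_of_lt hx)

theorem xi_re_lt {j : ℕ} {z a : E 2} (hz : z ∈ Bl 2) (h : W.Θ j + 3 ≤ W.N j * nsq (z - a)) :
    (xi (W.N j) (W.Θ j) a z).re < -3 := by
  rw [xi_re]
  have := mul_pos (W.N_pos j) (hh_pos hz)
  linarith

/-- inactive terms vanish -/
theorem term_eq_zero {j : ℕ} {z a : E 2} (hz : z ∈ Bl 2) (h : W.Θ j + 3 ≤ W.N j * nsq (z - a)) :
    W.G j (xi (W.N j) (W.Θ j) a z) = 0 :=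
  (W.prof j).zero _ (W.xi_re_lt hz h).le

/-- inactive terms vanish near the point -/
theorem term_eq_zero_ev {j : ℕ} {z a : E 2} (hz : z ∈ Bl 2)
    (h : W.Θ j + 3 ≤ W.N j * nsq (z - a)) :
    ∀ᶠ x in 𝓝 z, W.G j (xi (W.N j) (W.Θ j) a x) = 0 := by
  filter_upwards [(isOpen_lt (continuous_re.comp (contDiff_xi (W.N j) (W.Θ j) a).continuous)
    continuous_const).mem_nhds (W.xi_re_lt hz h)] with x hx
  exact (W.prof j).zero _ (le_of_lt hx)

open Classical in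
/-- a sum over the net whose inactive terms vanish -/
theorem sum_le_of_active (j : ℕ) (z : E 2) {f : E 2 → ℝ} {c : ℝ} (hc : 0 ≤ c)
    (h0 : ∀ a ∈ W.Λ j, W.Θ j + 3 ≤ W.N j * nsq (z - a) → f a = 0)
    (h1 : ∀ a ∈ W.Λ j, W.N j * nsq (z - a) < W.Θ j + 3 → f a ≤ c) :
    ∑ a ∈ W.Λ j, f a ≤ Ov (W.Θ j) * c := by
  rw [← Finset.sum_filter_of_ne (p := fun a => W.N j * nsq (z - a) < W.Θ j + 3)
    fun a ha hne => not_le.1 fun h => hne (h0 a ha h)]
  refine (Finset.sum_le_card_nsmul _ _ c fun a ha =>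
    h1 a (Finset.mem_filter.1 ha).1 (Finset.mem_filter.1 ha).2).trans ?_
  rw [nsmul_eq_mul]
  exact mul_le_mul_of_nonneg_right ((W.net j).overlap _ z _ (W.Θ_nonneg j)
    (Finset.filter_subset _ _) fun a ha => (Finset.mem_filter.1 ha).2) hc

theorem Psij_le_one (j : ℕ) {z : E 2} (hz : z ∈ Bl 2) : W.Psij j z ≤ 1 := by
  have hO := Ov_pos (W.Θ_nonneg j)
  refine (W.sum_le_of_active j z (c := 1 / Ov (W.Θ j)) (by positivity)
    (fun a _ h => W.term_eq_zero hz h)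
    fun a _ _ => (W.prof j).le _ (xi_re_le (W.N_pos j).le _ a hz)).trans_eq ?_
  field_simp

theorem nsq_lt_ell {j : ℕ} {z a : E 2} (h : W.N j * nsq (z - a) < W.Θ j + 3) :
    nsq (z - a) < W.ell j := by
  rw [ell, lt_div_iff₀ (W.N_pos j), mul_comm]
  exact h

/-- far from `q0` all the terms are inactive -/
theorem inactive_of_far {j : ℕ} {z a : E 2} (ha : a ∈ W.Λ j) (h : 1 / 16 ≤ nsq (z - q0)) :
    W.Θ j + 3 ≤ W.N j * nsq (z - a) := by
  by_contra hc
  have h1 := (W.nsq_lt_ell (not_le.1 hc)).le.trans (W.ell_le j)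
  have h2 := (W.net j).near a ha
  have h3 := sqrt_nsq_add_le (z - a) (a - q0)
  rw [sub_add_sub_cancel] at h3
  have h4 : Real.sqrt (nsq (z - a)) ≤ 1 / 100 :=
    Real.sqrt_le_iff.2 ⟨by norm_num, by linarith⟩
  have h5 : Real.sqrt (nsq (a - q0)) ≤ 1 / 8 :=
    Real.sqrt_le_iff.2 ⟨by norm_num, by linarith⟩
  have h6 : 1 / 4 ≤ Real.sqrt (nsq (z - q0)) :=
    Real.le_sqrt_of_sq_le (by linarith)
  linarith

theorem Psij_eq_zero_of_far (j : ℕ) {z : E 2} (hz : z ∈ Bl 2) (h : 1 / 16 ≤ nsq (z - q0)) :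
    W.Psij j z = 0 :=
  Finset.sum_eq_zero fun _ ha => W.term_eq_zero hz (W.inactive_of_far ha h)

theorem Psi_eq_zero_of_far {z : E 2} (hz : z ∈ Bl 2) (h : 1 / 16 ≤ nsq (z - q0)) :
    W.Psi z = 0 := by
  simp [Psi, W.Psij_eq_zero_of_far _ hz h]

theorem two_Gam_sqrt_le (j : ℕ) {h : ℝ} (hh : 0 ≤ h) :
    2 * W.Gam j * Real.sqrt (h / W.ell j) ≤ Real.sqrt (h / W.ell (j + 1)) := by
  have h1 : 4 * W.Gam j ^ 2 * W.ell (j + 1) ≤ W.ell j := W.dec j
  have h2 := W.ell_pos j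
  have h3 := W.ell_pos (j + 1)
  refine Real.le_sqrt_of_sq_le ?_
  rw [mul_pow, Real.sq_sqrt (by positivity), ← mul_div_assoc, div_le_div_iff₀ h2 h3]
  nlinarith [mul_le_mul_of_nonneg_left h1 hh]

theorem sum_Gam_le (j : ℕ) {h : ℝ} (hh : 0 ≤ h) :
    ∑ i ∈ Finset.range (j + 1), W.Gam i * Real.sqrt (h / W.ell i) ≤
      2 * W.Gam j * Real.sqrt (h / W.ell j) := by
  induction j with
  | zero =>
    have := W.one_le_Gam 0
    have := Real.sqrt_nonneg (h / W.ell 0)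
    rw [Finset.sum_range_one]
    nlinarith
  | succ j ih =>
    rw [Finset.sum_range_succ]
    have h1 := ih.trans (W.two_Gam_sqrt_le j hh)
    have h2 := W.one_le_Gam (j + 1)
    have h3 := Real.sqrt_nonneg (h / W.ell (j + 1))
    nlinarith

end Wells

end Crest.Agent.R245
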