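import Crest.Agent.R245.Wells0

/-! Row 245: smoothness, plurisubharmonicity and jets of the sum of the wells. -/

set_option autoImplicit false

open Complex Crest.GeometryTopology
open scoped ContDiff ComplexConjugate Topology

namespace Crest.Agent.R245

theorem dz_dzb_sum {n : ℕ} {ι : Type} (s : Finset ι) {f : ι → E n → ℂ}
    (hf : ∀ i ∈ s, ContDiffOn ℝ ∞ (f i) Set.univ) (X p : E n) :
    dz X (dzb X fun x => ∑ i ∈ s, f i x) p = ∑ i ∈ s, dz X (dzb X (f i)) p := by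
  have : (dzb X fun x => ∑ i ∈ s, f i x) = fun q => ∑ i ∈ s, dzb X (f i) q :=
    funext fun q => dzb_sum s (fun i hi => diffAt isOpen_univ (hf i hi) (Set.mem_univ q)) X
  rw [this]
  exact dz_sum s
    (fun i hi => diffAt isOpen_univ (dzb_smooth isOpen_univ (hf i hi) X) (Set.mem_univ p)) X

theorem subunit {z X : E 2} (hz : z ∈ Bl 2) (h : omq z X ≤ 1) :
    nsq X ≤ hh z ∧ ‖ip X z‖ ≤ hh z := by
  have h0 := hh_pos hz
  have h1 : 0 ≤ nsq X / hh z := div_nonneg (nsq_nonneg X) h0.le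
  have h2 : 0 ≤ ‖ip X z‖ ^ 2 / hh z ^ 2 := by positivity
  unfold omq at h
  constructor
  · exact (div_le_one h0).1 (by linarith)
  · exact le_of_sq_le_sq ((div_le_one (by positivity)).1 (by linarith)) h0.le

namespace Wells

variable (W : Wells)

/-- a single well, as a complex function -/
noncomputable def term (j : ℕ) (a : E 2) (x : E 2) : ℂ := (W.G j (xi (W.N j) (W.Θ j) a x) : ℝ)

theorem term_eq (j : ℕ) (a : E 2) :
    W.term j a = fun x => ((W.G j (xiL (W.N j) a x + xiC (W.N j) (W.Θ j) a) : ℝ) : ℂ) :=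
  funext fun x => by rw [term, xi_eq]

theorem term_smooth (j : ℕ) (a : E 2) : ContDiffOn ℝ ∞ (W.term j a) Set.univ :=
  ofReal_smooth (W.contDiff_term j a).contDiffOn

theorem sum_term_smooth (j : ℕ) :
    ContDiffOn ℝ ∞ (fun x => ∑ a ∈ W.Λ j, W.term j a x) Set.univ :=
  ContDiffOn.sum fun a _ => W.term_smooth j a

theorem cx_Psi_ev {J : ℕ} {z : E 2} (h : W.ell J < hh z) :
    cx W.Psi =ᶠ[𝓝 z] fun x => ∑ j ∈ Finset.range J, ∑ a ∈ W.Λ j, W.term j a x := by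
  filter_upwards [W.Psi_eq_sum_ev h] with x hx
  simp only [cx, hx, Psij, term, ofReal_sum]

theorem Psi_smooth : ContDiffOn ℝ ∞ W.Psi (Bl 2) := by
  intro z hz
  obtain ⟨J, hJ⟩ := W.exists_ell_lt (hh_pos hz)
  exact ((ContDiff.sum fun j _ => W.contDiff_Psij j).contDiffAt.congr_of_eventuallyEq
    (W.Psi_eq_sum_ev hJ)).contDiffWithinAt

theorem Psi_psh {z : E 2} (hz : z ∈ Bl 2) (X : E 2) : 0 ≤ (dz X (dzb X (cx W.Psi)) z).re := by
  obtain ⟨J, hJ⟩ := W.exists_ell_lt (hh_pos hz)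
  rw [(dz_congr_ev (dzb_congr_ev (W.cx_Psi_ev hJ) X) X).eq_of_nhds,
    dz_dzb_sum _ fun j _ => W.sum_term_smooth j, re_sum]
  refine Finset.sum_nonneg fun j _ => ?_
  rw [dz_dzb_sum _ fun a _ => W.term_smooth j a, re_sum]
  refine Finset.sum_nonneg fun a _ => ?_
  rw [term_eq]
  exact (W.prof j).sub _ _ z X

theorem norm_xiL_le {j : ℕ} {z a X : E 2} (hz : z ∈ Bl 2) (hj : hh z ≤ W.ell j)
    (ha : W.N j * nsq (z - a) < W.Θ j + 3) (hX : omq z X ≤ 1) :
    ‖xiL (W.N j) a X‖ ≤ 4 * (W.Θ j + 3) * Real.sqrt (hh z / W.ell j) := by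
  obtain ⟨h1, h2⟩ := subunit hz hX
  have h0 := hh_pos hz
  have hl := W.ell_pos j
  have hN := W.N_pos j
  have h3 := (W.nsq_lt_ell ha).le
  have h4 : ‖ip X (z - a)‖ ≤ Real.sqrt (hh z) * Real.sqrt (W.ell j) :=
    (norm_ip_le _ _).trans (mul_le_mul (Real.sqrt_le_sqrt h1) (Real.sqrt_le_sqrt h3)
      (Real.sqrt_nonneg _) (Real.sqrt_nonneg _))
  have h5 : hh z ≤ Real.sqrt (hh z) * Real.sqrt (W.ell j) := by
    calc hh z = Real.sqrt (hh z) * Real.sqrt (hh z) := (Real.mul_self_sqrt h0.le).symm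
      _ ≤ _ := mul_le_mul_of_nonneg_left (Real.sqrt_le_sqrt hj) (Real.sqrt_nonneg _)
  have h6 : ‖ip X a‖ ≤ 2 * (Real.sqrt (hh z) * Real.sqrt (W.ell j)) := by
    have e : ip X a = ip X z - ip X (z - a) := by rw [ip_sub_right]; ring
    rw [e]
    linarith [norm_sub_le (ip X z) (ip X (z - a))]
  have h7 : W.ell j * Real.sqrt (hh z / W.ell j) = Real.sqrt (hh z) * Real.sqrt (W.ell j) := by
    have h8 : 0 < Real.sqrt (W.ell j) := Real.sqrt_pos.2 hl
    rw [Real.sqrt_div h0.le, ← mul_div_assoc, div_eq_iff h8.ne', mul_assoc,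
      Real.mul_self_sqrt hl.le, mul_comm]
  rw [xiL_apply, norm_mul, norm_real, Real.norm_of_nonneg (by positivity), ← W.N_mul_ell j]
  calc _ ≤ 2 * W.N j * (2 * (Real.sqrt (hh z) * Real.sqrt (W.ell j))) := by gcongr
    _ = _ := by rw [← h7]; ring

theorem norm_xiL_bh_le {j : ℕ} {z a X Y : E 2} (hz : z ∈ Bl 2) (hj : hh z ≤ W.ell j)
    (ha : W.N j * nsq (z - a) < W.Θ j + 3) (hX : omq z X ≤ 1) (hY : omq z Y ≤ 1) :
    ‖xiL (W.N j) a (bh z X Y)‖ ≤ 8 * (W.Θ j + 3) * Real.sqrt (hh z / W.ell j) := by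
  have h0 := hh_pos hz
  have h1 := W.norm_xiL_le hz hj ha hX
  have h2 := W.norm_xiL_le hz hj ha hY
  have key : ∀ V, omq z V ≤ 1 → ‖ip V z / (hh z : ℂ)‖ ≤ 1 := fun V hV => by
    rw [norm_div, norm_real, Real.norm_of_nonneg h0.le]
    exact (div_le_one h0).2 (subunit hz hV).2
  rw [bh, map_neg, norm_neg, map_add, map_smul, map_smul]
  refine (norm_add_le _ _).trans ?_
  rw [norm_smul, norm_smul]
  have h3 := mul_le_mul_of_nonneg_right (key X hX) (norm_nonneg (xiL (W.N j) a Y))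
  have h4 := mul_le_mul_of_nonneg_right (key Y hY) (norm_nonneg (xiL (W.N j) a X))
  linarith

theorem jet_gen_le {j : ℕ} {z X Y Z V : E 2} (hz : z ∈ Bl 2) (hj : hh z ≤ W.ell j)
    (hX : omq z X ≤ 1) (hY : omq z Y ≤ 1) (hZ : omq z Z ≤ 1) (hV : omq z V ≤ 1) :
    ‖J.nil (jet (ofr z X Y Z V) (fun x => ∑ a ∈ W.Λ j, W.term j a x) z)‖ ≤
      W.Gam j * Real.sqrt (hh z / W.ell j) := by
  have hΘ := W.Θ_nonneg j
  have hΓ := (W.prof j).one_le
  have hO := Ov_pos hΘ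
  have hr0 := Real.sqrt_nonneg (hh z / W.ell j)
  have hr1 : Real.sqrt (hh z / W.ell j) ≤ 1 :=
    Real.sqrt_le_one.2 ((div_le_one (W.ell_pos j)).2 hj)
  rw [jet_sum isOpen_univ (Set.mem_univ z) _ _ fun a _ => W.term_smooth j a, J.nil_sum]
  refine (norm_sum_le _ _).trans ((W.sum_le_of_active j z
    (c := W.Γ j * (8 * (W.Θ j + 3) * Real.sqrt (hh z / W.ell j))) (by positivity)
    (fun a _ ha => ?_) fun a _ ha => ?_).trans ?_)
  · have : W.term j a =ᶠ[𝓝 z] fun _ => 0 := by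
      filter_upwards [W.term_eq_zero_ev hz ha] with x hx
      rw [term, hx, ofReal_zero]
    rw [jet_congr _ this, jet_const, J.nil_C, norm_zero]
  · have key : ∀ T, omq z T ≤ 1 →
        ‖xiL (W.N j) a T‖ ≤ 8 * (W.Θ j + 3) * Real.sqrt (hh z / W.ell j) := fun T hT =>
      (W.norm_xiL_le hz hj ha hT).trans (by gcongr; norm_num)
    rw [term_eq]
    refine (W.prof j).jb _ _ z _ _ ?_ ?_ (key X hX) (key Y hY) (W.norm_xiL_bh_le hz hj ha hX hY)
      (key Z hZ) (key V hV) (W.norm_xiL_bh_le hz hj ha hZ hV)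
    · rw [← xi_eq]
      exact xi_re_le (W.N_pos j).le _ a hz
    · exact mul_le_of_le_one_right (by positivity) hr1
  · calc _ = 8 * (Ov (W.Θ j) * W.Γ j * (W.Θ j + 3) * Real.sqrt (hh z / W.ell j)) := by ring
      _ ≤ 50 * (Ov (W.Θ j) * W.Γ j * (W.Θ j + 3) * Real.sqrt (hh z / W.ell j)) := by
          gcongr; norm_num
      _ = _ := by rw [Gam]; ring

theorem jetLe_zero {z : E 2} (h : cx W.Psi =ᶠ[𝓝 z] fun _ => 0) :
    JetLe z 0 fun F => jet F (cx W.Psi) z := by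
  intro X Y Z V _ _ _ _
  simp only
  rw [jet_congr _ h, jet_const, J.nil_C, norm_zero]

theorem jetLe_gen {j : ℕ} {z : E 2} (hz : z ∈ Bl 2) (hj : hh z ≤ W.ell j)
    (hj' : W.ell (j + 1) < hh z) : JetLe z (2 * W.Gam j) fun F => jet F (cx W.Psi) z := by
  intro X Y Z V hX hY hZ hV
  simp only
  rw [jet_congr _ (W.cx_Psi_ev hj'),
    jet_sum isOpen_univ (Set.mem_univ z) _ _ fun i _ => W.sum_term_smooth i, J.nil_sum]
  refine (norm_sum_le _ _).trans ((Finset.sum_le_sum fun i hi => W.jet_gen_le hz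
    (hj.trans (W.ell_anti (Nat.lt_succ_iff.1 (Finset.mem_range.1 hi)))) hX hY hZ hV).trans
    ((W.sum_Gam_le j (hh_pos hz).le).trans ?_))
  have := W.one_le_Gam j
  exact mul_le_of_le_one_right (by positivity)
    (Real.sqrt_le_one.2 ((div_le_one (W.ell_pos j)).2 hj))

end Wells

theorem wellsJet : WellsJetStmt := by
  intro W
  refine ⟨W.Psi_smooth, fun z hz => ⟨W.Psi_eq_zero_of_far hz, W.Psi_psh hz, ?_⟩⟩
  by_cases hfar : 1 / 16 < nsq (z - q0)
  · refine ⟨0, Or.inl rfl, W.jetLe_zero ?_⟩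
    filter_upwards [isOpen_Bl.mem_nhds hz, (isOpen_lt continuous_const
      (continuous_nsq.comp (continuous_id.sub continuous_const))).mem_nhds hfar] with x hx hx'
    rw [cx, W.Psi_eq_zero_of_far hx (le_of_lt hx'), ofReal_zero]
  have hex := W.exists_ell_lt (hh_pos hz)
  classical
  have h1 := Nat.find_spec hex
  rcases h : Nat.find hex with _ | j
  · rw [h] at h1
    refine ⟨0, Or.inl rfl, W.jetLe_zero ?_⟩
    simpa using W.cx_Psi_ev h1
  · rw [h] at h1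
    have h2 : hh z ≤ W.ell j := not_lt.1 (Nat.find_min hex (by omega))
    exact ⟨_, Or.inr ⟨j, h2, not_lt.1 hfar, rfl⟩, W.jetLe_gen hz h2 h1⟩

end Crest.Agent.R245
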